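import Vale.Agent.P099.Action

/-!
The anisotropic logarithmic cutoff.
-/

open MeasureTheory Set Filter Topology

noncomputable section

namespace Vale.Agent.P099

namespace LocalAction

variable {Ω : Type} [MeasurableSpace Ω] [TopologicalSpace Ω] {μ : Measure Ω}
  (L : LocalAction Ω μ) (ε : ℝ) (m : ℕ)

/-- Truncated rescaled distance to the singular set. -/
def cg (z : Ω) : ℝ := max (L.d z / ε - 40) 0

/-- One-sided anisotropic distance. -/
def cD (u : ℂ) (z : Ω) : ℝ := ⨅ n : ℕ, (L.cg ε ((L.T u)^[n] z) + n / m)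

lemma cg_nonneg (z : Ω) : 0 ≤ L.cg ε z := le_max_right _ _

variable {ε}

lemma cg_eq_zero (hε : 0 < ε) {z : Ω} (h : L.d z ≤ 40 * ε) : L.cg ε z = 0 := by
  refine max_eq_right ?_
  rw [sub_nonpos, div_le_iff₀ hε]; exact h

lemma cg_T (hε : 0 < ε) {v : ℂ} (hv : ‖v‖ = ε) (z : Ω) :
    |L.cg ε (L.T v z) - L.cg ε z| ≤ 1 := by
  refine (abs_max_sub_max_le_abs _ _ _).trans ?_
  rw [show L.d (L.T v z) / ε - 40 - (L.d z / ε - 40) = (L.d (L.T v z) - L.d z) / ε by ring,
    abs_div, abs_of_pos hε, div_le_one hε, ← hv]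
  exact L.d_T v z

lemma cD_bdd (u : ℂ) (z : Ω) :
    BddBelow (range fun n : ℕ => L.cg ε ((L.T u)^[n] z) + n / m) :=
  ⟨0, by rintro _ ⟨n, rfl⟩; have := L.cg_nonneg ε ((L.T u)^[n] z); positivity⟩

lemma cD_le (u : ℂ) (z : Ω) (n : ℕ) : L.cD ε m u z ≤ L.cg ε ((L.T u)^[n] z) + n / m :=
  ciInf_le (L.cD_bdd m u z) n

lemma cD_nonneg (u : ℂ) (z : Ω) : 0 ≤ L.cD ε m u z :=
  le_ciInf fun n => by have := L.cg_nonneg ε ((L.T u)^[n] z); positivity

lemma cD_le_cg (u : ℂ) (z : Ω) : L.cD ε m u z ≤ L.cg ε z := by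
  simpa using L.cD_le (ε := ε) m u z 0

lemma cD_step (u : ℂ) (z : Ω) : L.cD ε m u z ≤ L.cD ε m u (L.T u z) + 1 / m := by
  rw [← sub_le_iff_le_add]
  refine le_ciInf fun n => ?_
  have := L.cD_le (ε := ε) m u z (n + 1)
  rw [Function.iterate_succ_apply] at this
  push_cast at this
  rw [add_div] at this
  linarith

lemma measurable_cD (u : ℂ) : Measurable (L.cD ε m u) := by
  refine Measurable.iInf fun n => ?_
  have h1 : Measurable (L.cg ε) := ((L.meas_d.div_const ε).sub_const 40).max measurable_const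
  exact (h1.comp ((L.mpT u).measurable.iterate n)).add_const _

lemma cD_W (u : ℂ) (t : ℝ) (z : Ω) : L.cD ε m u (L.W t z) = L.cD ε m u z := by
  have : ∀ n : ℕ, ∀ z, (L.T u)^[n] (L.W t z) = L.W t ((L.T u)^[n] z) := by
    intro n
    induction n with
    | zero => intro z; rfl
    | succ n ih => intro z; rw [Function.iterate_succ_apply, L.T_W, ih]; rfl
  simp only [cD, this, cg, L.d_W]

lemma small_zero (hε : 0 < ε) {v : ℂ} (hv : ‖v‖ = ε) {z : Ω} (h : L.d z ≤ 6 * ε) :
    L.cg ε z = 0 ∧ L.cg ε (L.T v z) = 0 := by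
  have := (abs_le.1 (L.d_T v z)).2
  exact ⟨L.cg_eq_zero hε (by linarith), L.cg_eq_zero hε (by linarith)⟩

lemma cD_transverse (hε : 0 < ε) {u v : ℂ} (hu : ‖u‖ = ε) (hv : ‖v‖ = ε) (z : Ω) :
    |L.cD ε m u (L.T v z) - L.cD ε m u z| ≤ 1 := by
  have key : ∀ n : ℕ, ∀ z, L.cD ε m u (L.T v z) ≤ L.cg ε ((L.T u)^[n] z) + n / m + 1 ∧
      L.cD ε m u z ≤ L.cg ε ((L.T u)^[n] (L.T v z)) + n / m + 1 := by
    intro n
    induction n with
    | zero =>
      intro z
      have h1 := abs_le.1 (L.cg_T hε hv z)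
      have h2 := L.cD_le_cg (ε := ε) m u z
      have h3 := L.cD_le_cg (ε := ε) m u (L.T v z)
      simp only [Function.iterate_zero, id, Nat.cast_zero, zero_div, add_zero]
      constructor <;> linarith [h1.1, h1.2]
    | succ n ih =>
      intro z
      by_cases hz : L.d z ≤ 6 * ε
      · obtain ⟨h1, h2⟩ := L.small_zero hε hv hz
        have h3 := L.cD_le_cg (ε := ε) m u z
        have h4 := L.cD_le_cg (ε := ε) m u (L.T v z)
        have h5 := L.cg_nonneg ε ((L.T u)^[n + 1] z)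
        have h6 := L.cg_nonneg ε ((L.T u)^[n + 1] (L.T v z))
        have h7 : (0 : ℝ) ≤ ((n + 1 : ℕ) : ℝ) / m := by positivity
        constructor <;> linarith
      · have hc : L.T u (L.T v z) = L.T v (L.T u z) := by
          rw [L.T_add u v z (by rw [hu, hv]; linarith), L.T_add v u z (by rw [hu, hv]; linarith),
            add_comm]
        obtain ⟨h1, h2⟩ := ih (L.T u z)
        have h3 := L.cD_step (ε := ε) m u z
        have h4 := L.cD_step (ε := ε) m u (L.T v z)
        rw [Function.iterate_succ_apply, Function.iterate_succ_apply, hc]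
        rw [hc] at h4
        push_cast
        rw [add_div]
        constructor <;> linarith
  rw [abs_le]
  constructor
  · have : L.cD ε m u z - 1 ≤ L.cD ε m u (L.T v z) :=
      le_ciInf fun n => by linarith [(key n z).2]
    linarith
  · have : L.cD ε m u (L.T v z) - 1 ≤ L.cD ε m u z :=
      le_ciInf fun n => by linarith [(key n z).1]
    linarith

lemma cD_long (hε : 0 < ε) {u : ℂ} (hu : ‖u‖ = ε) (z : Ω) :
    |min (L.cD ε m u (L.T u z)) (L.cD ε m (-u) (L.T u z)) -
      min (L.cD ε m u z) (L.cD ε m (-u) z)| ≤ 1 / m := by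
  have hm : (0 : ℝ) ≤ 1 / m := by positivity
  by_cases hz : L.d z ≤ 6 * ε
  · obtain ⟨h1, h2⟩ := L.small_zero hε hu hz
    have e : ∀ w y, L.cg ε y = 0 → L.cD ε m w y = 0 := fun w y hy =>
      le_antisymm ((L.cD_le_cg m w y).trans hy.le) (L.cD_nonneg m w y)
    rw [e _ _ h1, e _ _ h1, e _ _ h2, e _ _ h2]
    simp
  · have hc : L.T (-u) (L.T u z) = z := by
      rw [L.T_add (-u) u z (by rw [norm_neg, hu]; linarith), neg_add_cancel,
        L.T_zero z (by linarith)]
    have a1 := L.cD_step (ε := ε) m u z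
    have a2 := L.cD_step (ε := ε) m (-u) (L.T u z)
    rw [hc] at a2
    have a3 : min (L.cD ε m u z) (L.cD ε m (-u) z) - 1 / m ≤ L.cD ε m (-u) (L.T u z) := by
      refine le_ciInf fun n => ?_
      rcases n with _ | n
      · have := L.cD_le_cg (ε := ε) m u (L.T u z)
        have := min_le_left (L.cD ε m u z) (L.cD ε m (-u) z)
        simp only [Function.iterate_zero, id, Nat.cast_zero, zero_div, add_zero]
        linarith
      · have := L.cD_le (ε := ε) m (-u) z n
        have := min_le_right (L.cD ε m u z) (L.cD ε m (-u) z)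
        rw [Function.iterate_succ_apply, hc]
        push_cast
        rw [add_div]
        linarith
    have a4 : min (L.cD ε m u (L.T u z)) (L.cD ε m (-u) (L.T u z)) - 1 / m ≤ L.cD ε m u z := by
      refine le_ciInf fun n => ?_
      rcases n with _ | n
      · have := L.cD_le_cg (ε := ε) m (-u) z
        have := min_le_right (L.cD ε m u (L.T u z)) (L.cD ε m (-u) (L.T u z))
        simp only [Function.iterate_zero, id, Nat.cast_zero, zero_div, add_zero]
        linarith
      · have := L.cD_le (ε := ε) m u (L.T u z) n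
        have := min_le_left (L.cD ε m u (L.T u z)) (L.cD ε m (-u) (L.T u z))
        rw [Function.iterate_succ_apply]
        push_cast
        rw [add_div]
        linarith
    have b1 := min_le_left (L.cD ε m u z) (L.cD ε m (-u) z)
    have b2 := min_le_right (L.cD ε m u (L.T u z)) (L.cD ε m (-u) (L.T u z))
    have c1 : min (L.cD ε m u z) (L.cD ε m (-u) z) - 1 / m ≤
        min (L.cD ε m u (L.T u z)) (L.cD ε m (-u) (L.T u z)) := le_min (by linarith) a3
    have c2 : min (L.cD ε m u (L.T u z)) (L.cD ε m (-u) (L.T u z)) - 1 / m ≤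
        min (L.cD ε m u z) (L.cD ε m (-u) z) := le_min a4 (by linarith)
    rw [abs_le]; constructor <;> linarith

lemma d_iter {u : ℂ} (hu : ‖u‖ = ε) (b : ℕ) (z : Ω) : L.d z ≤ L.d ((L.T u)^[b] z) + b * ε := by
  induction b with
  | zero => simp
  | succ b ih =>
    rw [Function.iterate_succ_apply']
    have := (abs_le.1 (L.d_T u ((L.T u)^[b] z))).1
    push_cast
    rw [hu] at this
    linarith

lemma measure_cD [IsFiniteMeasure μ] (hε : 0 < ε) (hm : 0 < m) {u : ℂ} (hu : ‖u‖ = ε) {q : ℕ}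
    (hq : 0 < q) :
    μ.real {z | L.cD ε m u z < q} ≤ m * (L.C * ((2 * q + 40) * ε) ^ 2) := by
  have hsub : {z | L.cD ε m u z < q} ⊆
      ⋃ a ∈ Finset.range m, (L.T u)^[q * a] ⁻¹' {z | L.d z ≤ (2 * q + 40) * ε} := by
    intro z hz
    obtain ⟨n, hn⟩ := exists_lt_of_ciInf_lt (show L.cD ε m u z < q from hz)
    have h0 := L.cg_nonneg ε ((L.T u)^[n] z)
    have hm' : (0 : ℝ) < m := by exact_mod_cast hm
    have h1 : n < q * m := by
      have : (n : ℝ) / m < q := by linarith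
      rw [div_lt_iff₀ hm'] at this
      exact_mod_cast this
    have h2 : L.d ((L.T u)^[n] z) ≤ (q + 40) * ε := by
      have h3 : (0 : ℝ) ≤ n / m := by positivity
      have h4 : L.d ((L.T u)^[n] z) / ε - 40 ≤ q := (le_max_left _ _).trans (by
        change L.cg ε _ ≤ _; linarith)
      rw [sub_le_iff_le_add, div_le_iff₀ hε] at h4
      exact h4
    refine mem_iUnion₂.2 ⟨n / q, Finset.mem_range.2 (Nat.div_lt_of_lt_mul h1), ?_⟩
    have h5 := L.d_iter hu (n % q) ((L.T u)^[q * (n / q)] z)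
    rw [← Function.iterate_add_apply, Nat.mod_add_div] at h5
    have h6 : ((n % q : ℕ) : ℝ) ≤ q := by exact_mod_cast (Nat.mod_lt n hq).le
    have h7 := mul_le_mul_of_nonneg_right h6 hε.le
    simp only [mem_preimage, mem_ofPred_eq]
    linarith
  have hr : 0 < (2 * (q : ℝ) + 40) * ε := by positivity
  have hC := L.C_pos
  refine (measureReal_mono hsub (measure_ne_top _ _)).trans ((measureReal_biUnion_finset_le _ _).trans ?_)
  refine (Finset.sum_le_card_nsmul _ _ (L.C * ((2 * q + 40) * ε) ^ 2) fun a _ => ?_).trans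
    (by simp)
  rw [measureReal_def, ((L.mpT u).iterate (q * a)).measure_preimage
    (measurableSet_le L.meas_d measurable_const).nullMeasurableSet]
  exact ENNReal.toReal_le_of_le_ofReal (by positivity) (L.small _ hr)

end LocalAction

/-- The logarithmic profile. -/
def logCut (N : ℕ) (x : ℝ) : ℝ := min 1 (Real.log (1 + x) / (N * Real.log 2))

lemma logCut_eq_one {N : ℕ} (hN : 0 < N) {x : ℝ} (h : 2 ^ N ≤ 1 + x) : logCut N x = 1 := by
  have h2 : 0 < Real.log 2 := Real.log_pos one_lt_two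
  refine min_eq_left ?_
  rw [le_div_iff₀ (by positivity), one_mul, ← Real.log_pow]
  exact Real.log_le_log (by positivity) h

lemma log_sub_le {a b : ℝ} (ha : 0 ≤ a) (hab : a ≤ b) :
    Real.log (1 + b) - Real.log (1 + a) ≤ (b - a) / (1 + a) := by
  rw [← Real.log_div (by linarith) (by linarith)]
  refine (Real.log_le_sub_one_of_pos (div_pos (by linarith) (by linarith))).trans (le_of_eq ?_)
  field_simp; ring

lemma logCut_sub_sq {N : ℕ} (hN : 0 < N) {a b δ : ℝ} (ha : 0 ≤ a) (hb : 0 ≤ b) (hδ : δ ≤ 1)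
    (h : |a - b| ≤ δ) :
    (logCut N a - logCut N b) ^ 2 ≤ ∑ i ∈ Finset.range (N + 1),
      (Iio (((2 ^ (i + 1) : ℕ) : ℝ))).indicator
        (fun _ => 4 * δ ^ 2 / (N * Real.log 2) ^ 2 / 4 ^ i) b := by
  have h2 : 0 < Real.log 2 := Real.log_pos one_lt_two
  have hnn : ∀ i ∈ Finset.range (N + 1), 0 ≤ (Iio (((2 ^ (i + 1) : ℕ) : ℝ))).indicator
      (fun _ => 4 * δ ^ 2 / (N * Real.log 2) ^ 2 / 4 ^ i) b :=
    fun i _ => indicator_nonneg (fun _ _ => by positivity) b
  have hab := abs_le.1 h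
  by_cases hbN : 2 ^ N ≤ b
  · rw [logCut_eq_one hN (x := a) (by linarith [hab.1]), logCut_eq_one hN (x := b) (by linarith)]
    simpa using Finset.sum_nonneg hnn
  push Not at hbN
  obtain ⟨i, hi1, hi2⟩ := exists_nat_pow_near (x := 1 + b) (y := 2) (by linarith) one_lt_two
  have hiN : i < N + 1 := by
    have h3 : (2 : ℝ) ^ i < 2 ^ (N + 1) := by
      have : (1 : ℝ) ≤ 2 ^ N := one_le_pow₀ one_le_two
      rw [pow_succ]; linarith
    exact (pow_lt_pow_iff_right₀ one_lt_two).1 h3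
  refine le_trans ?_ (Finset.single_le_sum hnn (Finset.mem_range.2 hiN))
  rw [indicator_of_mem (by simp only [mem_Iio]; push_cast; linarith)]
  have hδ0 : 0 ≤ δ := (abs_nonneg _).trans h
  have h3 : |Real.log (1 + a) - Real.log (1 + b)| ≤ 2 * δ / 2 ^ i := by
    have hp : (0 : ℝ) < 2 ^ i := by positivity
    rcases le_total a b with hle | hle
    · have h4 := log_sub_le ha hle
      have h5 : Real.log (1 + a) ≤ Real.log (1 + b) := Real.log_le_log (by linarith) (by linarith)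
      rw [abs_sub_comm, abs_of_nonneg (by linarith)]
      refine h4.trans ?_
      rw [div_le_div_iff₀ (by linarith) hp]
      have h6 : 2 ^ i ≤ 2 * (1 + a) := by linarith [hab.1]
      nlinarith [hab.1]
    · have h4 := log_sub_le hb hle
      have h5 : Real.log (1 + b) ≤ Real.log (1 + a) := Real.log_le_log (by linarith) (by linarith)
      rw [abs_of_nonneg (by linarith)]
      refine h4.trans ?_
      rw [div_le_div_iff₀ (by linarith) hp]
      nlinarith [hab.2]
  have h4 : |logCut N a - logCut N b| ≤ 2 * δ / 2 ^ i / (N * Real.log 2) := by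
    refine (abs_min_sub_min_le_max _ _ _ _).trans (max_le (by simp; positivity) ?_)
    rw [← sub_div, abs_div, abs_of_pos (by positivity : 0 < N * Real.log 2)]
    gcongr
  rw [← sq_abs]
  refine (pow_le_pow_left₀ (abs_nonneg _) h4 2).trans (le_of_eq ?_)
  rw [show (4 : ℝ) ^ i = (2 ^ i) ^ 2 by rw [← pow_mul, mul_comm, pow_mul]; norm_num]
  field_simp
  ring

lemma integral_logCut {Ω : Type} [MeasurableSpace Ω] {μ : Measure Ω} [IsFiniteMeasure μ]
    {D D' : Ω → ℝ} (hD : Measurable D) (h0 : ∀ z, 0 ≤ D z) (h0' : ∀ z, 0 ≤ D' z) {N : ℕ}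
    (hN : 0 < N) {δ A : ℝ} (hδ : δ ≤ 1) (hA : 0 ≤ A) (h : ∀ z, |D' z - D z| ≤ δ)
    (hμ : ∀ q : ℕ, 0 < q → μ.real {z | D z < q} ≤ A * (2 * q + 40) ^ 2) :
    ∫ z, (logCut N (D' z) - logCut N (D z)) ^ 2 ∂μ ≤
      8 * 44 ^ 2 / (Real.log 2) ^ 2 * A * δ ^ 2 / N := by
  have h2 : 0 < Real.log 2 := Real.log_pos one_lt_two
  have hN' : (1 : ℝ) ≤ N := by exact_mod_cast hN
  have hms : ∀ i : ℕ, MeasurableSet {z | D z < ((2 ^ (i + 1) : ℕ) : ℝ)} :=
    fun i => measurableSet_lt hD measurable_const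
  have hint : ∀ i ∈ Finset.range (N + 1), Integrable (fun z =>
      {z | D z < ((2 ^ (i + 1) : ℕ) : ℝ)}.indicator
        (fun _ => 4 * δ ^ 2 / (N * Real.log 2) ^ 2 / 4 ^ i) z) μ :=
    fun i _ => (integrable_const _).indicator (hms i)
  calc _ ≤ ∫ z, ∑ i ∈ Finset.range (N + 1), {z | D z < ((2 ^ (i + 1) : ℕ) : ℝ)}.indicator
        (fun _ => 4 * δ ^ 2 / (N * Real.log 2) ^ 2 / 4 ^ i) z ∂μ :=
        integral_mono_of_nonneg (Eventually.of_forall fun z => sq_nonneg _)
          (integrable_finsetSum _ hint)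
          (Eventually.of_forall fun z => logCut_sub_sq hN (h0' z) (h0 z) hδ (h z))
    _ = _ := integral_finsetSum _ hint
    _ ≤ (Finset.range (N + 1)).card • (4 * δ ^ 2 / (N * Real.log 2) ^ 2 * (A * 44 ^ 2)) := by
        refine Finset.sum_le_card_nsmul _ _ _ fun i _ => ?_
        rw [integral_indicator_const _ (hms i), smul_eq_mul]
        have h3 := hμ (2 ^ (i + 1)) (by positivity)
        have h4 : (2 * ((2 ^ (i + 1) : ℕ) : ℝ) + 40) ^ 2 ≤ 44 ^ 2 * 4 ^ i := by
          have : (1 : ℝ) ≤ 2 ^ i := one_le_pow₀ one_le_two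
          rw [show (4 : ℝ) ^ i = (2 ^ i) ^ 2 by rw [← pow_mul, mul_comm, pow_mul]; norm_num,
            ← mul_pow]
          push_cast
          refine pow_le_pow_left₀ (by positivity) ?_ 2
          rw [pow_succ]; linarith
        have h5 := h3.trans (mul_le_mul_of_nonneg_left h4 hA)
        refine (mul_le_mul_of_nonneg_right h5 (by positivity)).trans (le_of_eq ?_)
        field_simp
    _ ≤ _ := by
        rw [Finset.card_range, nsmul_eq_mul]
        push_cast
        have e : 8 * 44 ^ 2 / (Real.log 2) ^ 2 * A * δ ^ 2 / N =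
            (2 * N) * (4 * δ ^ 2 / (N * Real.log 2) ^ 2 * (A * 44 ^ 2)) := by
          field_simp; ring
        rw [e]
        gcongr
        linarith

theorem LocalAction.exists_cutoff {Ω : Type} [MeasurableSpace Ω] [TopologicalSpace Ω]
    {μ : Measure Ω} [IsFiniteMeasure μ] (L : LocalAction Ω μ) (κ : ℝ) (hκ : 0 < κ) :
    ∃ M : ℝ, 0 < M ∧ ∃ ε₀ : ℝ, 0 < ε₀ ∧ ∀ ε : ℝ, 0 < ε → ε < ε₀ →
      ∃ χ : Ω → ℝ, ∃ α β : ℝ, Measurable χ ∧ (∀ z, 0 ≤ χ z) ∧ (∀ z, χ z ≤ 1) ∧
        (∀ z, L.d z ≤ 40 * ε → χ z = 0) ∧ (∀ t z, χ (L.W t z) = χ z) ∧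
        0 ≤ α ∧ 0 ≤ β ∧
        ∫ z, (1 - χ z) ^ 2 ∂μ ≤ κ ^ 2 ∧
        ∫ z, (χ (L.T (ε : ℂ) z) - χ z) ^ 2 ∂μ ≤ α ^ 2 ∧
        ∫ z, (χ (L.T (Complex.I * (ε : ℂ)) z) - χ z) ^ 2 ∂μ ≤ β ^ 2 ∧
        α ≤ M * ε ^ 2 ∧ α * β ≤ κ * ε ^ 2 := by
  have h2 : 0 < Real.log 2 := Real.log_pos one_lt_two
  have hC := L.C_pos
  set C1 : ℝ := 8 * 44 ^ 2 / (Real.log 2) ^ 2 * (2 * L.C) with hC1
  have hC1p : 0 < C1 := by positivity
  obtain ⟨N, hN⟩ := exists_nat_gt (C1 / κ)
  have hNr : (0 : ℝ) < N := (div_pos hC1p hκ).trans hN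
  have hN0 : 0 < N := by exact_mod_cast hNr
  have hN1 : (1 : ℝ) ≤ N := by exact_mod_cast hN0
  set δ0 : ℝ := κ ^ 2 / (4 * L.C * (2 * ((2 ^ N : ℕ) : ℝ) + 40) ^ 2) with hδ0
  have hδ0p : 0 < δ0 := by positivity
  refine ⟨√(C1 / δ0), by positivity, √δ0, by positivity, fun ε hε hε0 => ?_⟩
  have hε2 : ε ^ 2 < δ0 := (Real.lt_sqrt hε.le).1 hε0
  set m := ⌈δ0 / ε ^ 2⌉₊ with hm
  have hm0 : 0 < m := Nat.ceil_pos.2 (by positivity)
  have hmr : (1 : ℝ) ≤ m := by exact_mod_cast hm0
  have hm1 : δ0 ≤ m * ε ^ 2 := by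
    have := Nat.le_ceil (δ0 / ε ^ 2)
    rwa [div_le_iff₀ (by positivity)] at this
  have hm2 : m * ε ^ 2 ≤ 2 * δ0 := by
    have := (Nat.ceil_lt_add_one (show 0 ≤ δ0 / ε ^ 2 by positivity)).le
    have h3 := mul_le_mul_of_nonneg_right this (sq_nonneg ε)
    rw [add_mul, div_mul_cancel₀ _ (by positivity)] at h3
    linarith
  have hu : ‖(ε : ℂ)‖ = ε := by simp [abs_of_pos hε]
  have hu' : ‖-(ε : ℂ)‖ = ε := by rw [norm_neg, hu]
  have hv : ‖Complex.I * (ε : ℂ)‖ = ε := by rw [norm_mul, Complex.norm_I, one_mul, hu]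
  set D : Ω → ℝ := fun z => min (L.cD ε m ε z) (L.cD ε m (-ε) z) with hD
  have hDm : Measurable D := (L.measurable_cD m _).min (L.measurable_cD m _)
  have hD0 : ∀ z, 0 ≤ D z := fun z => le_min (L.cD_nonneg m _ z) (L.cD_nonneg m _ z)
  have hμ : ∀ q : ℕ, 0 < q → μ.real {z | D z < q} ≤ (2 * L.C * (m * ε ^ 2)) * (2 * q + 40) ^ 2 := by
    intro q hq
    have hsub : {z | D z < q} ⊆ {z | L.cD ε m ε z < q} ∪ {z | L.cD ε m (-ε) z < q} :=
      fun z hz => (min_lt_iff (b := L.cD ε m ε z) (c := L.cD ε m (-ε) z) (a := (q : ℝ))).1 hz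
    refine (measureReal_mono hsub).trans ((measureReal_union_le _ _).trans ?_)
    have a1 := L.measure_cD m hε hm0 hu hq
    have a2 := L.measure_cD m hε hm0 hu' hq
    nlinarith
  refine ⟨fun z => logCut N (D z), √(C1 * ε ^ 2 / (m * N)), √(C1 * (m * ε ^ 2) / N), ?_, ?_,
    fun z => min_le_left _ _, ?_, ?_, Real.sqrt_nonneg _, Real.sqrt_nonneg _, ?_, ?_, ?_, ?_, ?_⟩
  · unfold logCut
    exact measurable_const.min ((hDm.const_add 1).log.div_const _)
  · intro z
    exact le_min zero_le_one (div_nonneg (Real.log_nonneg (by linarith [hD0 z])) (by positivity))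
  · intro z hz
    have : D z = 0 := le_antisymm ((min_le_left _ _).trans ((L.cD_le_cg m _ z).trans
      (L.cg_eq_zero hε hz).le)) (hD0 z)
    simp [this, logCut]
  · intro t z
    simp only [hD, L.cD_W]
  · have hms : MeasurableSet {z | D z < ((2 ^ N : ℕ) : ℝ)} := measurableSet_lt hDm measurable_const
    calc _ ≤ ∫ z, {z | D z < ((2 ^ N : ℕ) : ℝ)}.indicator 1 z ∂μ := by
          refine integral_mono_of_nonneg (Eventually.of_forall fun z => sq_nonneg _)
            ((integrable_const (1 : ℝ)).indicator hms) (Eventually.of_forall fun z => ?_)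
          by_cases hz : z ∈ {z | D z < ((2 ^ N : ℕ) : ℝ)}
          · have a1 : logCut N (D z) ≤ 1 := min_le_left _ _
            have a2 : 0 ≤ logCut N (D z) := le_min zero_le_one
              (div_nonneg (Real.log_nonneg (by linarith [hD0 z])) (by positivity))
            simp only [indicator_of_mem hz, Pi.one_apply]
            nlinarith
          · simp only [indicator_of_notMem hz]
            simp only [mem_ofPred_eq, not_lt] at hz
            push_cast at hz
            rw [logCut_eq_one hN0 (by linarith)]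
            simp
      _ = _ := integral_indicator_one hms
      _ ≤ _ := hμ _ (by positivity)
      _ ≤ (2 * L.C * (2 * δ0)) * (2 * ((2 ^ N : ℕ) : ℝ) + 40) ^ 2 := by gcongr
      _ = κ ^ 2 := by rw [hδ0]; field_simp; ring
  · rw [Real.sq_sqrt (by positivity)]
    refine (integral_logCut (D' := fun z => D (L.T ε z)) hDm hD0 (fun z => hD0 _) hN0
      (δ := 1 / m) (by rw [div_le_one (by positivity)]; exact hmr) (by positivity)
      (fun z => L.cD_long m hε hu z) hμ).trans (le_of_eq ?_)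
    rw [hC1]; field_simp
  · rw [Real.sq_sqrt (by positivity)]
    refine (integral_logCut (D' := fun z => D (L.T (Complex.I * ε) z)) hDm hD0 (fun z => hD0 _) hN0
      (δ := 1) le_rfl (by positivity) (fun z => ?_) hμ).trans (le_of_eq ?_)
    · exact (abs_min_sub_min_le_max _ _ _ _).trans
        (max_le (L.cD_transverse m hε hu hv z) (L.cD_transverse m hε hu' hv z))
    · rw [hC1]; field_simp
  · rw [Real.sqrt_le_iff]
    refine ⟨by positivity, ?_⟩
    rw [mul_pow, Real.sq_sqrt (by positivity), div_le_iff₀ (by positivity), div_mul_eq_mul_div,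
      div_mul_eq_mul_div, le_div_iff₀ hδ0p]
    have h3 : δ0 ≤ m * ε ^ 2 * N := hm1.trans (le_mul_of_one_le_right (by positivity) hN1)
    have h4 := mul_le_mul_of_nonneg_left h3 (by positivity : 0 ≤ C1 * ε ^ 2)
    nlinarith
  · rw [← Real.sqrt_mul (by positivity), show C1 * ε ^ 2 / (m * N) * (C1 * (m * ε ^ 2) / N) =
      (C1 / N * ε ^ 2) ^ 2 by field_simp, Real.sqrt_sq (by positivity)]
    refine mul_le_mul_of_nonneg_right ?_ (sq_nonneg _)
    rw [div_lt_iff₀ hκ] at hN
    rw [div_le_iff₀ hNr]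
    linarith

end Vale.Agent.P099
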