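import Vale.Agent.P099.Smooth3
import Vale.Agent.P099.Cutoff

/-!
From the measure-theoretic setting to the Hilbert space setting.
-/

open MeasureTheory Set Filter Topology ComplexConjugate
open scoped InnerProductSpace

noncomputable section

namespace Vale.Agent.P099

variable {Ω : Type} [MeasurableSpace Ω] {μ : Measure Ω}

/-- Koopman operator -/
def koop (f : Ω → Ω) (hf : MeasurePreserving f μ μ) : Lp ℂ 2 μ →L[ℂ] Lp ℂ 2 μ :=
  (Lp.compMeasurePreservingₗᵢ ℂ f hf).toContinuousLinearMap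

theorem koop_ae (f : Ω → Ω) (hf : MeasurePreserving f μ μ) (a : Lp ℂ 2 μ) :
    ∀ᵐ z ∂μ, koop f hf a z = a (f z) := Lp.coeFn_compMeasurePreserving a hf

theorem koop_koop_ae (f g : Ω → Ω) (hf : MeasurePreserving f μ μ) (hg : MeasurePreserving g μ μ)
    (a : Lp ℂ 2 μ) : ∀ᵐ z ∂μ, koop f hf (koop g hg a) z = a (g (f z)) := by
  filter_upwards [koop_ae f hf (koop g hg a), hf.quasiMeasurePreserving.ae (koop_ae g hg a)]
    with z h1 h2
  rw [h1, h2]

theorem inner_koop (f : Ω → Ω) (hf : MeasurePreserving f μ μ) (a b : Lp ℂ 2 μ) :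
    ⟪koop f hf a, koop f hf b⟫_ℂ = ⟪a, b⟫_ℂ :=
  (Lp.compMeasurePreservingₗᵢ ℂ f hf).inner_map_map a b

theorem norm_koop (f : Ω → Ω) (hf : MeasurePreserving f μ μ) (a : Lp ℂ 2 μ) :
    ‖koop f hf a‖ = ‖a‖ := (Lp.compMeasurePreservingₗᵢ ℂ f hf).norm_map a

theorem L2_norm_sq (a : Lp ℂ 2 μ) : ‖a‖ ^ 2 = ∫ z, ‖a z‖ ^ 2 ∂μ := by
  rw [@norm_sq_eq_re_inner ℂ, L2.inner_def, ← integral_re (L2.integrable_inner a a)]
  simp only [inner_self_eq_norm_sq]

theorem L2_integrable_sq (a : Lp ℂ 2 μ) : Integrable (fun z => ‖a z‖ ^ 2) μ := by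
  have := (L2.integrable_inner (𝕜 := ℂ) a a).re
  simpa only [inner_self_eq_norm_sq] using this

theorem L2_norm_le (a : Lp ℂ 2 μ) {g : Ω → ℝ} (hg : Integrable g μ)
    (h : ∀ᵐ z ∂μ, ‖a z‖ ^ 2 ≤ g z) {c : ℝ} (hc : 0 ≤ c) (hI : ∫ z, g z ∂μ ≤ c ^ 2) :
    ‖a‖ ≤ c := by
  refine (pow_le_pow_iff_left₀ (norm_nonneg _) hc two_ne_zero).1 ?_
  rw [L2_norm_sq]
  exact (integral_mono_ae (L2_integrable_sq a) hg h).trans hI

/-- multiplication by an indicator function, as a function -/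
def indic0 (s : Set Ω) (hs : MeasurableSet s) (a : Lp ℂ 2 μ) : Lp ℂ 2 μ :=
  (MemLp.indicator hs (Lp.memLp a)).toLp (s.indicator a)

theorem indic0_ae (s : Set Ω) (hs : MeasurableSet s) (a : Lp ℂ 2 μ) :
    ∀ᵐ z ∂μ, indic0 s hs a z = s.indicator a z := by
  have h : (indic0 s hs a : Ω → ℂ) =ᵐ[μ] s.indicator a := by
    unfold indic0
    exact MemLp.coeFn_toLp _
  exact h

theorem indic0_add (s : Set Ω) (hs : MeasurableSet s) (a b : Lp ℂ 2 μ) :
    indic0 s hs (a + b) = indic0 s hs a + indic0 s hs b := by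
  refine Lp.ext ?_
  filter_upwards [indic0_ae s hs (a + b), indic0_ae s hs a, indic0_ae s hs b, Lp.coeFn_add a b,
    Lp.coeFn_add (indic0 s hs a) (indic0 s hs b)] with z h1 h2 h3 h4 h5
  rw [h5, Pi.add_apply, h1, h2, h3]
  by_cases hz : z ∈ s
  · simp only [indicator_of_mem hz, h4, Pi.add_apply]
  · simp only [indicator_of_notMem hz, add_zero]

theorem indic0_smul (s : Set Ω) (hs : MeasurableSet s) (c : ℂ) (a : Lp ℂ 2 μ) :
    indic0 s hs (c • a) = c • indic0 s hs a := by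
  refine Lp.ext ?_
  filter_upwards [indic0_ae s hs (c • a), indic0_ae s hs a, Lp.coeFn_smul c a,
    Lp.coeFn_smul c (indic0 s hs a)] with z h1 h2 h4 h5
  rw [h5, Pi.smul_apply, h1, h2]
  by_cases hz : z ∈ s
  · simp only [indicator_of_mem hz, h4, Pi.smul_apply]
  · simp only [indicator_of_notMem hz, smul_zero]

theorem norm_indic0_le (s : Set Ω) (hs : MeasurableSet s) (a : Lp ℂ 2 μ) :
    ‖indic0 s hs a‖ ≤ 1 * ‖a‖ := by
  rw [one_mul]
  refine Lp.norm_le_norm_of_ae_le ?_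
  filter_upwards [indic0_ae s hs a] with z h1
  rw [h1]
  exact norm_indicator_le_norm_self _ _

/-- multiplication by an indicator function -/
def indic (s : Set Ω) (hs : MeasurableSet s) : Lp ℂ 2 μ →L[ℂ] Lp ℂ 2 μ :=
  LinearMap.mkContinuous
    { toFun := indic0 s hs
      map_add' := indic0_add s hs
      map_smul' := indic0_smul s hs } 1 (norm_indic0_le s hs)

theorem indic_ae (s : Set Ω) (hs : MeasurableSet s) (a : Lp ℂ 2 μ) :
    ∀ᵐ z ∂μ, indic s hs a z = s.indicator a z := indic0_ae s hs a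

theorem indic_eq_zero_iff (s : Set Ω) (hs : MeasurableSet s) (a : Lp ℂ 2 μ) :
    indic s hs a = 0 ↔ ∀ᵐ z ∂μ, z ∈ s → a z = 0 := by
  rw [Lp.eq_zero_iff_ae_eq_zero]
  constructor
  · intro h
    filter_upwards [h, indic_ae s hs a] with z h1 h2 hz
    rw [h2, indicator_of_mem hz] at h1
    exact h1
  · intro h
    filter_upwards [h, indic_ae s hs a] with z h1 h2
    rw [h2]
    by_cases hz : z ∈ s
    · rw [indicator_of_mem hz, h1 hz]; rfl
    · rw [indicator_of_notMem hz]; rfl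

variable [TopologicalSpace Ω] [TopologicalSpace.PseudoMetrizableSpace Ω] [BorelSpace Ω]
  [IsFiniteMeasure μ]

theorem tendsto_koop {ι : Type} {l : Filter ι} [l.IsCountablyGenerated] (S : ι → Ω → Ω)
    (hS : ∀ i, MeasurePreserving (S i) μ μ) (h : ∀ᵐ z ∂μ, Tendsto (fun i => S i z) l (𝓝 z))
    (a : Lp ℂ 2 μ) : Tendsto (fun i => koop (S i) (hS i) a) l (𝓝 a) := by
  have hdense := BoundedContinuousFunction.toLp_denseRange ℂ μ ℂ (p := 2) (by simp)
  rw [Metric.tendsto_nhds]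
  intro c hc
  obtain ⟨g, hg⟩ := hdense.exists_dist_lt a (show 0 < c / 3 by linarith)
  set G := BoundedContinuousFunction.toLp 2 μ ℂ g with hG
  have hGae : ∀ᵐ z ∂μ, G z = g z := BoundedContinuousFunction.coeFn_toLp 2 μ ℂ g
  have t1 : Tendsto (fun i => ∫ z, ‖g (S i z) - g z‖ ^ 2 ∂μ) l (𝓝 (∫ _, (0 : ℝ) ∂μ)) := by
    refine tendsto_integral_filter_of_dominated_convergence (fun _ => (2 * ‖g‖) ^ 2) ?_ ?_
      (integrable_const _) ?_
    · refine Eventually.of_forall fun i => ?_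
      exact (((g.continuous.measurable.comp (hS i).measurable).sub
        g.continuous.measurable).norm.pow_const 2).aestronglyMeasurable
    · refine Eventually.of_forall fun i => Eventually.of_forall fun z => ?_
      rw [Real.norm_eq_abs, abs_of_nonneg (by positivity)]
      gcongr
      have := norm_sub_le (g (S i z)) (g z)
      linarith [g.norm_coe_le_norm (S i z), g.norm_coe_le_norm z]
    · filter_upwards [h] with z hz
      have := ((((g.continuous.tendsto z).comp hz).sub_const (g z)).norm).pow 2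
      simpa using this
  rw [integral_zero] at t1
  filter_upwards [t1.eventually (gt_mem_nhds (show 0 < (c / 3) ^ 2 by positivity))] with i hi
  have b1 : ‖koop (S i) (hS i) G - G‖ ≤ c / 3 := by
    refine (pow_le_pow_iff_left₀ (norm_nonneg _) (by positivity) two_ne_zero).1 ?_
    rw [L2_norm_sq]
    refine le_trans (le_of_eq (integral_congr_ae ?_)) hi.le
    filter_upwards [Lp.coeFn_sub (koop (S i) (hS i) G) G, koop_ae (S i) (hS i) G, hGae,
      (hS i).quasiMeasurePreserving.ae hGae] with z h1 h2 h3 h4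
    rw [h1, Pi.sub_apply, h2, h3, h4]
  rw [dist_eq_norm] at hg ⊢
  have e : koop (S i) (hS i) a - a =
      koop (S i) (hS i) (a - G) + (koop (S i) (hS i) G - G) + -(a - G) := by
    rw [map_sub]; abel
  rw [e]
  refine norm_add₃_le.trans_lt ?_
  rw [norm_neg, norm_koop]
  linarith

namespace LocalAction

variable (L : LocalAction Ω μ)

omit [TopologicalSpace.PseudoMetrizableSpace Ω] [BorelSpace Ω] [IsFiniteMeasure μ] in
theorem measSet (r : ℝ) : MeasurableSet {z | L.d z ≤ r} := measurableSet_le L.meas_d measurable_const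

omit [TopologicalSpace.PseudoMetrizableSpace Ω] [BorelSpace Ω] [IsFiniteMeasure μ] in
theorem ae_d_pos : ∀ᵐ z ∂μ, 0 < L.d z := by
  rw [ae_iff]
  simp only [not_lt]
  refine le_antisymm ?_ zero_le
  have t : Tendsto (fun r : ℝ => ENNReal.ofReal (L.C * r ^ 2)) (𝓝[>] 0)
      (𝓝 (ENNReal.ofReal (L.C * 0 ^ 2))) := by
    refine tendsto_nhdsWithin_of_tendsto_nhds ?_
    exact (ENNReal.continuous_ofReal.comp (by fun_prop)).tendsto 0
  simp only [ne_eq, OfNat.ofNat_ne_zero, not_false_eq_true, zero_pow, mul_zero,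
    ENNReal.ofReal_zero] at t
  refine ge_of_tendsto t ?_
  filter_upwards [self_mem_nhdsWithin] with r hr
  refine le_trans (measure_mono fun z hz => ?_) (L.small r hr)
  exact le_trans hz (le_of_lt (show 0 < r from hr))

/-- the Koopman representation -/
def rep : LocalRep (Lp ℂ 2 μ) where
  ρ := fun s => koop (L.R s) (L.mpR s)
  ρ_zero := fun a => Lp.ext (by
    filter_upwards [koop_ae _ (L.mpR 0) a] with z h; rw [h, L.R_zero])
  ρ_add := fun s t a => Lp.ext (by
    filter_upwards [koop_ae _ (L.mpR (s + t)) a, koop_koop_ae _ _ (L.mpR s) (L.mpR t) a]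
      with z h1 h2
    rw [h1, h2, add_comm, L.R_add])
  inner_ρ := fun s a b => inner_koop _ _ a b
  ρ_cont := fun a => by
    rw [continuous_iff_continuousAt]
    intro s0
    have t0 := tendsto_koop L.R L.mpR L.contR a
    have t1 : Tendsto (fun s : UnitAddCircle => s - s0) (𝓝 s0) (𝓝 0) := by
      have : Continuous fun s : UnitAddCircle => s - s0 := by fun_prop
      simpa using this.tendsto s0
    have t2 := ((koop (L.R s0) (L.mpR s0)).continuous.tendsto a).comp (t0.comp t1)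
    refine t2.congr fun s => Lp.ext ?_
    filter_upwards [koop_ae _ (L.mpR s) a, koop_koop_ae _ _ (L.mpR s0) (L.mpR (s - s0)) a]
      with z h1 h2
    simp only [Function.comp]
    rw [h1, h2, ← L.R_add, sub_add_cancel]
  U := fun v => koop (L.T v) (L.mpT v)
  W := fun t => koop (L.W t) (L.mpW t)
  N := fun r => indic {z | L.d z ≤ 4 * r} (L.measSet _)
  inner_U := fun v a b => inner_koop _ _ a b
  inner_W := fun t a b => inner_koop _ _ a b
  U_zero := fun a => Lp.ext (by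
    filter_upwards [koop_ae _ (L.mpT 0) a, L.ae_d_pos] with z h hz; rw [h, L.T_zero z hz])
  W_zero := fun a => Lp.ext (by
    filter_upwards [koop_ae _ (L.mpW 0) a, L.W_zero] with z h hz; rw [h, hz])
  W_add := fun s t a hs ht => Lp.ext (by
    filter_upwards [koop_ae _ (L.mpW (s + t)) a, koop_koop_ae _ _ (L.mpW s) (L.mpW t) a,
      L.W_add s t hs ht] with z h1 h2 h3
    rw [h1, h2, h3])
  U_add := fun r v w a ha h => Lp.ext (by
    rw [indic_eq_zero_iff] at ha
    filter_upwards [koop_ae _ (L.mpT (v + w)) a, koop_koop_ae _ _ (L.mpT w) (L.mpT v) a,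
      ((L.mpT v).comp (L.mpT w)).quasiMeasurePreserving.ae ha,
      (L.mpT (v + w)).quasiMeasurePreserving.ae ha] with z h1 h2 h3 h4
    rw [h1, h2]
    by_cases hz : 3 * (‖v‖ + ‖w‖) < L.d z
    · rw [L.T_add v w z hz]
    · push Not at hz
      have a1 := (abs_le.1 (L.d_T w z)).2
      have a2 := (abs_le.1 (L.d_T v (L.T w z))).2
      have a3 := (abs_le.1 (L.d_T (v + w) z)).2
      have a4 := norm_add_le v w
      rw [h4 (by linarith)]
      exact h3 (by simp only [Function.comp]; linarith))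
  N_mono := fun r r' a h ha => by
    rw [indic_eq_zero_iff] at ha ⊢
    filter_upwards [ha] with z h1 hz
    exact h1 (by linarith)
  N_U := fun r v a ha => by
    rw [indic_eq_zero_iff] at ha ⊢
    filter_upwards [koop_ae _ (L.mpT v) a, (L.mpT v).quasiMeasurePreserving.ae ha] with z h1 h2 hz
    rw [h1]
    have a1 := (abs_le.1 (L.d_T v z)).2
    exact h2 (by linarith [norm_nonneg v])
  N_W := fun r t a ha => by
    rw [indic_eq_zero_iff] at ha ⊢
    filter_upwards [koop_ae _ (L.mpW t) a, (L.mpW t).quasiMeasurePreserving.ae ha] with z h1 h2 hz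
    rw [h1]
    exact h2 (by rwa [L.d_W])
  U_W := fun v t a => Lp.ext (by
    filter_upwards [koop_koop_ae _ _ (L.mpT v) (L.mpW t) a,
      koop_koop_ae _ _ (L.mpW t) (L.mpT v) a] with z h1 h2
    rw [h1, h2, L.T_W])
  ρ_W := fun s t a => Lp.ext (by
    filter_upwards [koop_koop_ae _ _ (L.mpR s) (L.mpW t) a,
      koop_koop_ae _ _ (L.mpW t) (L.mpR s) a] with z h1 h2
    rw [h1, h2, L.R_W])
  U_ρ := fun w s a => Lp.ext (by
    filter_upwards [koop_koop_ae _ _ (L.mpT w) (L.mpR s) a,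
      koop_koop_ae _ _ (L.mpR s) (L.mpT (w * conj (vel s))) a] with z h1 h2
    rw [h1, h2, L.T_R, mul_assoc, conj_vel_mul, mul_one])
  U_cont := tendsto_koop L.T L.mpT L.contT
  W_cont := tendsto_koop L.W L.mpW L.contW

theorem approx (A : Set Ω) (hA : MeasurableSet A)
    (hinv : ∀ t : ℝ, 0 < t → ∀ᵐ z ∂μ, 3 * t < L.d z → (L.W t (L.T t z) ∈ A ↔ z ∈ A)) :
    L.rep.Approx (indicatorConstLp 2 hA (measure_ne_top μ A) (1 : ℂ)) := by
  set u := indicatorConstLp 2 hA (measure_ne_top μ A) (1 : ℂ) with hu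
  set ind : Ω → ℂ := A.indicator fun _ => (1 : ℂ) with hind
  have hu_ae : ∀ᵐ z ∂μ, u z = ind z := indicatorConstLp_coeFn
  have ind_le : ∀ z, ‖ind z‖ ≤ 1 := fun z => by
    rw [hind]; by_cases hz : z ∈ A <;> simp [hz]
  have ind_meas : Measurable ind := measurable_const.indicator hA
  intro κ hκ
  obtain ⟨M, hM, ε₀, hε₀, hcut⟩ := L.exists_cutoff (κ / 2) (by linarith)
  obtain ⟨δ, hδ, hY⟩ := L.rep.sg_Y.cont u (κ / (2 * M)) (by positivity)
  set ε := min (min ε₀ δ) (min κ (κ / M)) / 2 with hε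
  have m0 : 0 < min (min ε₀ δ) (min κ (κ / M)) := by positivity
  have hεpos : 0 < ε := by positivity
  have hεlt : ε < min (min ε₀ δ) (min κ (κ / M)) := by linarith
  have e1 : ε < ε₀ := hεlt.trans_le ((min_le_left _ _).trans (min_le_left _ _))
  have e2 : ε < δ := hεlt.trans_le ((min_le_left _ _).trans (min_le_right _ _))
  have e3 : ε < κ := hεlt.trans_le ((min_le_right _ _).trans (min_le_left _ _))
  have e4 : ε < κ / M := hεlt.trans_le ((min_le_right _ _).trans (min_le_right _ _))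
  obtain ⟨χ, α, β, hχm, hχ0, hχ1, hχd, hχW, hα, hβ, i1, i2, i3, b1, b2⟩ := hcut ε hεpos e1
  have hFm : MemLp (fun z => (χ z : ℂ) * ind z) 2 μ := by
    refine MemLp.of_bound ((Complex.measurable_ofReal.comp hχm).mul ind_meas).aestronglyMeasurable
      1 (Eventually.of_forall fun z => ?_)
    rw [norm_mul, Complex.norm_real, Real.norm_eq_abs, abs_of_nonneg (hχ0 z)]
    nlinarith [hχ0 z, hχ1 z, ind_le z, norm_nonneg (ind z)]
  set F := hFm.toLp _ with hF
  have hF_ae : ∀ᵐ z ∂μ, F z = (χ z : ℂ) * ind z := hFm.coeFn_toLp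
  have int_sq : ∀ g : Ω → ℝ, Measurable g → (∀ z, |g z| ≤ 1) →
      Integrable (fun z => g z ^ 2) μ := fun g hg hb =>
    Integrable.of_bound (hg.pow_const 2).aestronglyMeasurable 1
      (Eventually.of_forall fun z => by
        rw [Real.norm_eq_abs, abs_pow]
        nlinarith [hb z, abs_nonneg (g z)])
  have int_diff : ∀ v : ℂ, Integrable (fun z => (χ (L.T v z) - χ z) ^ 2) μ := fun v =>
    int_sq _ ((hχm.comp (L.mpT v).measurable).sub hχm) fun z => by
      rw [abs_le]; constructor <;> linarith [hχ0 z, hχ1 z, hχ0 (L.T v z), hχ1 (L.T v z)]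
  have nmul : ∀ (c : ℝ) (z : Ω), ‖(c : ℂ) * ind z‖ ^ 2 ≤ c ^ 2 := fun c z => by
    rw [norm_mul, Complex.norm_real, Real.norm_eq_abs, mul_pow, sq_abs]
    have : ‖ind z‖ ^ 2 ≤ 1 := by nlinarith [ind_le z, norm_nonneg (ind z)]
    nlinarith [sq_nonneg c]
  have bX : ‖L.rep.X' ε F - F‖ ≤ α := by
    refine L2_norm_le _ (int_diff ε) ?_ hα i2
    have hk : ∀ᵐ z ∂μ, (L.rep.X' ε F) z = F (L.W ε (L.T (1 * ε) z)) :=
      koop_koop_ae _ _ (L.mpT (1 * ε)) (L.mpW ε) F
    rw [one_mul] at hk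
    filter_upwards [Lp.coeFn_sub (L.rep.X' ε F) F, hk, hF_ae,
      ((L.mpW ε).comp (L.mpT ε)).quasiMeasurePreserving.ae hF_ae, hinv ε hεpos]
      with z h1 h2 h3 h4 h5
    simp only [Function.comp] at h4
    rw [h1, Pi.sub_apply, h2, h3, h4, hχW]
    have : (χ z : ℂ) * ind z = (χ z : ℂ) * ind (L.W ε (L.T ε z)) := by
      by_cases hz : 3 * ε < L.d z
      · have h6 := h5 hz
        by_cases hzA : z ∈ A
        · rw [hind, indicator_of_mem hzA, indicator_of_mem (h6.2 hzA)]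
        · rw [hind, indicator_of_notMem hzA, indicator_of_notMem (fun h => hzA (h6.1 h))]
      · rw [hχd z (by linarith)]; simp
    rw [this, ← sub_mul, ← Complex.ofReal_sub]
    exact nmul _ _
  have bY : ‖L.rep.Y ε F - F‖ ≤ β + κ / (2 * M) := by
    have hGm : MemLp (fun z => (χ z : ℂ) * ind (L.T (Complex.I * ε) z)) 2 μ := by
      refine MemLp.of_bound ((Complex.measurable_ofReal.comp hχm).mul
        (ind_meas.comp (L.mpT _).measurable)).aestronglyMeasurable
        1 (Eventually.of_forall fun z => ?_)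
      rw [norm_mul, Complex.norm_real, Real.norm_eq_abs, abs_of_nonneg (hχ0 z)]
      nlinarith [hχ0 z, hχ1 z, ind_le (L.T (Complex.I * ε) z),
        norm_nonneg (ind (L.T (Complex.I * ε) z))]
    set G := hGm.toLp _ with hG
    have hG_ae : ∀ᵐ z ∂μ, G z = (χ z : ℂ) * ind (L.T (Complex.I * ε) z) := hGm.coeFn_toLp
    have hk : ∀ a : Lp ℂ 2 μ, ∀ᵐ z ∂μ, (L.rep.Y ε a) z = a (L.T (Complex.I * ε) z) :=
      fun a => koop_ae _ (L.mpT _) a
    have c1 : ‖L.rep.Y ε F - G‖ ≤ β := by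
      refine L2_norm_le _ (int_diff (Complex.I * ε)) ?_ hβ i3
      filter_upwards [Lp.coeFn_sub (L.rep.Y ε F) G, hk F, hG_ae,
        (L.mpT (Complex.I * ε)).quasiMeasurePreserving.ae hF_ae] with z h1 h2 h3 h4
      rw [h1, Pi.sub_apply, h2, h3, h4, ← sub_mul, ← Complex.ofReal_sub]
      exact nmul _ _
    have c2 : ‖G - F‖ ≤ ‖L.rep.Y ε u - u‖ := by
      refine Lp.norm_le_norm_of_ae_le ?_
      filter_upwards [Lp.coeFn_sub G F, Lp.coeFn_sub (L.rep.Y ε u) u, hk u, hG_ae, hF_ae, hu_ae,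
        (L.mpT (Complex.I * ε)).quasiMeasurePreserving.ae hu_ae] with z h1 h2 h3 h4 h5 h6 h7
      rw [h1, h2, Pi.sub_apply, Pi.sub_apply, h3, h4, h5, h6, h7, ← mul_sub, norm_mul,
        Complex.norm_real, Real.norm_eq_abs, abs_of_nonneg (hχ0 z)]
      exact mul_le_of_le_one_left (norm_nonneg _) (hχ1 z)
    have c3 := hY ε hεpos.le e2
    have c4 := norm_add_le (L.rep.Y ε F - G) (G - F)
    rw [sub_add_sub_cancel] at c4
    linarith
  refine ⟨ε, hεpos, e3, F, ?_, ?_, ?_, ?_⟩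
  · change indic _ (L.measSet _) F = 0
    rw [indic_eq_zero_iff]
    filter_upwards [hF_ae] with z h1 hz
    rw [h1, hχd z (by linarith)]
    simp
  · refine le_trans ?_ (show κ / 2 ≤ κ by linarith)
    refine L2_norm_le _ (int_sq (fun z => 1 - χ z) (measurable_const.sub hχm) fun z => by
      rw [abs_le]; constructor <;> linarith [hχ0 z, hχ1 z]) ?_ (by linarith) i1
    filter_upwards [Lp.coeFn_sub F u, hF_ae, hu_ae] with z h1 h2 h3
    rw [h1, Pi.sub_apply, h2, h3]
    have : (χ z : ℂ) * ind z - ind z = ((χ z - 1 : ℝ) : ℂ) * ind z := by push_cast; ring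
    rw [this]
    refine (nmul _ _).trans (le_of_eq (by ring))
  · rw [lt_div_iff₀ hM] at e4
    nlinarith
  · calc _ ≤ α * (β + κ / (2 * M)) := by gcongr
      _ = α * β + α * (κ / (2 * M)) := by ring
      _ ≤ κ / 2 * ε ^ 2 + M * ε ^ 2 * (κ / (2 * M)) := by gcongr
      _ = κ * ε ^ 2 := by field_simp; ring

theorem W_inv (A : Set Ω) (hA : MeasurableSet A)
    (hinv : ∀ t : ℝ, 0 < t → ∀ᵐ z ∂μ, 3 * t < L.d z → (L.W t (L.T t z) ∈ A ↔ z ∈ A))
    (τ : ℝ) (hτ : 0 < τ) : ∀ᵐ z ∂μ, (L.W τ z ∈ A ↔ z ∈ A) := by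
  have h := L.rep.W_invariant (L.approx A hA hinv) hτ
  set u := indicatorConstLp 2 hA (measure_ne_top μ A) (1 : ℂ) with hu
  have hu_ae : ∀ᵐ z ∂μ, u z = A.indicator (fun _ => (1 : ℂ)) z := indicatorConstLp_coeFn
  have hk : ∀ᵐ z ∂μ, (L.rep.W τ u) z = u (L.W τ z) := koop_ae _ (L.mpW τ) u
  rw [h] at hk
  filter_upwards [hk, hu_ae, (L.mpW τ).quasiMeasurePreserving.ae hu_ae] with z h1 h2 h3
  rw [h2, h3] at h1
  by_cases h4 : z ∈ A <;> by_cases h5 : L.W τ z ∈ A <;> simp_all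

theorem T_inv (A : Set Ω) (hA : MeasurableSet A) (hW : ∀ t z, L.W t z = z)
    (hinv : ∀ t : ℝ, 0 < t → ∀ᵐ z ∂μ, 3 * t < L.d z → (L.T t z ∈ A ↔ z ∈ A))
    (v : ℂ) : ∀ᵐ z ∂μ, 8 * ‖v‖ < L.d z → (L.T v z ∈ A ↔ z ∈ A) := by
  have hap := L.approx A hA (fun t ht => by simpa only [hW] using hinv t ht)
  set u := indicatorConstLp 2 hA (measure_ne_top μ A) (1 : ℂ) with hu
  have hu_ae : ∀ᵐ z ∂μ, u z = A.indicator (fun _ => (1 : ℂ)) z := indicatorConstLp_coeFn
  have hW1 : ∀ t a, L.rep.W t a = a := fun t a => Lp.ext (by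
    filter_upwards [koop_ae _ (L.mpW t) a] with z h
    exact h.trans (by rw [hW]))
  set s := {z | L.d z ≤ 4 * (2 * ‖v‖)} with hs
  have hsm : MeasurableSet s := L.measSet _
  set g := L.rep.U v u - u with hg
  set φ := indic sᶜ hsm.compl g with hφ
  have nφ : L.rep.N (2 * ‖v‖) φ = 0 := by
    change indic _ (L.measSet _) φ = 0
    rw [indic_eq_zero_iff]
    filter_upwards [indic_ae sᶜ hsm.compl g] with z h1 hz
    rw [h1, indicator_of_notMem (fun h : z ∈ sᶜ => h hz)]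
  have h0 := L.rep.U_invariant hap hW1 nφ le_rfl
  have h1 : ⟪φ, φ⟫_ℂ = ⟪φ, g⟫_ℂ := by
    rw [L2.inner_def, L2.inner_def]
    refine integral_congr_ae ?_
    filter_upwards [indic_ae sᶜ hsm.compl g] with z h1
    rw [h1]
    by_cases hz : z ∈ sᶜ
    · rw [indicator_of_mem hz]
    · rw [indicator_of_notMem hz]; simp
  rw [← hg, ← h1, inner_self_eq_zero, hφ, indic_eq_zero_iff] at h0
  have hk : ∀ᵐ z ∂μ, (L.rep.U v u) z = u (L.T v z) := koop_ae _ (L.mpT v) u
  filter_upwards [h0, Lp.coeFn_sub (L.rep.U v u) u, hk, hu_ae,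
    (L.mpT v).quasiMeasurePreserving.ae hu_ae] with z h1 h2 h3 h4 h5 hz
  have h6 := h1 (by simp only [hs, mem_compl_iff, mem_ofPred_eq, not_le]; linarith)
  rw [hg, h2, Pi.sub_apply, h3, h4, h5, sub_eq_zero] at h6
  by_cases h7 : z ∈ A <;> by_cases h8 : L.T v z ∈ A <;> simp_all

end LocalAction

end Vale.Agent.P099
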