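import Vale.Agent.P099.Defs

/-!
Abstract setting: a finite measure space with a local action `T` of the plane, a circle action `R`,
an auxiliary semiflow `W`, and a distance-to-the-singularities function `d`.
-/

open MeasureTheory Set Filter Topology

noncomputable section

namespace Vale.Agent.P099

structure LocalAction (Ω : Type) [MeasurableSpace Ω] [TopologicalSpace Ω] (μ : Measure Ω) where
  T : ℂ → Ω → Ω
  R : UnitAddCircle → Ω → Ω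
  W : ℝ → Ω → Ω
  d : Ω → ℝ
  C : ℝ
  mpT : ∀ v, MeasurePreserving (T v) μ μ
  mpR : ∀ s, MeasurePreserving (R s) μ μ
  mpW : ∀ t, MeasurePreserving (W t) μ μ
  meas_d : Measurable d
  d_T : ∀ v z, |d (T v z) - d z| ≤ ‖v‖
  d_R : ∀ s z, d (R s z) = d z
  d_W : ∀ t z, d (W t z) = d z
  T_add : ∀ v w z, 3 * (‖v‖ + ‖w‖) < d z → T v (T w z) = T (v + w) z
  T_zero : ∀ z, 0 < d z → T 0 z = z
  R_zero : ∀ z, R 0 z = z
  R_add : ∀ s t z, R (s + t) z = R s (R t z)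
  T_R : ∀ v s z, T v (R s z) = R s (T (v * vel s) z)
  W_zero : ∀ᵐ z ∂μ, W 0 z = z
  W_add : ∀ s t, 0 ≤ s → 0 ≤ t → ∀ᵐ z ∂μ, W (s + t) z = W t (W s z)
  T_W : ∀ v t z, T v (W t z) = W t (T v z)
  R_W : ∀ s t z, R s (W t z) = W t (R s z)
  C_pos : 0 < C
  small : ∀ r, 0 < r → μ {z | d z ≤ r} ≤ ENNReal.ofReal (C * r ^ 2)
  contT : ∀ᵐ z ∂μ, Tendsto (fun v => T v z) (𝓝 0) (𝓝 z)
  contR : ∀ᵐ z ∂μ, Tendsto (fun s => R s z) (𝓝 0) (𝓝 z)
  contW : ∀ᵐ z ∂μ, Tendsto (fun t => W t z) (𝓝[≥] 0) (𝓝 z)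

end Vale.Agent.P099
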