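import Mathlib

/-!
Definitions for the billiard flow in a triangle with vertices `p 0, p 1, p 2` in the
Euclidean plane `ℂ`.
-/

open MeasureTheory Set

noncomputable section

namespace Vale.Agent.P099

/-- Phase space: a position in the plane and a direction `θ ∈ ℝ/ℤ` (measured in full turns). -/
abbrev Phase : Type := ℂ × UnitAddCircle

/-- The unit velocity vector `exp (2 π i θ)` of the direction `θ`. -/
def vel (θ : UnitAddCircle) : ℂ := (AddCircle.toCircle θ : ℂ)

/-- The open triangle `Q`. -/
def table (p : Fin 3 → ℂ) : Set ℂ := interior (convexHull ℝ (Set.range p))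

/-- The open side opposite to the vertex `p i`. -/
def side (p : Fin 3 → ℂ) (i : Fin 3) : Set ℂ := openSegment ℝ (p (i + 1)) (p (i + 2))

/-- Specular reflection of a direction in side `i`: if the side has argument `φ` (radians),
the angle `2 π θ` goes to `2 φ - 2 π θ`. -/
def reflectDir (p : Fin 3 → ℂ) (i : Fin 3) (θ : UnitAddCircle) : UnitAddCircle :=
  ((Complex.arg (p (i + 2) - p (i + 1)) / Real.pi : ℝ) : UnitAddCircle) - θ

/-- Free motion at unit speed for time `t`. -/
def move (t : ℝ) (z : Phase) : Phase := (z.1 + (t : ℂ) * vel z.2, z.2)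

/-- The first positive time at which the free motion is outside the open triangle. -/
def hitTime (p : Fin 3 → ℂ) (z : Phase) : ℝ :=
  sInf {t : ℝ | 0 < t ∧ (move t z).1 ∉ table p}

open Classical in
/-- Move to the next collision and reflect in the open side that is hit
(at a vertex the direction is left unchanged; such orbits form a null set). -/
def bounce (p : Fin 3 → ℂ) (z : Phase) : Phase :=
  if (move (hitTime p z) z).1 ∈ side p 0 then ((move (hitTime p z) z).1, reflectDir p 0 z.2)
  else if (move (hitTime p z) z).1 ∈ side p 1 then ((move (hitTime p z) z).1, reflectDir p 1 z.2)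
  else if (move (hitTime p z) z).1 ∈ side p 2 then ((move (hitTime p z) z).1, reflectDir p 2 z.2)
  else move (hitTime p z) z

/-- The time of the `n`-th collision. -/
def bounceTime (p : Fin 3 → ℂ) (z : Phase) (n : ℕ) : ℝ :=
  ∑ j ∈ Finset.range n, hitTime p ((bounce p)^[j] z)

/-- The number of collisions up to time `t`. -/
def bounceCount (p : Fin 3 → ℂ) (t : ℝ) (z : Phase) : ℕ :=
  sInf {n : ℕ | t < bounceTime p z (n + 1)}

/-- The billiard flow for times `t ≥ 0`: free motion from the last collision. -/
def forward (p : Fin 3 → ℂ) (t : ℝ) (z : Phase) : Phase :=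
  move (t - bounceTime p z (bounceCount p t z)) ((bounce p)^[bounceCount p t z] z)

/-- Reversal of the direction. -/
def reverse (z : Phase) : Phase := (z.1, z.2 + ((1 / 2 : ℝ) : UnitAddCircle))

/-- The billiard flow for all real times. -/
def flow (p : Fin 3 → ℂ) (t : ℝ) (z : Phase) : Phase :=
  if 0 ≤ t then forward p t z else reverse (forward p (-t) (reverse z))

/-- Normalized area on the triangle times the uniform probability on directions. -/
def liouville (p : Fin 3 → ℂ) : Measure Phase :=
  ((volume (table p))⁻¹ • volume.restrict (table p)).prod AddCircle.haarAddCircle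

/-- Ergodicity of a flow `Φ` for a probability measure `μ`. -/
def IsErgodicFlow {X : Type} [MeasurableSpace X] (μ : Measure X) (Φ : ℝ → X → X) : Prop :=
  ∀ A : Set X, MeasurableSet A → (∀ t : ℝ, μ (symmDiff (Φ t ⁻¹' A) A) = 0) → μ A = 0 ∨ μ A = 1

/-- The triangle is rational if each of its three angles is a rational multiple of `π`. -/
def IsRationalTriangle (p : Fin 3 → ℂ) : Prop :=
  ∀ i : Fin 3, ∃ q : ℚ, EuclideanGeometry.angle (p (i + 1)) (p i) (p (i + 2)) = (q : ℝ) * Real.pi

end Vale.Agent.P099
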