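import Vale.Agent.P099.TblMeas

/-!
A set which is locally invariant under the plane action is trivial when the holonomy is irrational.
-/

open MeasureTheory Set Filter Topology ComplexConjugate

noncomputable section

namespace Vale.Agent.P099

theorem exists_mem_of_ae {O : Set ℂ} (hO : IsOpen O) (hne : O.Nonempty) {P : ℂ → Prop}
    (h : ∀ᵐ y, P y) : ∃ y ∈ O, P y := by
  by_contra h1
  push Not at h1
  have h2 : volume O = 0 := measure_mono_null (fun y hy => h1 y hy) (ae_iff.1 h)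
  exact (hO.measure_pos volume hne).ne' h2

namespace Tbl

variable (B : Tbl)

theorem d2_pos {x : ℂ} (h : x ∈ B.Q) : 0 < B.d2 x := B.lt_d2_of (i := 0) fun j _ => h j

theorem dichotomy (S Bs : Set ℂ)
    (H : ∀ᵐ x, x ∈ B.Q → ∀ᵐ y, 8 * ‖y - x‖ < B.d2 x → (y ∈ Bs ↔ x ∈ S)) :
    ∃ b : Prop, ∀ᵐ x, x ∈ B.Q → (x ∈ S ↔ b) := by
  set Gd : Set ℂ := {x | x ∈ B.Q ∧ ∀ᵐ y, 8 * ‖y - x‖ < B.d2 x → (y ∈ Bs ↔ x ∈ S)} with hGd
  set V : Set ℂ → Set ℂ := fun U => ⋃ x ∈ Gd ∩ U, Metric.ball x (B.d2 x / 8) with hV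
  have hVo : ∀ U, IsOpen (V U) := fun U => isOpen_biUnion fun _ _ => Metric.isOpen_ball
  have hdisj : Disjoint (V S) (V Sᶜ) := by
    rw [Set.disjoint_left]
    intro y0 h1 h2
    simp only [hV, mem_iUnion] at h1 h2
    obtain ⟨x, ⟨hx, hxS⟩, hy⟩ := h1
    obtain ⟨x', ⟨hx', hxS'⟩, hy'⟩ := h2
    obtain ⟨y, ⟨hy1, hy2⟩, h3, h4⟩ := exists_mem_of_ae (Metric.isOpen_ball.inter Metric.isOpen_ball)
      ⟨y0, hy, hy'⟩ (hx.2.and hx'.2)
    rw [mem_ball_iff_norm] at hy1 hy2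
    exact hxS' ((h4 (by linarith)).1 ((h3 (by linarith)).2 hxS))
  have hcov : B.Q ⊆ V S ∪ V Sᶜ := by
    intro x0 hx0
    have hd := B.d2_pos hx0
    obtain ⟨x, ⟨hx1, hx2⟩, h3⟩ := exists_mem_of_ae
      (B.isOpen_Q.inter (Metric.isOpen_ball (x := x0) (ε := B.d2 x0 / 10)))
      ⟨x0, hx0, Metric.mem_ball_self (by linarith)⟩ H
    have hxG : x ∈ Gd := ⟨hx1, h3 hx1⟩
    rw [mem_ball_iff_norm] at hx2
    have h4 := B.d2_le x0 x
    have h5 : x0 ∈ Metric.ball x (B.d2 x / 8) := by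
      rw [mem_ball_iff_norm]
      rw [norm_sub_rev] at hx2
      linarith
    by_cases hS : x ∈ S
    · exact Or.inl (mem_biUnion (s := Gd ∩ S) ⟨hxG, hS⟩ h5)
    · exact Or.inr (mem_biUnion (s := Gd ∩ Sᶜ) ⟨hxG, hS⟩ h5)
  have self_mem : ∀ U x, x ∈ Gd → x ∈ U → x ∈ V U := fun U x h1 h2 =>
    mem_biUnion (s := Gd ∩ U) ⟨h1, h2⟩ (Metric.mem_ball_self (by linarith [B.d2_pos h1.1]))
  rcases B.convex_Q.isPreconnected.subset_or_subset (hVo S) (hVo Sᶜ) hdisj hcov with h | h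
  · refine ⟨True, ?_⟩
    filter_upwards [H] with x hx hQ
    simp only [iff_true]
    by_contra hS
    exact Set.disjoint_left.1 hdisj (h hQ) (self_mem Sᶜ x ⟨hQ, hx hQ⟩ hS)
  · refine ⟨False, ?_⟩
    filter_upwards [H] with x hx hQ
    simp only [iff_false]
    intro hS
    exact Set.disjoint_left.1 hdisj (self_mem S x ⟨hQ, hx hQ⟩ hS) (h hQ)

theorem across (i : Fin 3) {P : ℂ → Prop} (H : ∀ᵐ x, P x) :
    ∃ x ∈ B.Q, P x ∧ ∃ O : Set ℂ, IsOpen O ∧ O.Nonempty ∧ ∀ y ∈ O, 8 * ‖y - x‖ < B.d2 x ∧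
      B.mirror i y ∈ B.Q ∧ ∀ θ, B.fold (true, (y, θ)) = B.refl i (true, (y, θ)) := by
  obtain ⟨x₀, ρ, hρ, h0, h1⟩ := B.exists_near_side i
  have nn : ∀ t : ℝ, ‖(t : ℂ) * B.n i‖ = |t| := fun t => by
    rw [norm_mul, B.norm_n, mul_one, Complex.norm_real, Real.norm_eq_abs]
  have hne : (B.Q ∩ Metric.ball x₀ (ρ / 40)).Nonempty := by
    refine ⟨x₀ + (ρ / 80 : ℝ) * B.n i, fun j => ?_, ?_⟩
    · by_cases hj : j = i
      · subst hj; rw [l_add_n, h0]; linarith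
      · have := (abs_le.1 (B.l_lip j (x₀ + (ρ / 80 : ℝ) * B.n i) x₀)).1
        rw [add_sub_cancel_left, nn, abs_of_pos (by linarith)] at this
        linarith [h1 j hj]
    · rw [mem_ball_iff_norm, add_sub_cancel_left, nn, abs_of_pos (by linarith)]; linarith
  obtain ⟨x, ⟨hx1, hx2⟩, hx3⟩ := exists_mem_of_ae (B.isOpen_Q.inter Metric.isOpen_ball) hne H
  rw [mem_ball_iff_norm] at hx2
  have h2 : ∀ j, j ≠ i → ρ / 2 < B.l j x := fun j hj => by
    have := (abs_le.1 (B.l_lip j x x₀)).1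
    linarith [h1 j hj]
  have h3 : ρ / 2 < B.d2 x := B.lt_d2_of h2
  refine ⟨x, hx1, hx3, Metric.ball x₀ (ρ / 40) ∩ {y | B.l i y < 0},
    Metric.isOpen_ball.inter (isOpen_lt (B.continuous_l i) continuous_const), ?_, ?_⟩
  · refine ⟨x₀ + (-(ρ / 80) : ℝ) * B.n i, ?_, ?_⟩
    · rw [mem_ball_iff_norm, add_sub_cancel_left, nn, abs_neg, abs_of_pos (by linarith)]; linarith
    · change B.l i _ < 0
      rw [l_add_n, h0]; linarith
  · rintro y ⟨hy1, hy2⟩
    rw [mem_ball_iff_norm] at hy1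
    have hy2' : B.l i y < 0 := hy2
    have h4 : ‖y - x‖ < ρ / 20 := by
      have := norm_add_le (y - x₀) (x₀ - x)
      rw [sub_add_sub_cancel, norm_sub_rev x₀] at this
      linarith
    refine ⟨by linarith, fun j => ?_, fun θ => ?_⟩
    · by_cases hj : j = i
      · subst hj; rw [l_mirror]; linarith
      · have a1 := B.norm_mirror_le i (hx1 i).le hy2'.le
        have a2 := (abs_le.1 (B.l_lip j (B.mirror i y) x)).1
        linarith [h2 j hj]
    · obtain ⟨a1, -, -⟩ := B.local_fold (hx1 i).le h2 (true, (y, θ)) (by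
        change ‖y - x‖ ≤ _; linarith)
      rw [a1]
      unfold foldi
      rw [if_pos (show B.needs i (true, (y, θ)) from Or.inl hy2')]

theorem ae_muZ_iff {P : Phase → Prop} :
    (∀ᵐ z ∂B.muZ, P z) ↔ ∀ᵐ z ∂m0Z, z.1 ∈ B.Q → P z := by
  rw [muZ_eq, Measure.ae_ennreal_smul_measure_iff (ENNReal.inv_ne_zero.2 B.vol_Q_ne_top),
    ae_restrict_iff' (B.measurableSet_Q.prod MeasurableSet.univ)]
  simp

theorem ending (hirr : ∃ i j, addOrderOf (B.a i - B.a j) = 0) (A : Set Phase)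
    (hA : MeasurableSet A)
    (h : ∀ v : ℂ, ∀ᵐ ω ∂B.muD, 8 * ‖v‖ < B.d ω → ((B.T v ω).2 ∈ A ↔ ω.2 ∈ A)) :
    B.muZ A = 0 ∨ B.muZ A = 1 := by
  have s1 : ∀ v : ℂ, ∀ᵐ z ∂m0Z, z.1 ∈ B.Q → 8 * ‖v‖ < B.d2 z.1 →
      ((B.fold (true, (z.1 + v * vel z.2, z.2))).2 ∈ A ↔ z ∈ A) := by
    intro v
    have h1 := Measure.ae_count_iff.1 (Measure.ae_ae_of_ae_prod (h v)) true
    filter_upwards [B.ae_muZ_iff.1 h1] with z h2 hz h3
    have hd : B.d (true, z) = B.d2 z.1 := B.d_of_canon (B.canon_of_mem (ω := (true, z)) hz)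
    have h4 := h2 hz (by rw [hd]; exact h3)
    rw [B.T_eq_T0 (by rw [hd]; linarith [norm_nonneg v])] at h4
    exact h4
  have hmeas : MeasurableSet {q : ℂ × Phase | q.2.1 ∈ B.Q → 8 * ‖q.1‖ < B.d2 q.2.1 →
      ((B.fold (true, (q.2.1 + q.1 * vel q.2.2, q.2.2))).2 ∈ A ↔ q.2 ∈ A)} := by
    have m1 : Measurable fun q : ℂ × Phase => q.2.1 ∈ B.Q :=
      (measurableSet_setOfPred.1 B.measurableSet_Q).comp (measurable_fst.comp measurable_snd)
    have m2 : Measurable fun q : ℂ × Phase => 8 * ‖q.1‖ < B.d2 q.2.1 := by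
      refine measurableSet_setOfPred.1 (measurableSet_lt (by fun_prop) ?_)
      exact B.continuous_d2.measurable.comp (measurable_fst.comp measurable_snd)
    have m3 : Measurable fun q : ℂ × Phase =>
        (B.fold (true, (q.2.1 + q.1 * vel q.2.2, q.2.2))).2 ∈ A := by
      refine (measurableSet_setOfPred.1 hA).comp (measurable_snd.comp (B.measurable_fold.comp ?_))
      have := measurable_vel
      fun_prop
    have m4 : Measurable fun q : ℂ × Phase => q.2 ∈ A :=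
      (measurableSet_setOfPred.1 hA).comp measurable_snd
    exact measurableSet_setOfPred.2 (m1.imp (m2.imp (m3.iff m4)))
  have s2 := (Measure.ae_ae_comm (μ := (volume : Measure ℂ)) (ν := m0Z)
    (p := fun v z => z.1 ∈ B.Q → 8 * ‖v‖ < B.d2 z.1 →
      ((B.fold (true, (z.1 + v * vel z.2, z.2))).2 ∈ A ↔ z ∈ A)) hmeas).1
    (Eventually.of_forall s1)
  have s3 : ∀ᵐ z ∂m0Z, z.1 ∈ B.Q → ∀ᵐ y : ℂ, 8 * ‖y - z.1‖ < B.d2 z.1 →
      ((B.fold (true, (y, z.2))).2 ∈ A ↔ z ∈ A) := by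
    filter_upwards [s2] with z hz hQ
    have mp := (rotation (AddCircle.toCircle (-z.2))).measurePreserving.comp
      (measurePreserving_sub_right volume z.1)
    filter_upwards [mp.quasiMeasurePreserving.ae hz] with y hy h8
    have e0 : ((rotation (AddCircle.toCircle (-z.2))) ∘ fun x => x - z.1) y =
        vel (-z.2) * (y - z.1) := rfl
    rw [e0] at hy
    have e1 : z.1 + vel (-z.2) * (y - z.1) * vel z.2 = y := by
      rw [vel_neg]
      linear_combination (y - z.1) * conj_vel_mul z.2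
    rw [e1, norm_mul, norm_vel, one_mul] at hy
    exact hy hQ h8
  have s4 : ∀ᵐ θ ∂AddCircle.haarAddCircle, ∀ᵐ x : ℂ, x ∈ B.Q → ∀ᵐ y : ℂ,
      8 * ‖y - x‖ < B.d2 x → ((B.fold (true, (y, θ))).2 ∈ A ↔ (x, θ) ∈ A) :=
    Measure.ae_ae_of_ae_prod (Measure.measurePreserving_swap.quasiMeasurePreserving.ae s3)
  set G : Set UnitAddCircle :=
    {θ | volume ((fun x : ℂ => (x, θ)) ⁻¹' ((B.Q ×ˢ univ) \ A)) = 0} with hG
  have hGm : MeasurableSet G :=
    measurable_measure_prodMk_right ((B.measurableSet_Q.prod MeasurableSet.univ).diff hA)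
      (measurableSet_singleton 0)
  have s5 : ∀ᵐ θ ∂AddCircle.haarAddCircle, ∀ᵐ x : ℂ, x ∈ B.Q → ((x, θ) ∈ A ↔ θ ∈ G) := by
    filter_upwards [s4] with θ hθ
    obtain ⟨b, hb⟩ := B.dichotomy {x | (x, θ) ∈ A} {y | (B.fold (true, (y, θ))).2 ∈ A} hθ
    have hGi : θ ∈ G ↔ ∀ᵐ x : ℂ, x ∈ B.Q → (x, θ) ∈ A := by
      rw [ae_iff, hG, mem_ofPred_eq]
      congr! 2
      ext x; simp
    have : b ↔ θ ∈ G := by
      rw [hGi]
      constructor
      · intro h1
        filter_upwards [hb] with x hx hQ using (hx hQ).2 h1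
      · intro h1
        obtain ⟨x, hx, h2, h3⟩ := exists_mem_of_ae B.isOpen_Q B.nonempty_Q (h1.and hb)
        exact (h3 hx).1 (h2 hx)
    filter_upwards [hb] with x hx hQ
    rw [← this]; exact hx hQ
  have s6 : ∀ i, ∀ᵐ θ ∂AddCircle.haarAddCircle, (B.a i - θ ∈ G ↔ θ ∈ G) := by
    intro i
    filter_upwards [s4, s5, (Measure.measurePreserving_sub_left AddCircle.haarAddCircle
      (B.a i)).quasiMeasurePreserving.ae s5] with θ h1 h2 h3
    obtain ⟨x, hx, ⟨h4, h5⟩, O, hO, hne, hO'⟩ := B.across i (h1.and h2)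
    obtain ⟨y, hy, h6, h7⟩ := exists_mem_of_ae hO hne
      ((h4 hx).and ((B.mp_mirror i).quasiMeasurePreserving.ae h3))
    obtain ⟨a1, a2, a3⟩ := hO' y hy
    have a4 := h6 a1
    rw [a3] at a4
    rw [← h7 a2, ← h5 hx]
    exact a4
  obtain ⟨i, j, hij⟩ := hirr
  have herg : Ergodic (fun θ : UnitAddCircle => (B.a i - B.a j) + θ) AddCircle.haarAddCircle := by
    have := AddCircle.ergodic_add_left.2 hij
    rwa [show (volume : Measure UnitAddCircle) = AddCircle.haarAddCircle by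
      simp [AddCircle.volume_eq_smul_haarAddCircle]] at this
  have s7 : (fun θ : UnitAddCircle => (B.a i - B.a j) + θ) ⁻¹' G =ᵐ[AddCircle.haarAddCircle] G := by
    filter_upwards [s6 j, (Measure.measurePreserving_sub_left AddCircle.haarAddCircle
      (B.a j)).quasiMeasurePreserving.ae (s6 i)] with θ h1 h2
    rw [show B.a i - (B.a j - θ) = B.a i - B.a j + θ by abel] at h2
    exact propext (h2.trans h1)
  have fub : ∀ P : Phase → Prop, MeasurableSet {z | P z} →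
      (∀ᵐ θ ∂AddCircle.haarAddCircle, ∀ᵐ x : ℂ, x ∈ B.Q → P (x, θ)) → ∀ᵐ z ∂B.muZ, P z := by
    intro P hP h1
    rw [ae_muZ_iff]
    have hm : MeasurableSet {z : Phase | z.1 ∈ B.Q → P z} :=
      measurableSet_setOfPred.2 (((measurableSet_setOfPred.1 B.measurableSet_Q).comp measurable_fst).imp
        (measurableSet_setOfPred.1 hP))
    unfold m0Z
    rw [Measure.ae_prod_iff_ae_ae hm]
    exact (Measure.ae_ae_comm (p := fun x θ => x ∈ B.Q → P (x, θ)) hm).2 h1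
  rcases herg.quasiErgodic.ae_empty_or_univ₀ hGm.nullMeasurableSet s7 with h1 | h1
  · left
    have : ∀ᵐ z ∂B.muZ, z ∉ A := by
      refine fub _ hA.compl ?_
      filter_upwards [s5, h1] with θ h2 h3
      filter_upwards [h2] with x hx hQ hA'
      exact (show θ ∈ (∅ : Set UnitAddCircle) from Eq.mp h3 ((hx hQ).1 hA'))
    simpa [ae_iff] using this
  · right
    have : ∀ᵐ z ∂B.muZ, z ∈ A := by
      refine fub _ hA ?_
      filter_upwards [s5, h1] with θ h2 h3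
      filter_upwards [h2] with x hx hQ
      exact (hx hQ).2 (show G θ from h3 ▸ mem_univ θ)
    exact (prob_compl_eq_zero_iff hA).1 (ae_iff.1 this)

end Tbl

end Vale.Agent.P099
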