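import Vale.Agent.P099.Defs

/-!
Elementary properties of the concrete flow: recursion, semigroup law, measurability.
-/

open MeasureTheory Set Filter Topology

noncomputable section

namespace Vale.Agent.P099

variable {p : Fin 3 → ℂ}

/-- only finitely many collisions happen up to time `t` -/
def Legit (p : Fin 3 → ℂ) (t : ℝ) (z : Phase) : Prop := ∃ n : ℕ, t < bounceTime p z (n + 1)

namespace FlowBasic

lemma norm_vel (θ : UnitAddCircle) : ‖vel θ‖ = 1 :=
  Circle.norm_coe _

lemma move_zero (z : Phase) : move 0 z = z := by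
  simp [move]

lemma move_move (s t : ℝ) (z : Phase) : move t (move s z) = move (s + t) z := by
  simp only [move]
  refine Prod.ext ?_ rfl
  push_cast
  ring

lemma convex_table (p : Fin 3 → ℂ) : Convex ℝ (table p) := (convex_convexHull ℝ _).interior

lemma isBounded_table (p : Fin 3 → ℂ) : Bornology.IsBounded (table p) :=
  (isBounded_convexHull.2 (Set.finite_range p).isBounded).subset interior_subset

lemma exit_nonempty (p : Fin 3 → ℂ) (z : Phase) :
    {t : ℝ | 0 < t ∧ (move t z).1 ∉ table p}.Nonempty := by
  obtain ⟨C, hC⟩ := (isBounded_table p).exists_norm_le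
  refine ⟨|C| + ‖z.1‖ + 1, by positivity, fun h => ?_⟩
  have h1 := hC _ h
  have h2 : ‖(((|C| + ‖z.1‖ + 1 : ℝ) : ℂ) * vel z.2)‖ = |C| + ‖z.1‖ + 1 := by
    rw [norm_mul, norm_vel, mul_one, Complex.norm_real, Real.norm_of_nonneg (by positivity)]
  have h3 := norm_sub_le (z.1 + ((|C| + ‖z.1‖ + 1 : ℝ) : ℂ) * vel z.2) z.1
  rw [add_sub_cancel_left, h2] at h3
  have h4 := le_abs_self C
  simp only [move] at h1
  linarith

lemma exit_bdd (p : Fin 3 → ℂ) (z : Phase) :
    BddBelow {t : ℝ | 0 < t ∧ (move t z).1 ∉ table p} := ⟨0, fun _ h => h.1.le⟩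

lemma hitTime_nonneg (p : Fin 3 → ℂ) (z : Phase) : 0 ≤ hitTime p z :=
  le_csInf (exit_nonempty p z) fun _ h => h.1.le

lemma bounceTime_zero (z : Phase) : bounceTime p z 0 = 0 := by simp [bounceTime]

lemma bounceTime_succ (z : Phase) (n : ℕ) :
    bounceTime p z (n + 1) = hitTime p z + bounceTime p (bounce p z) n := by
  unfold bounceTime
  rw [Finset.sum_range_succ', add_comm]
  rfl

lemma bounceTime_one (z : Phase) : bounceTime p z 1 = hitTime p z := by
  rw [bounceTime_succ, bounceTime_zero, add_zero]

lemma hitTime_move {s : ℝ} {z : Phase} (hs : 0 ≤ s) (h : s < hitTime p z) :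
    hitTime p (move s z) = hitTime p z - s := by
  apply le_antisymm
  · rw [le_sub_iff_add_le]
    refine le_csInf (exit_nonempty p z) fun u hu => ?_
    have h1 : hitTime p z ≤ u := csInf_le (exit_bdd p z) hu
    rw [← le_sub_iff_add_le]
    refine csInf_le (exit_bdd p _) ⟨by linarith, ?_⟩
    rw [move_move, add_sub_cancel]
    exact hu.2
  · refine le_csInf (exit_nonempty p _) fun u hu => ?_
    rw [sub_le_iff_le_add]
    refine csInf_le (exit_bdd p z) ⟨by linarith [hu.1], ?_⟩
    rw [add_comm, ← move_move]
    exact hu.2

lemma bounce_move {s : ℝ} {z : Phase} (hs : 0 ≤ s) (h : s < hitTime p z) :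
    bounce p (move s z) = bounce p z := by
  have e : move (hitTime p (move s z)) (move s z) = move (hitTime p z) z := by
    rw [hitTime_move hs h, move_move, add_sub_cancel]
  unfold bounce
  rw [e]
  rfl

lemma legit_bounce {t : ℝ} {z : Phase} (h : hitTime p z ≤ t) (hl : Legit p t z) :
    Legit p (t - hitTime p z) (bounce p z) := by
  obtain ⟨n, hn⟩ := hl
  cases n with
  | zero =>
    rw [zero_add, bounceTime_one] at hn
    linarith
  | succ n =>
    rw [bounceTime_succ] at hn
    exact ⟨n, by linarith⟩

lemma continuous_vel : Continuous vel :=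
  continuous_subtype_val.comp AddCircle.continuous_toCircle

lemma continuous_move : Continuous fun w : ℝ × Phase => move w.1 w.2 := by
  have := continuous_vel
  unfold move
  fun_prop

lemma measurable_move {f : Phase → ℝ} {g : Phase → Phase} (hf : Measurable f)
    (hg : Measurable g) : Measurable fun z => move (f z) (g z) :=
  continuous_move.measurable.comp (hf.prodMk hg)

lemma measurable_hitTime (p : Fin 3 → ℂ) : Measurable (hitTime p) := by
  refine measurable_of_Iio fun c => ?_
  have e : hitTime p ⁻¹' Iio c =
      ⋃ q : ℚ, {z : Phase | (0 < (q : ℝ) ∧ (q : ℝ) < c) ∧ (move q z).1 ∉ table p} := by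
    ext z
    simp only [mem_preimage, mem_Iio, mem_iUnion, mem_ofPred_eq]
    constructor
    · intro h
      obtain ⟨t, ⟨ht0, ht1⟩, ht2⟩ := exists_lt_of_csInf_lt (exit_nonempty p z) h
      obtain ⟨q1, a1, a2⟩ := exists_rat_btwn ht0
      obtain ⟨q2, b1, b2⟩ := exists_rat_btwn ht2
      by_contra hcon
      push Not at hcon
      have c1 := hcon q1 ⟨a1, by linarith⟩
      have c2 := hcon q2 ⟨by linarith, b2⟩
      have hd : (0 : ℝ) < q2 - q1 := by linarith
      have := convex_table p c1 c2 (a := (q2 - t) / (q2 - q1)) (b := (t - q1) / (q2 - q1))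
        (div_nonneg (by linarith) hd.le) (div_nonneg (by linarith) hd.le) (by field_simp; ring)
      apply ht1
      convert this using 1
      have hd' : ((q2 : ℝ) : ℂ) - ((q1 : ℝ) : ℂ) ≠ 0 := by exact_mod_cast hd.ne'
      simp only [move, Complex.real_smul, Complex.ofReal_div, Complex.ofReal_sub]
      field_simp
      ring
    · rintro ⟨q, ⟨h1, h2⟩, h3⟩
      exact lt_of_le_of_lt (csInf_le (exit_bdd p z) ⟨h1, h3⟩) h2
  rw [e]
  refine MeasurableSet.iUnion fun q => ?_
  have hm : Measurable fun z : Phase => (move q z).1 :=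
    (measurable_move measurable_const measurable_id).fst
  exact (MeasurableSet.const _).inter (hm isOpen_interior.measurableSet.compl)

lemma measurableSet_openSegment (a b : ℂ) : MeasurableSet (openSegment ℝ a b) := by
  by_cases h : a = b
  · rw [h, openSegment_same]
    exact measurableSet_singleton _
  · rw [openSegment_eq_image']
    refine measurableSet_Ioo.image_of_continuousOn_injOn (by fun_prop) ?_
    intro x _ y _ hxy
    exact smul_left_injective ℝ (sub_ne_zero.2 (Ne.symm h)) (add_left_cancel hxy)

lemma measurable_bounce (p : Fin 3 → ℂ) : Measurable (bounce p) := by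
  have h1 : Measurable fun z : Phase => move (hitTime p z) z :=
    measurable_move (measurable_hitTime p) measurable_id
  have h2 : ∀ i, MeasurableSet {z : Phase | (move (hitTime p z) z).1 ∈ side p i} :=
    fun i => h1.fst (measurableSet_openSegment _ _)
  have h3 : ∀ i, Measurable fun z : Phase => ((move (hitTime p z) z).1, reflectDir p i z.2) :=
    fun i => h1.fst.prodMk (Continuous.measurable (by unfold reflectDir; fun_prop))
  exact Measurable.ite (h2 0) (h3 0) (Measurable.ite (h2 1) (h3 1)
    (Measurable.ite (h2 2) (h3 2) h1))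

lemma measurable_bounceTime (p : Fin 3 → ℂ) (n : ℕ) : Measurable fun z => bounceTime p z n :=
  Finset.measurable_sum _ fun j _ => (measurable_hitTime p).comp ((measurable_bounce p).iterate j)

lemma measurable_bounceCount (p : Fin 3 → ℂ) (t : ℝ) : Measurable (bounceCount p t) := by
  have hA : ∀ n, MeasurableSet {z : Phase | t < bounceTime p z (n + 1)} :=
    fun n => measurableSet_lt measurable_const (measurable_bounceTime p _)
  refine measurable_of_Iic fun n => ?_
  have e : bounceCount p t ⁻¹' Iic n = (⋃ k, {z : Phase | t < bounceTime p z (k + 1)})ᶜ ∪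
      ⋃ k ∈ Iic n, {z : Phase | t < bounceTime p z (k + 1)} := by
    ext z
    simp only [mem_preimage, mem_Iic, mem_union, mem_compl_iff, mem_iUnion, mem_ofPred_eq,
      exists_prop]
    constructor
    · intro h
      by_cases h1 : ∃ k, t < bounceTime p z (k + 1)
      · exact Or.inr ⟨_, h, Nat.sInf_mem (s := {n : ℕ | t < bounceTime p z (n + 1)}) h1⟩
      · exact Or.inl h1
    · rintro (h | ⟨k, hk, h⟩)
      · have : bounceCount p t z = 0 := Nat.sInf_eq_zero.2 (Or.inr (by
          rw [Set.eq_empty_iff_forall_notMem]
          exact fun k hk => h ⟨k, hk⟩))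
        omega
      · exact (Nat.sInf_le (s := {n : ℕ | t < bounceTime p z (n + 1)}) h).trans hk
  rw [e]
  exact (MeasurableSet.iUnion hA).compl.union
    (MeasurableSet.biUnion (Set.to_countable _) fun k _ => hA k)

end FlowBasic

open FlowBasic

theorem forward_of_lt {t : ℝ} {z : Phase} (h : t < hitTime p z) :
    Legit p t z ∧ forward p t z = move t z := by
  have h0 : t < bounceTime p z (0 + 1) := by rwa [zero_add, bounceTime_one]
  refine ⟨⟨0, h0⟩, ?_⟩
  have h1 : bounceCount p t z = 0 := Nat.sInf_eq_zero.2 (Or.inl h0)
  unfold forward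
  rw [h1, bounceTime_zero, sub_zero]
  rfl

theorem forward_of_ge {t : ℝ} {z : Phase} (h : hitTime p z ≤ t)
    (hl : Legit p (t - hitTime p z) (bounce p z)) :
    Legit p t z ∧ forward p t z = forward p (t - hitTime p z) (bounce p z) := by
  have key : ∀ n, t < bounceTime p z (n + 1 + 1) ↔
      t - hitTime p z < bounceTime p (bounce p z) (n + 1) := by
    intro n
    rw [bounceTime_succ z (n + 1), sub_lt_iff_lt_add']
  have hl' : Legit p t z := by
    obtain ⟨n, hn⟩ := hl
    exact ⟨n + 1, (key n).2 hn⟩
  refine ⟨hl', ?_⟩
  have h1 : bounceCount p t z = bounceCount p (t - hitTime p z) (bounce p z) + 1 := by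
    apply le_antisymm
    · exact Nat.sInf_le (s := {n : ℕ | t < bounceTime p z (n + 1)}) ((key _).2
        (Nat.sInf_mem (s := {n : ℕ | t - hitTime p z < bounceTime p (bounce p z) (n + 1)}) hl))
    · have h2 : t < bounceTime p z (bounceCount p t z + 1) :=
        Nat.sInf_mem (s := {n : ℕ | t < bounceTime p z (n + 1)}) hl'
      cases h3 : bounceCount p t z with
      | zero =>
        rw [h3, zero_add, bounceTime_one] at h2
        linarith
      | succ m =>
        rw [h3] at h2
        exact Nat.succ_le_succ (Nat.sInf_le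
          (s := {n : ℕ | t - hitTime p z < bounceTime p (bounce p z) (n + 1)}) ((key m).1 h2))
  unfold forward
  rw [h1, bounceTime_succ, Function.iterate_succ_apply, sub_sub]

theorem forward_add {s t : ℝ} {z : Phase} (hs : 0 ≤ s) (ht : 0 ≤ t) (h1 : Legit p s z)
    (h2 : Legit p t (forward p s z)) :
    Legit p (s + t) z ∧ forward p (s + t) z = forward p t (forward p s z) := by
  obtain ⟨n, hn⟩ := h1
  induction n generalizing z s with
  | zero =>
    rw [zero_add, bounceTime_one] at hn
    have e := (forward_of_lt hn).2
    rw [e] at h2 ⊢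
    have e1 := hitTime_move hs hn
    have e2 := bounce_move hs hn
    by_cases h3 : s + t < hitTime p z
    · refine ⟨(forward_of_lt h3).1, ?_⟩
      rw [(forward_of_lt h3).2, (forward_of_lt (by rw [e1]; linarith)).2, move_move]
    · push Not at h3
      have h4 : hitTime p (move s z) ≤ t := by rw [e1]; linarith
      have h5 := legit_bounce h4 h2
      have h6 := (forward_of_ge h4 h5).2
      have e3 : t - hitTime p (move s z) = s + t - hitTime p z := by rw [e1]; ring
      rw [e2, e3] at h5 h6
      refine ⟨(forward_of_ge h3 h5).1, ?_⟩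
      rw [(forward_of_ge h3 h5).2, h6]
  | succ n ih =>
    by_cases h3 : s < hitTime p z
    · by_cases h4 : s < bounceTime p z (n + 1)
      · exact ih hs h2 h4
      · rw [bounceTime_succ] at h4
        have h5 : 0 ≤ bounceTime p (bounce p z) n :=
          Finset.sum_nonneg fun j _ => hitTime_nonneg p _
        linarith
    · push Not at h3
      rw [bounceTime_succ] at hn
      have h4 : s - hitTime p z < bounceTime p (bounce p z) (n + 1) := by linarith
      have e := (forward_of_ge h3 ⟨n, h4⟩).2
      rw [e] at h2 ⊢
      obtain ⟨h5, h6⟩ := ih (by linarith) h2 h4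
      have e3 : s - hitTime p z + t = s + t - hitTime p z := by ring
      rw [e3] at h5 h6
      have h7 := forward_of_ge (t := s + t) (by linarith) h5
      exact ⟨h7.1, h7.2.trans h6⟩

theorem measurable_forward (p : Fin 3 → ℂ) (t : ℝ) : Measurable (forward p t) := by
  have h0 : ∀ n : ℕ, Measurable fun z : Phase =>
      move (t - bounceTime p z n) ((bounce p)^[n] z) := fun n =>
    measurable_move (f := fun z => t - bounceTime p z n) (g := (bounce p)^[n])
      ((measurable_bounceTime p n).const_sub t) ((measurable_bounce p).iterate n)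
  have key : ∀ (F : Phase → ℕ → Phase) (N : Phase → ℕ), (∀ n, Measurable fun z => F z n) →
      Measurable N → Measurable fun z => F z (N z) := by
    intro F N hF hN
    have h1 : Measurable fun w : Phase × ℕ => F w.1 w.2 := measurable_from_prod_countable_left hF
    exact h1.comp (measurable_id.prodMk hN)
  exact key (fun z n => move (t - bounceTime p z n) ((bounce p)^[n] z)) (bounceCount p t) h0
    (measurable_bounceCount p t)

theorem measurableSet_legit (p : Fin 3 → ℂ) (t : ℝ) : MeasurableSet {z | Legit p t z} := by
  have e : {z | Legit p t z} = ⋃ n, {z : Phase | t < bounceTime p z (n + 1)} := by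
    ext z
    simp [Legit]
  rw [e]
  exact MeasurableSet.iUnion fun n => measurableSet_lt measurable_const (measurable_bounceTime p _)

end Vale.Agent.P099
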