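import Vale.Agent.P099.TblMeas
import Vale.Agent.P099.FlowBasic

/-!
The concrete billiard flow agrees locally with the plane action; it preserves the measure.
-/

open MeasureTheory Set Filter Topology ComplexConjugate

noncomputable section

namespace Vale.Agent.P099

theorem le_hitTime {p : Fin 3 → ℂ} {z : Phase} {t : ℝ}
    (h : ∀ s, 0 < s → s < t → (move s z).1 ∈ table p) : t ≤ hitTime p z := by
  refine le_csInf (FlowBasic.exit_nonempty p z) fun b hb => ?_
  by_contra h1
  exact hb.2 (h b hb.1 (not_le.1 h1))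

theorem hitTime_eq {p : Fin 3 → ℂ} {z : Phase} {t : ℝ} (ht : 0 < t)
    (h0 : (move t z).1 ∉ table p) (h : ∀ s, 0 < s → s < t → (move s z).1 ∈ table p) :
    hitTime p z = t :=
  le_antisymm (csInf_le (FlowBasic.exit_bdd p z) ⟨ht, h0⟩) (le_hitTime h)

namespace Tbl

variable {B : Tbl} {p : Fin 3 → ℂ}

theorem shift_real (t : ℝ) (ω : Dbl) : shift t ω = (ω.1, move t ω.2) := by
  obtain ⟨σ, x, θ⟩ := ω
  cases σ <;> simp [shift, move]

theorem l_move (B : Tbl) (i : Fin 3) (s : ℝ) (z : Phase) :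
    B.l i (move s z).1 = B.l i z.1 + s * (conj (B.n i) * vel z.2).re := by
  change B.l i (z.1 + s * vel z.2) = _
  rw [l_add, mul_left_comm, Complex.re_ofReal_mul]

theorem norm_move (s : ℝ) (z : Phase) : ‖(move s z).1 - z.1‖ = |s| := by
  simp [move, norm_vel]

theorem bounce_eq (hB : B.Fits p) {z : Phase} {i : Fin 3}
    (h0 : B.l i (move (hitTime p z) z).1 = 0)
    (h1 : ∀ j, j ≠ i → 0 < B.l j (move (hitTime p z) z).1) :
    bounce p z = ((move (hitTime p z) z).1, B.a i - z.2) := by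
  have hin := hB.mem_side i _ h0 h1
  have hout : ∀ j, j ≠ i → (move (hitTime p z) z).1 ∉ side p j := fun j hj h =>
    (h1 j hj).ne' (hB.of_mem_side j _ h)
  unfold bounce
  rcases fin3 i with rfl | rfl | rfl
  · rw [if_pos hin, hB.reflect_eq]
  · rw [if_neg (hout 0 (by decide)), if_pos hin, hB.reflect_eq]
  · rw [if_neg (hout 0 (by decide)), if_neg (hout 1 (by decide)), if_pos hin, hB.reflect_eq]

theorem link (hB : B.Fits p) {ω : Dbl} {t : ℝ} (hQ : ω.2.1 ∈ B.Q) (ht : 0 ≤ t)
    (hd : 3 * t < B.d ω) (hg : ∀ j, B.l j (move t ω.2).1 ≠ 0) :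
    Legit p t ω.2 ∧ forward p t ω.2 = (B.T t ω).2 := by
  have hc := B.canon_of_mem hQ
  have nt : ‖(t : ℂ)‖ = t := by simp [abs_of_nonneg ht]
  rw [B.T_eq_T0 (by rwa [nt])]
  rw [B.d_of_canon hc] at hd
  set ρ := (t + B.d2 ω.2.1) / 2 with hρ
  have hρ1 : t < ρ := by linarith
  have hρ2 : ρ < B.d2 ω.2.1 := by linarith
  obtain ⟨i, hi⟩ := B.exists_special hρ2
  have pos : ∀ y : ℂ, ‖y - ω.2.1‖ ≤ ρ → ∀ j, j ≠ i → 0 < B.l j y := fun y hy j hj => by
    have := hi j hj
    have := (abs_le.1 (B.l_lip j y ω.2.1)).1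
    linarith
  have posm : ∀ s, 0 ≤ s → s ≤ ρ → ∀ j, j ≠ i → 0 < B.l j (move s ω.2).1 := fun s h1 h2 =>
    pos _ (by rw [norm_move, abs_of_nonneg h1]; exact h2)
  obtain ⟨hf, -, -⟩ := B.local_fold (hQ i).le hi (shift t ω) (by rw [norm_shift, nt]; linarith)
  unfold T0
  rw [hf, shift_real]
  set κ := (conj (B.n i) * vel ω.2.2).re with hκ
  have hl : ∀ s, B.l i (move s ω.2).1 = B.l i ω.2.1 + s * κ := fun s => B.l_move i s ω.2
  have hx := hQ i
  rcases lt_or_gt_of_ne (hg i) with hneg | hpos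
  · -- one reflection
    have hκ0 : κ < 0 := by
      by_contra h
      rw [hl] at hneg
      nlinarith [mul_nonneg ht (not_lt.1 h)]
    set τ := B.l i ω.2.1 / (-κ) with hτ
    have hτ0 : 0 < τ := div_pos hx (by linarith)
    have hτκ : B.l i ω.2.1 + τ * κ = 0 := by
      rw [hτ]; field_simp [hκ0.ne]; ring
    have hτt : τ < t := by
      rw [hl] at hneg
      nlinarith
    have hhit : hitTime p ω.2 = τ := by
      refine hitTime_eq hτ0 ?_ fun s h1 h2 => ?_
      · rw [hB.table_eq]
        intro h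
        have := h i
        rw [hl, hτκ] at this
        exact lt_irrefl _ this
      · rw [hB.table_eq]
        intro j
        by_cases hj : j = i
        · subst hj; rw [hl]; nlinarith
        · exact posm s h1.le (by linarith) j hj
    have hb : bounce p ω.2 = ((move τ ω.2).1, B.a i - ω.2.2) := by
      have := bounce_eq hB (z := ω.2) (i := i) (by rw [hhit, hl, hτκ])
        (by rw [hhit]; exact posm τ hτ0.le (by linarith))
      rwa [hhit] at this
    have hm : ∀ s, move s (bounce p ω.2) =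
        (B.mirror i (move (τ + s) ω.2).1, B.a i - ω.2.2) := fun s => by
      rw [hb, ← FlowBasic.move_move]
      have e : vel (B.a i - ω.2.2) = vel (B.a i) * conj (vel ω.2.2) := by
        rw [sub_eq_add_neg, vel_add, vel_neg]
      have e2 : B.mirror i (move τ ω.2).1 = (move τ ω.2).1 := by
        unfold mirror; rw [hl, hτκ]; simp
      change ((move τ ω.2).1 + s * vel (B.a i - ω.2.2), _) =
        (B.mirror i ((move τ ω.2).1 + s * vel ω.2.2), _)
      rw [mirror_add, e, e2, map_mul, Complex.conj_ofReal]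
      congr 1; ring
    have hlt : t - τ < hitTime p (bounce p ω.2) := by
      refine lt_of_lt_of_le (show t - τ < ρ - τ by linarith) (le_hitTime fun s h1 h2 => ?_)
      rw [hm, hB.table_eq]
      have hn : B.l i (move (τ + s) ω.2).1 < 0 := by rw [hl]; nlinarith
      intro j
      by_cases hj : j = i
      · subst hj; change 0 < B.l j (B.mirror j _); rw [l_mirror]; linarith
      · refine pos _ ((B.norm_mirror_le i hx.le hn.le).trans ?_) j hj
        rw [norm_move, abs_of_pos (by linarith)]; linarith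
    obtain ⟨l1, f1⟩ := forward_of_lt hlt
    rw [← hhit] at l1 f1
    obtain ⟨l2, f2⟩ := forward_of_ge (by rw [hhit]; exact hτt.le) l1
    refine ⟨l2, ?_⟩
    rw [f2, f1, hm, hhit, add_sub_cancel]
    unfold foldi
    rw [if_pos (show B.needs i (ω.1, move t ω.2) from Or.inl hneg)]
    rfl
  · -- no reflection
    have hcont : ContinuousAt (fun s : ℝ => B.l i ω.2.1 + s * κ) t := by fun_prop
    have h1 : ∀ᶠ s in 𝓝 t, 0 < B.l i ω.2.1 + s * κ :=
      continuousAt_const.eventually_lt hcont (by rw [← hl]; exact hpos)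
    have h2 : ∀ᶠ s in 𝓝 t, s < ρ := gt_mem_nhds hρ1
    obtain ⟨t', ⟨h3, h4⟩, h5⟩ :=
      (((h1.and h2).filter_mono nhdsWithin_le_nhds).and
        (self_mem_nhdsWithin (a := t) (s := Ioi t))).exists
    have h5' : t < t' := h5
    have hlt : t < hitTime p ω.2 := by
      refine lt_of_lt_of_le h5' (le_hitTime fun s h6 h7 => ?_)
      rw [hB.table_eq]
      intro j
      by_cases hj : j = i
      · subst hj; rw [hl]
        rcases le_total 0 κ with hk | hk
        · nlinarith [mul_nonneg h6.le hk]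
        · nlinarith
      · exact posm s h6.le (by linarith) j hj
    obtain ⟨l1, f1⟩ := forward_of_lt hlt
    refine ⟨l1, ?_⟩
    rw [f1]
    unfold foldi
    rw [if_neg (B.not_needs_of_pos (ω := (ω.1, move t ω.2)) hpos)]

theorem muD_ac (B : Tbl) : B.muD ≪ m0 := by
  rw [muD_eq]
  exact (Measure.absolutelyContinuous_restrict).smul_left _

theorem ae_generic (B : Tbl) (t : ℝ) : ∀ᵐ ω ∂B.muD, ∀ j, B.l j (move t ω.2).1 ≠ 0 := by
  refine B.muD_ac.ae_le ?_
  filter_upwards [(mp_shift (t : ℂ)).quasiMeasurePreserving.ae B.m0_ae_line] with ω hω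
  rwa [shift_real] at hω

theorem ae_link (hB : B.Fits p) {t : ℝ} (ht : 0 ≤ t) : ∀ᵐ ω ∂B.muD, 3 * t < B.d ω →
    Legit p t ω.2 ∧ forward p t ω.2 = (B.T t ω).2 := by
  filter_upwards [B.ae_QD, B.ae_generic t] with ω h1 h2 h3 using link hB h1 ht h3 h2

theorem hitTime_pos (hB : B.Fits p) {z : Phase} (hz : z.1 ∈ B.Q) : 0 < hitTime p z := by
  obtain ⟨ε, hε, hb⟩ := Metric.isOpen_iff.1 B.isOpen_Q _ hz
  refine lt_of_lt_of_le hε (le_hitTime fun s h1 h2 => ?_)
  rw [hB.table_eq]
  refine hb ?_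
  rw [mem_ball_iff_norm, norm_move, abs_of_pos h1]; exact h2

theorem muD_snd (B : Tbl) (A : Set Phase) :
    B.muD (Prod.snd ⁻¹' A) = 2 * B.muZ A := by
  have : (Prod.snd ⁻¹' A : Set Dbl) = univ ×ˢ A := by ext; simp
  rw [this, muD, Measure.prod_prod, Measure.count_univ]
  simp

/-- approximation of the flow by iterating the local step -/
theorem approx_flow (hB : B.Fits p) {t : ℝ} (ht : 0 < t) (n : ℕ) :
    B.muD {ω | ¬ (Legit p t ω.2 ∧
      forward p t ω.2 = ((B.T ((t / (n + 1) : ℝ) : ℂ))^[n + 1] ω).2)} ≤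
      ENNReal.ofReal (9 * B.Csm * t ^ 2 / (n + 1)) := by
  set h : ℝ := t / (n + 1) with hh
  have hpos : 0 < h := by positivity
  set S := B.T (h : ℂ) with hS
  have hSm : MeasurePreserving S B.muD B.muD := B.mp_T _
  have hae : ∀ᵐ ω ∂B.muD, ∀ j : ℕ, 3 * h < B.d (S^[j] ω) →
      Legit p h (S^[j] ω).2 ∧ forward p h (S^[j] ω).2 = (S (S^[j] ω)).2 := by
    rw [ae_all_iff]
    intro j
    exact (hSm.iterate j).quasiMeasurePreserving.ae (ae_link hB hpos.le)
  have hsub : {ω | ¬ (Legit p t ω.2 ∧ forward p t ω.2 = (S^[n + 1] ω).2)} ≤ᵐ[B.muD]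
      (⋃ j ∈ Finset.range (n + 1), S^[j] ⁻¹' {ω | B.d ω ≤ 3 * h} : Set Dbl) := by
    filter_upwards [hae, B.ae_QD] with ω h1 h2 h3
    by_contra h4
    apply h3
    have h5 : ∀ j, j < n + 1 → 3 * h < B.d (S^[j] ω) := fun j hj => by
      by_contra h6
      exact h4 (mem_biUnion (Finset.mem_coe.2 (Finset.mem_range.2 hj)) (not_lt.1 h6))
    have h7 : ∀ j : ℕ, j ≤ n + 1 →
        Legit p (j * h) ω.2 ∧ forward p (j * h) ω.2 = (S^[j] ω).2 := by
      intro j
      induction j with
      | zero =>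
        intro _
        have := forward_of_lt (hitTime_pos hB h2)
        rw [FlowBasic.move_zero] at this
        simpa using this
      | succ j ih =>
        intro hj
        obtain ⟨a1, a2⟩ := ih (by omega)
        obtain ⟨a3, a4⟩ := h1 j (h5 j (by omega))
        rw [← a2] at a3 a4
        obtain ⟨a5, a6⟩ := forward_add (by positivity) hpos.le a1 a3
        rw [Function.iterate_succ_apply', ← a4, ← a6]
        push_cast
        rw [add_mul, one_mul]
        exact ⟨a5, rfl⟩
    have := h7 (n + 1) le_rfl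
    rwa [show ((n + 1 : ℕ) : ℝ) * h = t by rw [hh]; push_cast; field_simp] at this
  refine (measure_mono_ae hsub).trans ((measure_biUnion_finset_le _ _).trans ?_)
  have hm : MeasurableSet {ω | B.d ω ≤ 3 * h} := measurableSet_le B.measurable_d measurable_const
  have hC := B.Csm_pos
  calc _ ≤ ∑ _j ∈ Finset.range (n + 1), ENNReal.ofReal (B.Csm * (3 * h) ^ 2) := by
        refine Finset.sum_le_sum fun j _ => ?_
        rw [(hSm.iterate j).measure_preimage hm.nullMeasurableSet]
        exact B.small _ (by positivity)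
    _ = _ := by
        rw [Finset.sum_const, Finset.card_range, nsmul_eq_mul, ← ENNReal.ofReal_natCast,
          ← ENNReal.ofReal_mul (by positivity)]
        congr 1
        rw [hh]; push_cast; field_simp; ring

theorem tendsto_err (B : Tbl) (t : ℝ) :
    Tendsto (fun n : ℕ => ENNReal.ofReal (9 * B.Csm * t ^ 2 / (n + 1))) atTop (𝓝 0) := by
  have h := (tendsto_one_div_add_atTop_nhds_zero_nat (𝕜 := ℝ)).const_mul (9 * B.Csm * t ^ 2)
  rw [mul_zero] at h
  have h2 := ENNReal.tendsto_ofReal h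
  rw [ENNReal.ofReal_zero] at h2
  refine h2.congr fun n => ?_
  congr 1; ring

theorem forward_zero_ae (hB : B.Fits p) : ∀ᵐ z ∂B.muZ, Legit p 0 z ∧ forward p 0 z = z := by
  filter_upwards [B.ae_Q] with z hz
  have := forward_of_lt (hitTime_pos hB hz)
  rwa [FlowBasic.move_zero] at this

theorem ae_legit (hB : B.Fits p) {t : ℝ} (ht : 0 ≤ t) : ∀ᵐ z ∂B.muZ, Legit p t z := by
  rcases ht.eq_or_lt with rfl | ht
  · exact (forward_zero_ae hB).mono fun z hz => hz.1
  rw [ae_iff]
  have h1 : B.muD (Prod.snd ⁻¹' {z | ¬ Legit p t z}) ≤ 0 := by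
    refine ge_of_tendsto' (B.tendsto_err t) fun n => le_trans (measure_mono ?_) (approx_flow hB ht n)
    intro ω hω h
    exact hω h.1
  rw [B.muD_snd] at h1
  simpa using h1

theorem mp_forward (hB : B.Fits p) {t : ℝ} (ht : 0 ≤ t) :
    MeasurePreserving (forward p t) B.muZ B.muZ := by
  rcases ht.eq_or_lt with rfl | ht
  · exact (MeasurePreserving.id _).congr (measurable_forward p 0)
      ((forward_zero_ae hB).mono fun z hz => hz.2.symm)
  refine measurePreserving_of_le _ _ (measurable_forward p t) fun A hA => ?_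
  have h1 : B.muD (Prod.snd ⁻¹' (forward p t ⁻¹' A)) ≤ B.muD (Prod.snd ⁻¹' A) + 0 := by
    refine ge_of_tendsto' ((B.tendsto_err t).const_add _) fun n => ?_
    have hS := (B.mp_T ((t / (n + 1) : ℝ) : ℂ)).iterate (n + 1)
    rw [← hS.measure_preimage (measurable_snd hA).nullMeasurableSet]
    refine le_trans (measure_mono ?_)
      ((measure_union_le _ _).trans (add_le_add le_rfl (approx_flow hB ht n)))
    intro ω hω
    by_cases h : Legit p t ω.2 ∧ forward p t ω.2 = ((B.T ((t / (n + 1) : ℝ) : ℂ))^[n + 1] ω).2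
    · left
      simp only [mem_preimage] at hω ⊢
      rwa [← h.2]
    · right; exact h
  rw [add_zero, B.muD_snd, B.muD_snd] at h1
  exact (ENNReal.mul_le_mul_iff_right (by norm_num) (by norm_num)).1 h1

theorem ae_forward_add (hB : B.Fits p) {s t : ℝ} (hs : 0 ≤ s) (ht : 0 ≤ t) :
    ∀ᵐ z ∂B.muZ, forward p (s + t) z = forward p t (forward p s z) := by
  filter_upwards [ae_legit hB hs, (mp_forward hB hs).quasiMeasurePreserving.ae (ae_legit hB ht)]
    with z h1 h2 using (forward_add hs ht h1 h2).2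

theorem cont_forward (hB : B.Fits p) :
    ∀ᵐ z ∂B.muZ, Tendsto (fun t => forward p |t| z) (𝓝[≥] 0) (𝓝 z) := by
  filter_upwards [B.ae_Q] with z hz
  have hc : Continuous fun t : ℝ => move |t| z := by
    unfold move; fun_prop
  have t1 := hc.tendsto 0
  rw [abs_zero, FlowBasic.move_zero] at t1
  refine (t1.congr' ?_).mono_left nhdsWithin_le_nhds
  have : ∀ᶠ t : ℝ in 𝓝 0, |t| < hitTime p z :=
    continuous_abs.continuousAt.eventually_lt continuousAt_const (by simpa using hitTime_pos hB hz)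
  filter_upwards [this] with t ht using (forward_of_lt ht).2.symm

end Tbl

end Vale.Agent.P099
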