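import Vale.Agent.P099.Tbl

/-!
Every nondegenerate triangle is described by a `Tbl`.
-/

open MeasureTheory Set Filter Topology ComplexConjugate

noncomputable section

namespace Vale.Agent.P099

/-- The planar cross product. -/
def cross (u v : ℂ) : ℝ := u.re * v.im - u.im * v.re

lemma sum_cyc {M : Type*} [AddCommMonoid M] (f : Fin 3 → M) (i : Fin 3) :
    ∑ j, f j = f i + f (i + 1) + f (i + 2) := by
  rw [Fin.sum_univ_three]
  fin_cases i
  · rfl
  · change _ = f 1 + f 2 + f 0
    abel
  · change _ = f 2 + f 0 + f 1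
    abel

lemma cross_cyc (p : Fin 3 → ℂ) (i : Fin 3) :
    cross (p (i + 2) - p (i + 1)) (p i - p (i + 1)) = cross (p 1 - p 0) (p 2 - p 0) := by
  fin_cases i
  · change cross (p 2 - p 1) (p 0 - p 1) = _
    simp only [cross, Complex.sub_re, Complex.sub_im]; ring
  · change cross (p 0 - p 2) (p 1 - p 2) = _
    simp only [cross, Complex.sub_re, Complex.sub_im]; ring
  · change cross (p 1 - p 0) (p 2 - p 0) = _
    rfl

lemma fin3_ne (i : Fin 3) : i + 1 ≠ i ∧ i + 2 ≠ i ∧ i + 2 ≠ i + 1 := by
  fin_cases i <;> decide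

lemma fin3_add (i : Fin 3) : i + 2 + 2 = i + 1 ∧ i + 2 + 1 = i ∧ i + 1 + 2 = i ∧
    i + 1 + 1 = i + 2 := by
  fin_cases i <;> decide

lemma vel_arg (e : ℂ) (he : e ≠ 0) :
    vel ((Complex.arg e / Real.pi : ℝ) : UnitAddCircle) = (e / ‖e‖) ^ 2 := by
  unfold vel
  rw [AddCircle.toCircle_apply_mk, Circle.coe_exp]
  have h1 := Complex.norm_mul_exp_arg_mul_I e
  have h2 : (‖e‖ : ℂ) ≠ 0 := by exact_mod_cast norm_ne_zero_iff.2 he
  have h3 : e / ‖e‖ = Complex.exp (Complex.arg e * Complex.I) := by
    rw [div_eq_iff h2, mul_comm]; exact h1.symm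
  rw [h3, ← Complex.exp_nat_mul]
  congr 1
  have : 2 * Real.pi / 1 * (Complex.arg e / Real.pi) = 2 * Complex.arg e := by
    field_simp
  rw [this]
  push_cast
  ring

lemma vel_sub (a b : UnitAddCircle) : vel (a - b) = vel a / vel b := by
  unfold vel
  rw [sub_eq_add_neg, AddCircle.toCircle_add, AddCircle.toCircle_neg, Circle.coe_mul,
    Circle.coe_inv, div_eq_mul_inv]

lemma vel_injective : Function.Injective vel := fun _ _ h =>
  AddCircle.injective_toCircle one_ne_zero (Subtype.ext h)

theorem exists_tbl (p : Fin 3 → ℂ) (hp : AffineIndependent ℝ p) :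
    ∃ B : Tbl, B.Fits p ∧
      (¬ IsRationalTriangle p → ∃ i j, addOrderOf (B.a i - B.a j) = 0) := by
  let b : AffineBasis (Fin 3) ℝ ℂ := ⟨p, hp,
    hp.affineSpan_eq_top_iff_card_eq_finrank_add_one.2 (by simp [Complex.finrank_real_complex])⟩
  have hb : ∀ i, b i = p i := fun _ => rfl
  have hsum : ∀ i x, b.coord i x + b.coord (i + 1) x + b.coord (i + 2) x = 1 := by
    intro i x
    rw [← sum_cyc (fun j => b.coord j x) i]
    exact b.sum_coord_apply_eq_one x
  have hcomb : ∀ i x, b.coord i x • p i + b.coord (i + 1) x • p (i + 1) +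
      b.coord (i + 2) x • p (i + 2) = x := by
    intro i x
    rw [← sum_cyc (fun j => b.coord j x • p j) i]
    exact b.linear_combination_coord_eq_self x
  set D := cross (p 1 - p 0) (p 2 - p 0) with hD
  let e : Fin 3 → ℂ := fun i => p (i + 2) - p (i + 1)
  have he : ∀ i, e i ≠ 0 := fun i => sub_ne_zero.2 (fun h => (fin3_ne i).2.2 (hp.injective h))
  have hen : ∀ i, 0 < ‖e i‖ := fun i => norm_pos_iff.2 (he i)
  have hL : ∀ i x, cross (e i) (x - p (i + 1)) = D * b.coord i x := by
    intro i x
    have h1 := hsum i x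
    have h2 := congrArg Complex.re (hcomb i x)
    have h3 := congrArg Complex.im (hcomb i x)
    rw [← cross_cyc p i] at hD
    rw [hD]
    simp only [Complex.add_re, Complex.add_im, Complex.smul_re, Complex.smul_im, smul_eq_mul] at h2 h3
    simp only [cross, e, Complex.sub_re, Complex.sub_im]
    linear_combination (-((p (i + 2)).re - (p (i + 1)).re)) * h3 +
      ((p (i + 2)).im - (p (i + 1)).im) * h2 +
      (((p (i + 2)).re - (p (i + 1)).re) * (p (i + 1)).im -
        ((p (i + 2)).im - (p (i + 1)).im) * (p (i + 1)).re) * h1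
  have hD0 : D ≠ 0 := by
    intro h
    have h1 := hL 0 (p (0 + 1) + Complex.I * e 0)
    rw [h, zero_mul, add_sub_cancel_left] at h1
    apply he 0
    rw [← Complex.normSq_eq_zero, Complex.normSq_apply]
    simp only [cross, Complex.mul_re, Complex.mul_im, Complex.I_re, Complex.I_im] at h1
    linarith
  obtain ⟨s, hs1, hs2⟩ : ∃ s : ℝ, s ^ 2 = 1 ∧ 0 < s * D := by
    rcases lt_or_gt_of_ne hD0 with h | h
    · exact ⟨-1, by norm_num, by linarith⟩
    · exact ⟨1, by norm_num, by linarith⟩
  let n : Fin 3 → ℂ := fun i => ((s / ‖e i‖ : ℝ) : ℂ) * (Complex.I * e i)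
  let c : Fin 3 → ℝ := fun i => (conj (n i) * p (i + 1)).re
  let h : Fin 3 → ℝ := fun i => s * D / ‖e i‖
  have hh : ∀ i, 0 < h i := fun i => div_pos hs2 (hen i)
  have hl : ∀ i x, ell (n i) (c i) x = h i * b.coord i x := by
    intro i x
    have h1 : ell (n i) (c i) x = s / ‖e i‖ * cross (e i) (x - p (i + 1)) := by
      simp only [ell, c, n, cross, Complex.mul_re, Complex.mul_im, Complex.conj_re,
        Complex.conj_im, Complex.ofReal_re, Complex.ofReal_im, Complex.I_re, Complex.I_im,
        Complex.sub_re, Complex.sub_im]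
      ring
    rw [h1, hL]
    simp only [h]
    ring
  have hpos : ∀ i x, 0 < ell (n i) (c i) x ↔ 0 < b.coord i x := by
    intro i x
    rw [hl]
    exact mul_pos_iff_of_pos_left (hh i)
  have hzero : ∀ i x, ell (n i) (c i) x = 0 ↔ b.coord i x = 0 := by
    intro i x
    rw [hl, mul_eq_zero]
    exact ⟨fun h' => h'.resolve_left (hh i).ne', Or.inr⟩
  let a : Fin 3 → UnitAddCircle := fun i => ((Complex.arg (e i) / Real.pi : ℝ) : UnitAddCircle)
  let k : Fin 3 → ℝ := fun i => ‖p (i + 1) - p i‖ / h (i + 1) + ‖p (i + 2) - p i‖ / h (i + 2)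
  have hk : ∀ i, 0 ≤ k i := fun i =>
    add_nonneg (div_nonneg (norm_nonneg _) (hh _).le) (div_nonneg (norm_nonneg _) (hh _).le)
  let B : Tbl :=
    { n := n, c := c, a := a, K := 1 + ∑ i, k i
      norm_n := by
        intro i
        have h1 : |s| = 1 := by
          have := sq_abs s
          nlinarith [abs_nonneg s]
        simp only [n, norm_mul, Complex.norm_real, Complex.norm_I, one_mul, Real.norm_eq_abs,
          abs_div, abs_norm, h1]
        exact one_div_mul_cancel (hen i).ne'
      vel_a := by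
        intro i
        simp only [a, n]
        rw [vel_arg _ (he i)]
        have h1 : (s : ℂ) ^ 2 = 1 := by exact_mod_cast hs1
        have h2 : (‖e i‖ : ℂ) ≠ 0 := by exact_mod_cast (hen i).ne'
        push_cast
        rw [mul_pow, mul_pow, div_pow, div_pow, h1, Complex.I_sq]
        ring
      K_pos := by have := Finset.sum_nonneg (fun i (_ : i ∈ Finset.univ) => hk i); linarith
      corner := by
        intro i
        refine ⟨p i, fun x r h1 h2 => ?_⟩
        have hr : 0 ≤ r := (abs_nonneg _).trans h1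
        rw [hl, abs_mul, abs_of_pos (hh _)] at h1 h2
        have e1 : x - p i = b.coord (i + 1) x • (p (i + 1) - p i) +
            b.coord (i + 2) x • (p (i + 2) - p i) := by
          have a1 := hcomb i x
          have a2 : b.coord i x = 1 - b.coord (i + 1) x - b.coord (i + 2) x := by
            linarith [hsum i x]
          rw [a2] at a1
          conv_lhs => rw [← a1]
          module
        have b1 : |b.coord (i + 1) x| ≤ r / h (i + 1) := by
          rw [le_div_iff₀ (hh _)]; linarith
        have b2 : |b.coord (i + 2) x| ≤ r / h (i + 2) := by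
          rw [le_div_iff₀ (hh _)]; linarith
        have b3 : ‖x - p i‖ ≤ k i * r := by
          rw [e1]
          refine (norm_add_le _ _).trans ?_
          rw [norm_smul, norm_smul, Real.norm_eq_abs, Real.norm_eq_abs]
          have c1 := mul_le_mul_of_nonneg_right b1 (norm_nonneg (p (i + 1) - p i))
          have c2 := mul_le_mul_of_nonneg_right b2 (norm_nonneg (p (i + 2) - p i))
          have c3 : k i * r = r / h (i + 1) * ‖p (i + 1) - p i‖ +
              r / h (i + 2) * ‖p (i + 2) - p i‖ := by simp only [k]; ring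
          linarith
        have b4 : k i ≤ ∑ j, k j := Finset.single_le_sum (fun j _ => hk j) (Finset.mem_univ i)
        exact b3.trans (mul_le_mul_of_nonneg_right (by linarith) hr)
      bdd := by
        have h1 : {x : ℂ | ∀ i, 0 ≤ ell (n i) (c i) x} = convexHull ℝ (range b) := by
          rw [b.convexHull_eq_nonneg_coord]
          ext x
          simp only [mem_ofPred_eq, hl]
          exact forall_congr' (fun i => mul_nonneg_iff_of_pos_left (hh i))
        rw [h1]
        exact isBounded_convexHull.2 (Set.finite_range _).isBounded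
      mid := by
        intro i
        have h1 : ∀ j, b.coord j (midpoint ℝ (p (i + 1)) (p (i + 2))) =
            midpoint ℝ (if j = i + 1 then (1 : ℝ) else 0) (if j = i + 2 then (1 : ℝ) else 0) := by
          intro j
          rw [AffineMap.map_midpoint, ← hb, ← hb, b.coord_apply, b.coord_apply]
        refine ⟨midpoint ℝ (p (i + 1)) (p (i + 2)), ?_, fun j hj => ?_⟩
        · rw [hzero, h1, if_neg (fin3_ne i).1.symm, if_neg (fin3_ne i).2.1.symm]
          simp
        · rw [hpos, h1]
          revert hj
          fin_cases i <;> fin_cases j <;> simp [midpoint_eq_smul_add] }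
  refine ⟨B, ⟨?_, ?_, ?_, fun i θ => rfl⟩, ?_⟩
  · have := b.interior_convexHull
    unfold table
    refine this.trans ?_
    ext x
    exact forall_congr' (fun i => (hpos i x).symm)
  · intro i y h0 h1
    have a0 : b.coord i y = 0 := (hzero i y).1 h0
    have a1 := (hpos _ y).1 (h1 _ (fin3_ne i).1)
    have a2 := (hpos _ y).1 (h1 _ (fin3_ne i).2.1)
    have a3 := hsum i y
    have a4 := hcomb i y
    rw [a0, zero_smul, zero_add] at a4
    exact ⟨_, _, a1, a2, by linarith, a4⟩
  · rintro i y ⟨u, v, -, -, huv, rfl⟩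
    apply (hzero i _).2
    have h1 := hL i (u • p (i + 1) + v • p (i + 2))
    have h2 : cross (e i) (u • p (i + 1) + v • p (i + 2) - p (i + 1)) = 0 := by
      have : u = 1 - v := by linarith
      subst this
      simp only [cross, e, Complex.sub_re, Complex.sub_im, Complex.add_re, Complex.add_im,
        Complex.smul_re, Complex.smul_im, smul_eq_mul]
      ring
    rw [h2] at h1
    exact (mul_eq_zero.1 h1.symm).resolve_left hD0
  · intro hirr
    by_contra hcon
    push Not at hcon
    apply hirr
    intro i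
    have u0 : p (i + 1) - p i ≠ 0 := sub_ne_zero.2 (fun h => (fin3_ne i).1 (hp.injective h))
    have v0 : p (i + 2) - p i ≠ 0 := sub_ne_zero.2 (fun h => (fin3_ne i).2.1 (hp.injective h))
    have e2 : e (i + 2) = p (i + 1) - p i := by
      simp only [e, (fin3_add i).1, (fin3_add i).2.1]
    have e1 : e (i + 1) = -(p (i + 2) - p i) := by
      simp only [e, (fin3_add i).2.2.1, (fin3_add i).2.2.2, neg_sub]
    have h1 : B.a (i + 2) - B.a (i + 1) =
        ((Complex.arg ((p (i + 1) - p i) / (p (i + 2) - p i)) / Real.pi : ℝ) : UnitAddCircle) := by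
      apply vel_injective
      rw [vel_sub, vel_arg _ (div_ne_zero u0 v0)]
      change vel (a (i + 2)) / vel (a (i + 1)) = _
      simp only [a]
      rw [vel_arg _ (he _), vel_arg _ (he _), e1, e2, norm_neg, norm_div]
      have n1 : (‖p (i + 1) - p i‖ : ℂ) ≠ 0 := by exact_mod_cast norm_ne_zero_iff.2 u0
      have n2 : (‖p (i + 2) - p i‖ : ℂ) ≠ 0 := by exact_mod_cast norm_ne_zero_iff.2 v0
      push_cast
      field_simp
    have h2 : IsOfFinAddOrder (B.a (i + 2) - B.a (i + 1)) := by
      by_contra h3
      exact hcon _ _ (addOrderOf_eq_zero_iff.2 h3)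
    rw [h1, AddCircle.isOfFinAddOrder_iff_exists_rat_eq_div] at h2
    obtain ⟨q, hq⟩ := h2
    refine ⟨|q|, ?_⟩
    unfold EuclideanGeometry.angle
    rw [vsub_eq_sub, vsub_eq_sub, Complex.angle_eq_abs_arg u0 v0]
    rw [div_one, eq_div_iff Real.pi_ne_zero] at hq
    rw [← hq, abs_mul, abs_of_pos Real.pi_pos]
    push_cast
    rfl

end Vale.Agent.P099
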