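import Vale.Agent.P099.Abstract
import Vale.Agent.P099.FlowLink
import Vale.Agent.P099.Ending
import Vale.Agent.P099.Triangle

/-!
Ergodicity and weak mixing of the billiard flow in an irrational triangle.
-/

open MeasureTheory Set Filter Topology ComplexConjugate

noncomputable section

namespace Vale.Agent.P099

theorem trivial_of_split {X : Type} [MeasurableSpace X] (μ : Measure X) [IsProbabilityMeasure μ]
    (A : Set (X × X)) (hA : MeasurableSet A)
    (h1 : ∀ S C : Set X, MeasurableSet S → MeasurableSet C →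
      (μ.prod μ) (A ∩ S ×ˢ C) = (μ.prod μ) (A ∩ S ×ˢ univ) * μ C)
    (h2 : ∀ S C : Set X, MeasurableSet S → MeasurableSet C →
      (μ.prod μ) (Prod.swap ⁻¹' A ∩ S ×ˢ C) = (μ.prod μ) (Prod.swap ⁻¹' A ∩ S ×ˢ univ) * μ C) :
    (μ.prod μ) A = 0 ∨ (μ.prod μ) A = 1 := by
  have sw : MeasurePreserving (Prod.swap : X × X → X × X) (μ.prod μ) (μ.prod μ) :=
    Measure.measurePreserving_swap
  have r1 : ∀ S C, MeasurableSet S → MeasurableSet C →
      (μ.prod μ) (A ∩ S ×ˢ C) = (μ.prod μ) A * μ S * μ C := fun S C hS hC => by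
    rw [h1 S C hS hC]
    congr 1
    have := h2 univ S MeasurableSet.univ hS
    rw [univ_prod_univ, inter_univ, sw.measure_preimage hA.nullMeasurableSet] at this
    rw [← this, ← sw.measure_preimage (hA.inter (hS.prod MeasurableSet.univ)).nullMeasurableSet]
    congr 1
    ext q; simp
  have r2 : (((μ.prod μ) A) • μ).prod μ = (μ.prod μ).restrict A := by
    have : IsFiniteMeasure (((μ.prod μ) A) • μ) := ⟨by simp [measure_lt_top]⟩
    refine Measure.prod_eq fun S C hS hC => ?_
    rw [Measure.restrict_apply (hS.prod hC), inter_comm, r1 S C hS hC, Measure.smul_apply,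
      smul_eq_mul]
  have r3 : (μ.prod μ) A * (μ.prod μ) Aᶜ = 0 := by
    have := congrArg (fun m : Measure (X × X) => m Aᶜ) r2
    simp only [Measure.prod_smul_left, Measure.smul_apply, smul_eq_mul] at this
    rw [this, Measure.restrict_apply hA.compl, compl_inter_self, measure_empty]
  rcases mul_eq_zero.1 r3 with h0 | h1
  · exact Or.inl h0
  · exact Or.inr ((prob_compl_eq_zero_iff hA).1 h1)

namespace Tbl

variable {B : Tbl} {p : Fin 3 → ℂ}

/-- the action on the double -/
def act1 (B : Tbl) : LocalAction Dbl B.muD where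
  T := B.T
  R := rot
  W := fun _ ω => ω
  d := B.d
  C := B.Csm
  mpT := B.mp_T
  mpR := B.mp_rot
  mpW := fun _ => MeasurePreserving.id _
  meas_d := B.measurable_d
  d_T := B.d_T
  d_R := B.d_rot
  d_W := fun _ _ => rfl
  T_add := B.T_add
  T_zero := B.T_zero
  R_zero := rot_zero
  R_add := rot_add
  T_R := B.T_rot
  W_zero := Eventually.of_forall fun _ => rfl
  W_add := fun _ _ _ _ => Eventually.of_forall fun _ => rfl
  T_W := fun _ _ _ => rfl
  R_W := fun _ _ _ => rfl
  C_pos := B.Csm_pos
  small := B.small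
  contT := B.contT
  contR := Eventually.of_forall contR
  contW := Eventually.of_forall fun _ => tendsto_const_nhds

/-- the action on the product of the double with a second copy of the phase space -/
def act2 (hB : B.Fits p) : LocalAction (Dbl × Phase) (B.muD.prod B.muZ) where
  T := fun v q => (B.T v q.1, q.2)
  R := fun s q => (rot s q.1, q.2)
  W := fun t q => (q.1, forward p |t| q.2)
  d := fun q => B.d q.1
  C := B.Csm
  mpT := fun v => (B.mp_T v).prod (MeasurePreserving.id _)
  mpR := fun s => (B.mp_rot s).prod (MeasurePreserving.id _)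
  mpW := fun t => (MeasurePreserving.id _).prod (mp_forward hB (abs_nonneg t))
  meas_d := B.measurable_d.comp measurable_fst
  d_T := fun v q => B.d_T v q.1
  d_R := fun s q => B.d_rot s q.1
  d_W := fun _ _ => rfl
  T_add := fun v w q h => by rw [B.T_add v w q.1 h]
  T_zero := fun q h => by rw [B.T_zero q.1 h]
  R_zero := fun q => by rw [rot_zero]
  R_add := fun s t q => by rw [rot_add]
  T_R := fun v s q => by rw [B.T_rot]
  W_zero := by
    filter_upwards [Measure.quasiMeasurePreserving_snd.ae (forward_zero_ae hB)] with q hq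
    rw [abs_zero, hq.2]
  W_add := fun s t hs ht => by
    filter_upwards [Measure.quasiMeasurePreserving_snd.ae (ae_forward_add hB hs ht)] with q hq
    rw [abs_of_nonneg hs, abs_of_nonneg ht, abs_of_nonneg (add_nonneg hs ht), hq]
  T_W := fun _ _ _ => rfl
  R_W := fun _ _ _ => rfl
  C_pos := B.Csm_pos
  small := fun r hr => by
    have : {q : Dbl × Phase | B.d q.1 ≤ r} = {ω | B.d ω ≤ r} ×ˢ univ := by ext; simp
    rw [this, Measure.prod_prod, measure_univ, mul_one]
    exact B.small r hr
  contT := by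
    filter_upwards [Measure.quasiMeasurePreserving_fst.ae B.contT] with q hq
    exact hq.prodMk_nhds tendsto_const_nhds
  contR := Eventually.of_forall fun q => (contR q.1).prodMk_nhds tendsto_const_nhds
  contW := by
    filter_upwards [Measure.quasiMeasurePreserving_snd.ae (cont_forward hB)] with q hq
    exact tendsto_const_nhds.prodMk_nhds hq

theorem qmp_snd (B : Tbl) : Measure.QuasiMeasurePreserving (Prod.snd : Dbl → Phase) B.muD B.muZ :=
  Measure.quasiMeasurePreserving_snd

theorem qmp_mk (B : Tbl) :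
    Measure.QuasiMeasurePreserving (fun z : Phase => ((true, z) : Dbl)) B.muZ B.muD := by
  refine ⟨measurable_prodMk_left, Measure.AbsolutelyContinuous.mk fun s hs h0 => ?_⟩
  rw [Measure.map_apply measurable_prodMk_left hs]
  have h1 : ∀ᵐ ω ∂B.muD, ω ∉ s := measure_eq_zero_iff_ae_notMem.1 h0
  exact measure_eq_zero_iff_ae_notMem.2
    (Measure.ae_count_iff.1 (Measure.ae_ae_of_ae_prod h1) true)

theorem ergodic_fwd (hB : B.Fits p) (hirr : ∃ i j, addOrderOf (B.a i - B.a j) = 0)
    (A : Set Phase) (hA : MeasurableSet A)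
    (h : ∀ t : ℝ, 0 < t → ∀ᵐ z ∂B.muZ, (forward p t z ∈ A ↔ z ∈ A)) :
    B.muZ A = 0 ∨ B.muZ A = 1 := by
  refine B.ending hirr A hA ?_
  refine B.act1.T_inv (Prod.snd ⁻¹' A) (measurable_snd hA) (fun _ _ => rfl) fun t ht => ?_
  filter_upwards [ae_link hB ht.le, B.qmp_snd.ae (h t ht)] with ω h1 h2 h3
  rw [(h1 h3).2] at h2
  exact h2

theorem const_fwd (hB : B.Fits p) (hirr : ∃ i j, addOrderOf (B.a i - B.a j) = 0)
    (f : Phase → ENNReal) (hf : Measurable f)
    (h : ∀ t : ℝ, 0 < t → ∀ᵐ z ∂B.muZ, f (forward p t z) = f z) :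
    ∃ c, ∀ᵐ z ∂B.muZ, f z = c := by
  refine exists_eventuallyEq_const_of_forall_separating MeasurableSet fun U hU => ?_
  rcases ergodic_fwd hB hirr (f ⁻¹' U) (hf hU) (fun t ht => (h t ht).mono fun z hz => by
    rw [mem_preimage, mem_preimage, hz]) with h0 | h1
  · exact Or.inr (measure_eq_zero_iff_ae_notMem.1 h0)
  · exact Or.inl ((prob_compl_eq_zero_iff (hf hU)).2 h1)

theorem second_inv (hB : B.Fits p) (A : Set (Phase × Phase)) (hA : MeasurableSet A)
    (h : ∀ t : ℝ, 0 < t → ∀ᵐ q ∂B.muZ.prod B.muZ,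
      ((forward p t q.1, forward p t q.2) ∈ A ↔ q ∈ A)) (τ : ℝ) (hτ : 0 < τ) :
    ∀ᵐ q ∂B.muZ.prod B.muZ, ((q.1, forward p τ q.2) ∈ A ↔ q ∈ A) := by
  have q1 : Measure.QuasiMeasurePreserving (Prod.map (Prod.snd : Dbl → Phase) (id : Phase → Phase))
      (B.muD.prod B.muZ) (B.muZ.prod B.muZ) :=
    QuasiMeasurePreserving.prodMap B.qmp_snd (Measure.QuasiMeasurePreserving.id _)
  have q2 : Measure.QuasiMeasurePreserving
      (Prod.map (fun z : Phase => ((true, z) : Dbl)) (id : Phase → Phase))
      (B.muZ.prod B.muZ) (B.muD.prod B.muZ) :=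
    QuasiMeasurePreserving.prodMap B.qmp_mk (Measure.QuasiMeasurePreserving.id _)
  have key := (act2 hB).W_inv (Prod.map (Prod.snd : Dbl → Phase) (id : Phase → Phase) ⁻¹' A)
    (q1.measurable hA) (fun t ht => by
      filter_upwards [Measure.quasiMeasurePreserving_fst.ae (ae_link hB ht.le), q1.ae (h t ht)]
        with q h1 h2 h3
      have h4 := (h1 h3).2
      change ((B.T t q.1).2, forward p |t| q.2) ∈ A ↔ (q.1.2, q.2) ∈ A
      rw [abs_of_pos ht, ← h4]
      exact h2) τ hτ
  filter_upwards [q2.ae key] with q hq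
  change (q.1, forward p |τ| q.2) ∈ A ↔ (q.1, q.2) ∈ A at hq
  rwa [abs_of_pos hτ] at hq

theorem rect_split (hB : B.Fits p) (hirr : ∃ i j, addOrderOf (B.a i - B.a j) = 0)
    (A : Set (Phase × Phase)) (hA : MeasurableSet A)
    (h : ∀ t : ℝ, 0 < t → ∀ᵐ q ∂B.muZ.prod B.muZ,
      ((forward p t q.1, forward p t q.2) ∈ A ↔ q ∈ A))
    (S C : Set Phase) (hS : MeasurableSet S) (hC : MeasurableSet C) :
    (B.muZ.prod B.muZ) (A ∩ S ×ˢ C) = (B.muZ.prod B.muZ) (A ∩ S ×ˢ univ) * B.muZ C := by
  set f : Phase → ENNReal := fun y => B.muZ ((fun x => (x, y)) ⁻¹' (A ∩ S ×ˢ univ)) with hf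
  have hfm : Measurable f := measurable_measure_prodMk_right (hA.inter (hS.prod MeasurableSet.univ))
  obtain ⟨c, hc⟩ := const_fwd hB hirr f hfm fun t ht => by
    have h1 := Measure.ae_ae_of_ae_prod
      (Measure.measurePreserving_swap.quasiMeasurePreserving.ae (second_inv hB A hA h t ht))
    filter_upwards [h1] with y hy
    refine measure_congr ?_
    filter_upwards [hy] with x hx
    refine propext ?_
    change (x, forward p t y) ∈ A ∩ S ×ˢ univ ↔ (x, y) ∈ A ∩ S ×ˢ univ
    simp only [mem_inter_iff, mem_prod, mem_univ, and_true]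
    exact and_congr_left fun _ => hx
  have key : ∀ D : Set Phase, MeasurableSet D →
      (B.muZ.prod B.muZ) (A ∩ S ×ˢ D) = c * B.muZ D := fun D hD => by
    rw [Measure.prod_apply_symm (hA.inter (hS.prod hD)), ← lintegral_indicator_const hD]
    refine lintegral_congr_ae ?_
    filter_upwards [hc] with y hy
    by_cases hyD : y ∈ D
    · rw [indicator_of_mem hyD, ← hy, hf]
      congr 1; ext x; simp [hyD]
    · rw [indicator_of_notMem hyD]
      have : (fun x => (x, y)) ⁻¹' (A ∩ S ×ˢ D) = ∅ := by ext x; simp [hyD]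
      rw [this, measure_empty]
  rw [key C hC, key univ MeasurableSet.univ, measure_univ, mul_one]

theorem weakMixing_fwd (hB : B.Fits p) (hirr : ∃ i j, addOrderOf (B.a i - B.a j) = 0)
    (A : Set (Phase × Phase)) (hA : MeasurableSet A)
    (h : ∀ t : ℝ, 0 < t → ∀ᵐ q ∂B.muZ.prod B.muZ,
      ((forward p t q.1, forward p t q.2) ∈ A ↔ q ∈ A)) :
    (B.muZ.prod B.muZ) A = 0 ∨ (B.muZ.prod B.muZ) A = 1 := by
  refine trivial_of_split B.muZ A hA (rect_split hB hirr A hA h)
    (rect_split hB hirr _ (measurable_swap hA) fun t ht => ?_)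
  filter_upwards [Measure.measurePreserving_swap.quasiMeasurePreserving.ae (h t ht)] with q hq
  simpa only [mem_preimage, Prod.swap_prod_mk, Prod.fst_swap, Prod.snd_swap] using hq

theorem liouville_eq (hB : B.Fits p) : liouville p = B.muZ := by
  unfold liouville muZ; rw [hB.table_eq]

theorem mp_flow (hB : B.Fits p) (t : ℝ) : MeasurePreserving (flow p t) B.muZ B.muZ := by
  have hr : MeasurePreserving reverse B.muZ B.muZ :=
    (MeasurePreserving.id _).prod (measurePreserving_add_right AddCircle.haarAddCircle _)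
  by_cases ht : 0 ≤ t
  · have : flow p t = forward p t := by funext z; unfold flow; rw [if_pos ht]
    rw [this]; exact mp_forward hB ht
  · have : flow p t = reverse ∘ forward p (-t) ∘ reverse := by
      funext z; unfold flow; rw [if_neg ht]; rfl
    rw [this]
    exact hr.comp ((mp_forward hB (by linarith)).comp hr)

end Tbl

theorem ae_iff_of_symmDiff {X : Type} [MeasurableSpace X] {μ : Measure X} {f : X → X}
    {A : Set X} (h : μ (symmDiff (f ⁻¹' A) A) = 0) : ∀ᵐ z ∂μ, (f z ∈ A ↔ z ∈ A) := by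
  filter_upwards [measure_eq_zero_iff_ae_notMem.1 h] with z hz
  rw [mem_symmDiff, mem_preimage] at hz
  tauto

theorem flow_of_pos (p : Fin 3 → ℂ) {t : ℝ} (ht : 0 < t) (z : Phase) :
    flow p t z = forward p t z := by
  unfold flow; rw [if_pos ht.le]

theorem main (p : Fin 3 → ℂ) (hp : AffineIndependent ℝ p) (hirr : ¬ IsRationalTriangle p) :
    IsProbabilityMeasure (liouville p) ∧
    (∀ t : ℝ, MeasurePreserving (flow p t) (liouville p) (liouville p)) ∧
    IsErgodicFlow (liouville p) (flow p) ∧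
    IsErgodicFlow ((liouville p).prod (liouville p))
      (fun t q => (flow p t q.1, flow p t q.2)) := by
  obtain ⟨B, hB, hi⟩ := exists_tbl p hp
  rw [Tbl.liouville_eq hB]
  refine ⟨inferInstance, Tbl.mp_flow hB, fun A hA h => ?_, fun A hA h => ?_⟩
  · refine Tbl.ergodic_fwd hB (hi hirr) A hA fun t ht => ?_
    simpa only [flow_of_pos p ht] using ae_iff_of_symmDiff (h t)
  · refine Tbl.weakMixing_fwd hB (hi hirr) A hA fun t ht => ?_
    simpa only [flow_of_pos p ht] using ae_iff_of_symmDiff (h t)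

end Vale.Agent.P099
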