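import Vale.Agent.P099.Defs

/-!
Fourier modes of a unitary circle action on a Hilbert space and the key energy inequality.
-/

open MeasureTheory Set Filter Topology ComplexConjugate
open scoped InnerProductSpace

noncomputable section

namespace Vale.Agent.P099

theorem vel_eq_fourier (s : UnitAddCircle) : vel s = fourier 1 s := by
  rw [fourier_one]; rfl

theorem norm_vel (s : UnitAddCircle) : ‖vel s‖ = 1 := by
  unfold vel; exact Circle.norm_coe _

theorem vel_add (s t : UnitAddCircle) : vel (s + t) = vel s * vel t := by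
  unfold vel; rw [AddCircle.toCircle_add]; simp

theorem vel_zero : vel 0 = 1 := by
  unfold vel; simp

theorem vel_neg (s : UnitAddCircle) : vel (-s) = conj (vel s) := by
  unfold vel
  rw [AddCircle.toCircle_neg, Circle.coe_inv_eq_conj]

theorem conj_vel_mul (s : UnitAddCircle) : conj (vel s) * vel s = 1 := by
  rw [← vel_neg, ← vel_add, neg_add_cancel, vel_zero]

theorem vel_mul_conj (s : UnitAddCircle) : vel s * conj (vel s) = 1 := by
  rw [mul_comm, conj_vel_mul]

theorem continuous_vel : Continuous vel := by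
  unfold vel
  exact continuous_subtype_val.comp AddCircle.continuous_toCircle

theorem fourier_map_add (k : ℤ) (s t : UnitAddCircle) :
    fourier k (s + t) = fourier k s * fourier k t := by
  simp only [fourier_apply, smul_add, AddCircle.toCircle_add, Circle.coe_mul]

theorem fourier_map_neg (k : ℤ) (s : UnitAddCircle) : fourier k (-s) = fourier (-k) s := by
  simp only [fourier_apply, smul_neg, neg_smul]

theorem norm_fourier_apply (k : ℤ) (s : UnitAddCircle) : ‖fourier k s‖ = 1 := by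
  rw [fourier_apply]; exact Circle.norm_coe _

theorem integral_fourier (k : ℤ) :
    ∫ s : UnitAddCircle, fourier k s ∂AddCircle.haarAddCircle = if k = 0 then 1 else 0 := by
  have h := congrFun (fourierCoeff_fourier (T := 1) k) 0
  unfold fourierCoeff at h
  simp only [neg_zero, fourier_zero, one_smul] at h
  rw [h]
  by_cases hk : k = 0
  · subst hk; simp
  · simp [hk, Ne.symm hk]

variable {H : Type} [NormedAddCommGroup H] [InnerProductSpace ℂ H] [CompleteSpace H]

structure CircleRep (H : Type) [NormedAddCommGroup H] [InnerProductSpace ℂ H] where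
  ρ : UnitAddCircle → H →L[ℂ] H
  ρ_zero : ∀ a, ρ 0 a = a
  ρ_add : ∀ s t a, ρ (s + t) a = ρ s (ρ t a)
  inner_ρ : ∀ s a b, ⟪ρ s a, ρ s b⟫_ℂ = ⟪a, b⟫_ℂ
  ρ_cont : ∀ a, Continuous fun s => ρ s a

namespace CircleRep

variable (r : CircleRep H)

omit [CompleteSpace H] in
theorem norm_ρ (s : UnitAddCircle) (a : H) : ‖r.ρ s a‖ = ‖a‖ := by
  rw [@norm_eq_sqrt_re_inner ℂ, r.inner_ρ, ← @norm_eq_sqrt_re_inner ℂ]

omit [CompleteSpace H] in
theorem inner_ρ_left (s : UnitAddCircle) (a b : H) : ⟪r.ρ s a, b⟫_ℂ = ⟪a, r.ρ (-s) b⟫_ℂ := by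
  rw [← r.inner_ρ (-s), ← r.ρ_add, neg_add_cancel, r.ρ_zero]

omit [CompleteSpace H] in
theorem cont_int (k : ℤ) (a : H) : Continuous fun s : UnitAddCircle => fourier k s • r.ρ s a :=
  (fourier k).continuous.smul (r.ρ_cont a)

omit [CompleteSpace H] in
theorem integrable_int (k : ℤ) (a : H) :
    Integrable (fun s : UnitAddCircle => fourier k s • r.ρ s a) AddCircle.haarAddCircle :=
  (r.cont_int k a).integrable_of_hasCompactSupport (HasCompactSupport.of_compactSpace _)

/-- the `k`-th mode, as a function -/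
def P0 (k : ℤ) (a : H) : H := ∫ s, fourier (-k) s • r.ρ s a ∂AddCircle.haarAddCircle

omit [CompleteSpace H] in
theorem norm_P0_le (k : ℤ) (a : H) : ‖r.P0 k a‖ ≤ 1 * ‖a‖ := by
  unfold P0
  have := norm_integral_le_of_norm_le_const (μ := AddCircle.haarAddCircle) (C := ‖a‖)
    (f := fun s : UnitAddCircle => fourier (-k) s • r.ρ s a)
    (Eventually.of_forall fun s => by rw [norm_smul, norm_fourier_apply, r.norm_ρ, one_mul])
  simpa using this

/-- the projection onto the `k`-th mode -/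
def P (k : ℤ) : H →L[ℂ] H :=
  LinearMap.mkContinuous
    { toFun := r.P0 k
      map_add' := fun a b => by
        unfold P0
        rw [← integral_add (r.integrable_int _ a) (r.integrable_int _ b)]
        simp only [map_add, smul_add]
      map_smul' := fun c a => by
        unfold P0
        rw [RingHom.id_apply, ← integral_smul]
        simp only [map_smul, smul_comm c] } 1 (r.norm_P0_le k)

omit [CompleteSpace H] in
theorem P_apply (k : ℤ) (a : H) :
    r.P k a = ∫ s, fourier (-k) s • r.ρ s a ∂AddCircle.haarAddCircle := rfl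

theorem clm_P {E : Type} [NormedAddCommGroup E] [NormedSpace ℂ E] [CompleteSpace E]
    (Λ : H →L[ℂ] E) (k : ℤ) (a : H) :
    Λ (r.P k a) = ∫ s, fourier (-k) s • Λ (r.ρ s a) ∂AddCircle.haarAddCircle := by
  rw [P_apply, ← Λ.integral_comp_comm (r.integrable_int _ a)]
  simp only [map_smul]

theorem inner_P (k : ℤ) (a b : H) :
    ⟪a, r.P k b⟫_ℂ = ∫ s, fourier (-k) s * ⟪a, r.ρ s b⟫_ℂ ∂AddCircle.haarAddCircle := by
  have := r.clm_P (innerSL ℂ a) k b
  simpa using this

theorem ρ_P (t : UnitAddCircle) (k : ℤ) (a : H) : r.ρ t (r.P k a) = fourier k t • r.P k a := by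
  rw [r.clm_P, P_apply, ← integral_smul]
  rw [← integral_add_left_eq_self (μ := AddCircle.haarAddCircle)
    (fun s => fourier k t • fourier (-k) s • r.ρ s a) t]
  congr 1
  ext s
  rw [r.ρ_add, smul_smul, fourier_map_add, ← mul_assoc, ← fourier_add]
  simp

theorem P_P (j k : ℤ) (a : H) : r.P j (r.P k a) = if j = k then r.P k a else 0 := by
  rw [r.P_apply j]
  simp only [r.ρ_P, smul_smul, ← fourier_add]
  rw [integral_smul_const, integral_fourier]
  by_cases h : j = k
  · simp [h]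
  · have : -j + k ≠ 0 := by omega
    simp [h, this]

theorem inner_P_left (k : ℤ) (a b : H) : ⟪r.P k a, b⟫_ℂ = ⟪a, r.P k b⟫_ℂ := by
  rw [← inner_conj_symm, r.inner_P, r.inner_P, ← integral_conj]
  rw [← integral_neg_eq_self (μ := AddCircle.haarAddCircle)]
  congr 1
  ext s
  rw [map_mul, inner_conj_symm, r.inner_ρ_left, neg_neg, fourier_map_neg, neg_neg, fourier_neg]

theorem inner_P_P (k : ℤ) (a b : H) : ⟪r.P k a, r.P k b⟫_ℂ = ⟪a, r.P k b⟫_ℂ := by
  rw [r.inner_P_left, r.P_P]; simp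

theorem norm_sq_P (k : ℤ) (a : H) : ‖r.P k a‖ ^ 2 = (⟪a, r.P k a⟫_ℂ).re := by
  rw [← r.inner_P_P, @norm_sq_eq_re_inner ℂ]; rfl

theorem norm_sum_P_le (F : Finset ℤ) (a : H) : ‖∑ k ∈ F, r.P k a‖ ≤ ‖a‖ := by
  set b := ∑ k ∈ F, r.P k a with hb
  have h1 : ⟪b, b⟫_ℂ = ⟪a, b⟫_ℂ := by
    conv_lhs => rw [hb, sum_inner]
    conv_rhs => rw [hb, inner_sum]
    refine Finset.sum_congr rfl fun k hk => ?_
    rw [r.inner_P_left, map_sum]
    simp only [r.P_P]
    rw [Finset.sum_ite_eq]
    simp [hk]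
  have h2 : ‖b‖ ^ 2 ≤ ‖a‖ * ‖b‖ := by
    rw [@norm_sq_eq_re_inner ℂ, h1]
    exact (RCLike.re_le_norm _).trans (norm_inner_le_norm _ _)
  by_contra h
  push Not at h
  nlinarith [norm_nonneg a, norm_nonneg b]

theorem sum_norm_sq_P_le (F : Finset ℤ) (a : H) : ∑ k ∈ F, ‖r.P k a‖ ^ 2 ≤ ‖a‖ ^ 2 := by
  have h1 : ∑ k ∈ F, ‖r.P k a‖ ^ 2 = (⟪a, ∑ k ∈ F, r.P k a⟫_ℂ).re := by
    rw [inner_sum, Complex.re_sum]
    exact Finset.sum_congr rfl fun k _ => r.norm_sq_P k a
  rw [h1]
  calc _ ≤ ‖⟪a, ∑ k ∈ F, r.P k a⟫_ℂ‖ := Complex.re_le_norm _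
    _ ≤ ‖a‖ * ‖∑ k ∈ F, r.P k a‖ := norm_inner_le_norm _ _
    _ ≤ ‖a‖ * ‖a‖ := by gcongr; exact r.norm_sum_P_le F a
    _ = _ := by ring

theorem tendsto_P_cofinite (a : H) : Tendsto (fun k => ‖r.P k a‖ ^ 2) cofinite (𝓝 0) :=
  (summable_of_sum_le (fun _ => by positivity) (fun F => r.sum_norm_sq_P_le F a)).tendsto_cofinite_zero

theorem tendsto_P_atBot (a : H) : Tendsto (fun k => ‖r.P k a‖ ^ 2) atBot (𝓝 0) :=
  (r.tendsto_P_cofinite a).mono_left (by rw [Int.cofinite_eq]; exact le_sup_left)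

theorem tendsto_P_atTop (a : H) : Tendsto (fun k => ‖r.P k a‖ ^ 2) atTop (𝓝 0) :=
  (r.tendsto_P_cofinite a).mono_left (by rw [Int.cofinite_eq]; exact le_sup_right)

/-- completeness of the modes -/
theorem eq_zero_of_P (Λ : H →L[ℂ] ℂ) (a : H) (h : ∀ k, Λ (r.P k a) = 0) : Λ a = 0 := by
  let f : C(UnitAddCircle, ℂ) := ⟨fun s => Λ (r.ρ s a), Λ.continuous.comp (r.ρ_cont a)⟩
  have hc : ∀ k, fourierCoeff f k = 0 := fun k => by
    rw [← h k, r.clm_P]; rfl
  have hs : Summable (fourierCoeff f) := by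
    have : fourierCoeff f = 0 := funext hc
    rw [this]; exact summable_zero
  have h2 := has_pointwise_sum_fourier_series_of_summable hs 0
  simp only [hc, zero_smul] at h2
  have h3 : f 0 = 0 := h2.unique hasSum_zero
  simpa [f, r.ρ_zero] using h3

theorem eq_zero_of_P' (a : H) (h : ∀ k, r.P k a = 0) : a = 0 := by
  have := r.eq_zero_of_P (innerSL ℂ a) a (fun k => by simp [h k])
  simpa using this

/-- The key energy inequality. -/
theorem key (x y l : H)
    (h1 : ∀ s, conj (vel s) * ⟪x - Complex.I • y, r.ρ s (x - Complex.I • y)⟫_ℂ =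
      vel s * ⟪x + Complex.I • y, r.ρ s (x + Complex.I • y)⟫_ℂ)
    (h2 : ∀ s, vel s * ⟪l, r.ρ s (x + Complex.I • y)⟫_ℂ = ⟪x - Complex.I • y, r.ρ s l⟫_ℂ)
    (j : ℤ) :
    ‖r.P (j + 1) (x - Complex.I • y)‖ ^ 2 ≤ ‖r.P j l‖ ^ 2 + 4 * (‖x + l‖ * ‖y‖) ∧
    ‖r.P (j - 1) (x + Complex.I • y)‖ ^ 2 ≤ ‖r.P j l‖ ^ 2 + 4 * (‖x + l‖ * ‖y‖) := by
  set p := x - Complex.I • y with hp
  set q := x + Complex.I • y with hq
  have R1 : ∀ k : ℤ, ‖r.P (k + 1) p‖ ^ 2 = ‖r.P (k - 1) q‖ ^ 2 := by
    intro k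
    rw [r.norm_sq_P, r.norm_sq_P, r.inner_P, r.inner_P]
    congr 2
    ext s
    have e1 : fourier (-(k + 1)) s = fourier (-k) s * conj (vel s) := by
      rw [vel_eq_fourier, ← fourier_neg, ← fourier_add]; congr 2; ring
    have e2 : fourier (-(k - 1)) s = fourier (-k) s * vel s := by
      rw [vel_eq_fourier, ← fourier_add]; congr 2; ring
    rw [e1, e2, mul_assoc, mul_assoc, h1]
  have R2 : ∀ k : ℤ, ⟪l, r.P k q⟫_ℂ = ⟪p, r.P (k + 1) l⟫_ℂ := by
    intro k
    rw [r.inner_P, r.inner_P]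
    congr 1
    ext s
    have e2 : fourier (-k) s = fourier (-(k + 1)) s * vel s := by
      rw [vel_eq_fourier, ← fourier_add]; congr 2; ring
    rw [e2, mul_assoc, h2]
  -- real quantities
  set α : ℤ → ℝ := fun k => ‖r.P k p‖ ^ 2 with hα
  set β : ℤ → ℝ := fun k => ‖r.P k q‖ ^ 2 with hβ
  set γ : ℤ → ℝ := fun k => (⟪r.P k l, r.P k p⟫_ℂ).re with hγ
  set δ : ℤ → ℝ := fun k => (⟪r.P k l, r.P k q⟫_ℂ).re with hδ
  set g : ℤ → ℝ := fun k => (⟪r.P k (x + l), Complex.I • y⟫_ℂ).re with hg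
  have R2' : ∀ k, δ k = γ (k + 1) := by
    intro k
    simp only [hδ, hγ]
    rw [r.inner_P_P, R2, ← r.inner_P_P, ← inner_conj_symm, Complex.conj_re]
  have R1' : ∀ k, β k = α (k + 2) := by
    intro k
    have := R1 (k + 1)
    simp only [hα, hβ]
    rw [add_sub_cancel_right] at this
    rw [← this]; congr 3; ring
  have hstep : ∀ k, β k - α k + 2 * δ k - 2 * γ k = 4 * g k := by
    intro k
    simp only [hα, hβ, hγ, hδ, hg, hp, hq]
    have e : ⟪r.P k (x + l), Complex.I • y⟫_ℂ = ⟪r.P k (x + l), r.P k (Complex.I • y)⟫_ℂ := by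
      rw [r.inner_P_P, r.inner_P_left]
    rw [e, map_add, map_sub, map_add, @norm_add_sq ℂ, @norm_sub_sq ℂ, inner_add_right,
      inner_sub_right, inner_add_left]
    simp only [Complex.add_re, Complex.sub_re, RCLike.re_to_complex]
    ring
  set E : ℤ → ℝ := fun k => α (k + 1) + α k + 2 * γ k with hE
  have hE1 : ∀ k, E (k + 1) = E k + 4 * g k := by
    intro k
    simp only [hE]
    have := hstep k
    rw [R1', R2'] at this
    rw [show k + 1 + 1 = k + 2 by ring]
    linarith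
  have hsum : ∀ (n : ℕ) (k : ℤ), E (k + n) = E k + 4 * ∑ i ∈ Finset.range n, g (k + i) := by
    intro n k
    induction n with
    | zero => simp
    | succ n ih =>
      rw [Finset.sum_range_succ, Nat.cast_succ, ← add_assoc, hE1, ih]; ring
  have hgb : ∀ (n : ℕ) (k : ℤ), ∑ i ∈ Finset.range n, g (k + i) ≤ ‖x + l‖ * ‖y‖ := by
    intro n k
    have e : ∑ i ∈ Finset.range n, g (k + i) =
        (⟪∑ m ∈ (Finset.range n).image (fun i : ℕ => k + i), r.P m (x + l), Complex.I • y⟫_ℂ).re := by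
      rw [sum_inner, Complex.re_sum, Finset.sum_image]
      intro a _ b _ hab
      simpa using hab
    rw [e]
    calc _ ≤ ‖⟪∑ m ∈ (Finset.range n).image (fun i : ℕ => k + i), r.P m (x + l),
            Complex.I • y⟫_ℂ‖ := Complex.re_le_norm _
      _ ≤ _ := norm_inner_le_norm _ _
      _ ≤ ‖x + l‖ * ‖y‖ := by
        rw [norm_smul, Complex.norm_I, one_mul]
        gcongr
        exact r.norm_sum_P_le _ _
  have hγb : ∀ k, 2 * γ k ≤ α k + ‖r.P k l‖ ^ 2 := by
    intro k
    simp only [hγ, hα]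
    have h := (Complex.re_le_norm _).trans (norm_inner_le_norm (𝕜 := ℂ) (r.P k l) (r.P k p))
    nlinarith [sq_nonneg (‖r.P k l‖ - ‖r.P k p‖)]
  have hEb : ∀ k, E k ≤ 4 * (‖x + l‖ * ‖y‖) := by
    intro k
    have t1 : Tendsto (fun n : ℕ => k - (n : ℤ)) atTop atBot :=
      tendsto_atBot_add_const_left _ _ (tendsto_neg_atTop_atBot.comp tendsto_natCast_atTop_atTop)
    have t2 : Tendsto (fun n : ℕ => k - (n : ℤ) + 1) atTop atBot :=
      tendsto_atBot_add_const_right _ _ t1
    have hl : Tendsto (fun n : ℕ => α (k - n + 1) + 2 * α (k - n) + ‖r.P (k - n) l‖ ^ 2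
        + 4 * (‖x + l‖ * ‖y‖)) atTop (𝓝 (0 + 2 * 0 + 0 + 4 * (‖x + l‖ * ‖y‖))) :=
      ((((r.tendsto_P_atBot p).comp t2).add
        (((r.tendsto_P_atBot p).comp t1).const_mul 2)).add
        ((r.tendsto_P_atBot l).comp t1)).add_const _
    simp only [mul_zero, add_zero, zero_add] at hl
    refine ge_of_tendsto' hl fun n => ?_
    have h1 := hsum n (k - n)
    rw [sub_add_cancel] at h1
    have h2 := hgb n (k - n)
    have h3 := hγb (k - n)
    simp only [hE] at h1 ⊢
    linarith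
  constructor
  · have h1 := hEb j
    have h2 : 0 ≤ α j + 2 * γ j + ‖r.P j l‖ ^ 2 := by
      have := sq_nonneg ‖r.P j l + r.P j p‖
      rw [@norm_add_sq ℂ] at this
      simp only [hα, hγ]
      simp only [RCLike.re_to_complex] at this
      linarith
    simp only [hE] at h1
    change α (j + 1) ≤ _
    linarith
  · have h1 := hEb (j + 1)
    have h2 : 0 ≤ β j + 2 * δ j + ‖r.P j l‖ ^ 2 := by
      have := sq_nonneg ‖r.P j l + r.P j q‖
      rw [@norm_add_sq ℂ] at this
      simp only [hβ, hδ]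
      simp only [RCLike.re_to_complex] at this
      linarith
    simp only [hE] at h1
    rw [show j + 1 + 1 = j + 2 by ring, ← R1', ← R2', show j + 1 = (j - 1) + 2 by ring,
      ← R1'] at h1
    change β (j - 1) ≤ _
    linarith

end CircleRep

/-- A convex sequence on the integers tending to zero at both ends is nonpositive. -/
theorem convex_seq_nonpos (f : ℤ → ℝ) (hc : ∀ j, 2 * f (j + 1) ≤ f j + f (j + 2))
    (hb : Tendsto f atBot (𝓝 0)) (ht : Tendsto f atTop (𝓝 0)) (j : ℤ) : f j ≤ 0 := by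
  -- differences are monotone
  have hmono : ∀ (k : ℤ) (n : ℕ), f (k + 1) - f k ≤ f (k + n + 1) - f (k + n) := by
    intro k n
    induction n with
    | zero => simp
    | succ n ih =>
      have := hc (k + n)
      push_cast
      rw [show k + (n + 1) + 1 = k + n + 2 by ring, show k + (n + 1) = k + n + 1 by ring]
      linarith
  have hdec : ∀ k, f (k + 1) - f k ≤ 0 := by
    intro k
    have t1 : Tendsto (fun n : ℕ => k + (n : ℤ)) atTop atTop :=
      tendsto_atTop_add_const_left _ _ tendsto_natCast_atTop_atTop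
    have t2 : Tendsto (fun n : ℕ => k + (n : ℤ) + 1) atTop atTop :=
      tendsto_atTop_add_const_right _ _ t1
    have := (ht.comp t2).sub (ht.comp t1)
    simp only [sub_zero] at this
    exact ge_of_tendsto' this fun n => hmono k n
  have hle : ∀ n : ℕ, f j ≤ f (j - n) := by
    intro n
    induction n with
    | zero => simp
    | succ n ih =>
      have := hdec (j - (n + 1 : ℕ))
      push_cast at this ⊢
      rw [show j - (n + 1) + 1 = j - n by ring] at this
      linarith
  have t1 : Tendsto (fun n : ℕ => j - (n : ℤ)) atTop atBot :=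
    tendsto_atBot_add_const_left _ _ (tendsto_neg_atTop_atBot.comp tendsto_natCast_atTop_atTop)
  exact ge_of_tendsto' (hb.comp t1) hle

end Vale.Agent.P099
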