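import Vale.Agent.P099.Modes

/-!
Hilbert space part: Steklov averages, derivatives, symmetric relations.
-/

open MeasureTheory Set Filter Topology ComplexConjugate
open scoped InnerProductSpace

noncomputable section

namespace Vale.Agent.P099

variable {H : Type} [NormedAddCommGroup H] [InnerProductSpace ℂ H] [CompleteSpace H]

structure LocalRep (H : Type) [NormedAddCommGroup H] [InnerProductSpace ℂ H]
    extends CircleRep H where
  U : ℂ → H →L[ℂ] H
  W : ℝ → H →L[ℂ] H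
  N : ℝ → H →L[ℂ] H
  inner_U : ∀ v a b, ⟪U v a, U v b⟫_ℂ = ⟪a, b⟫_ℂ
  inner_W : ∀ t a b, ⟪W t a, W t b⟫_ℂ = ⟪a, b⟫_ℂ
  U_zero : ∀ a, U 0 a = a
  W_zero : ∀ a, W 0 a = a
  W_add : ∀ s t a, 0 ≤ s → 0 ≤ t → W (s + t) a = W s (W t a)
  U_add : ∀ r v w a, N r a = 0 → ‖v‖ + ‖w‖ ≤ r → U w (U v a) = U (v + w) a
  N_mono : ∀ r r' a, r' ≤ r → N r a = 0 → N r' a = 0
  N_U : ∀ r v a, N r a = 0 → N (r - ‖v‖) (U v a) = 0
  N_W : ∀ r t a, N r a = 0 → N r (W t a) = 0
  U_W : ∀ v t a, U v (W t a) = W t (U v a)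
  ρ_W : ∀ s t a, ρ s (W t a) = W t (ρ s a)
  U_ρ : ∀ w s a, U w (ρ s a) = ρ s (U (w * conj (vel s)) a)
  U_cont : ∀ a, Tendsto (fun v => U v a) (𝓝 0) (𝓝 a)
  W_cont : ∀ a, Tendsto (fun t => W t a) (𝓝[≥] 0) (𝓝 a)

/-- right derivative at `0` -/
def RDer (V : ℝ → H →L[ℂ] H) (f x : H) : Prop :=
  ∀ c : ℝ, 0 < c → ∃ δ : ℝ, 0 < δ ∧ ∀ s : ℝ, 0 < s → s < δ → ‖V s f - f - (s : ℂ) • x‖ ≤ c * s

/-- average along a semigroup -/
def avg (V : ℝ → H →L[ℂ] H) (h : ℝ) (a : H) : H := ((h : ℂ)⁻¹) • ∫ t in (0 : ℝ)..h, V t a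

namespace LocalRep

variable (L : LocalRep H)

omit [CompleteSpace H] in
theorem norm_U (v : ℂ) (a : H) : ‖L.U v a‖ = ‖a‖ := by
  rw [@norm_eq_sqrt_re_inner ℂ, L.inner_U, ← @norm_eq_sqrt_re_inner ℂ]

omit [CompleteSpace H] in
theorem norm_W (t : ℝ) (a : H) : ‖L.W t a‖ = ‖a‖ := by
  rw [@norm_eq_sqrt_re_inner ℂ, L.inner_W, ← @norm_eq_sqrt_re_inner ℂ]

omit [CompleteSpace H] in
theorem U_cont' (a : H) (c : ℝ) (hc : 0 < c) :
    ∃ δ : ℝ, 0 < δ ∧ ∀ v : ℂ, ‖v‖ < δ → ‖L.U v a - a‖ ≤ c := by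
  obtain ⟨δ, hδ, h⟩ := Metric.tendsto_nhds_nhds.1 (L.U_cont a) c hc
  exact ⟨δ, hδ, fun v hv => by
    have := h (x := v) (by simpa using hv)
    rw [dist_eq_norm] at this; exact this.le⟩

omit [CompleteSpace H] in
theorem W_cont' (a : H) (c : ℝ) (hc : 0 < c) :
    ∃ δ : ℝ, 0 < δ ∧ ∀ t : ℝ, 0 ≤ t → t < δ → ‖L.W t a - a‖ ≤ c := by
  obtain ⟨δ, hδ, h⟩ := Metric.tendsto_nhdsWithin_nhds.1 (L.W_cont a) c hc
  exact ⟨δ, hδ, fun t ht htδ => by
    have := h (x := t) ht (by simpa [abs_of_nonneg ht] using htδ)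
    rw [dist_eq_norm] at this; exact this.le⟩

structure IsSG (V : ℝ → H →L[ℂ] H) (k : ℝ) : Prop where
  k_nonneg : 0 ≤ k
  norm : ∀ t a, ‖V t a‖ = ‖a‖
  zero : ∀ a, V 0 a = a
  add : ∀ r s t a, L.N r a = 0 → 0 ≤ s → 0 ≤ t → k * (s + t) ≤ r → V s (V t a) = V (s + t) a
  supp : ∀ r t a, 0 ≤ t → L.N r a = 0 → L.N (r - k * t) (V t a) = 0
  cont : ∀ a (c : ℝ), 0 < c → ∃ δ : ℝ, 0 < δ ∧ ∀ t : ℝ, 0 ≤ t → t < δ → ‖V t a - a‖ ≤ c

variable {L}

namespace IsSG

variable {V : ℝ → H →L[ℂ] H} {k : ℝ} (hV : L.IsSG V k)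
include hV

omit [CompleteSpace H] in
theorem norm_sub {r T : ℝ} {a : H} (ha : L.N r a = 0) (hT : k * T ≤ r) {s t : ℝ}
    (hs : 0 ≤ s) (hst : s ≤ t) (ht : t ≤ T) : ‖V t a - V s a‖ = ‖V (t - s) a - a‖ := by
  have h1 : V s (V (t - s) a) = V t a := by
    rw [hV.add r s (t - s) a ha hs (by linarith)]
    · congr 2; ring
    · have := hV.k_nonneg
      calc k * (s + (t - s)) = k * t := by ring
        _ ≤ k * T := by gcongr
        _ ≤ r := hT
  rw [← h1, ← map_sub, hV.norm]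

omit [CompleteSpace H] in
theorem contOn {r T : ℝ} {a : H} (ha : L.N r a = 0) (hT : k * T ≤ r) :
    ContinuousOn (fun t => V t a) (Icc 0 T) := by
  rw [Metric.continuousOn_iff]
  intro t ht c hc
  obtain ⟨δ, hδ, h⟩ := hV.cont a (c / 2) (by linarith)
  refine ⟨δ, hδ, fun s hs hst => ?_⟩
  rw [Real.dist_eq] at hst
  rw [dist_eq_norm]
  rcases le_total s t with hle | hle
  · rw [norm_sub_rev, hV.norm_sub ha hT hs.1 hle ht.2]
    have := h (t - s) (by linarith) (by have := neg_abs_le (s - t); linarith)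
    linarith
  · rw [hV.norm_sub ha hT ht.1 hle hs.2]
    have := h (s - t) (by linarith) (by have := le_abs_self (s - t); linarith)
    linarith

omit [CompleteSpace H] in
theorem intInt {r h : ℝ} {a : H} (hh : 0 < h) (ha : L.N r a = 0) (hT : k * h ≤ r) :
    IntervalIntegrable (fun t => V t a) volume 0 h := by
  apply ContinuousOn.intervalIntegrable
  rw [uIcc_of_le hh.le]
  exact hV.contOn ha hT

theorem norm_avg_sub_le {r h : ℝ} {a : H} (hh : 0 < h) (ha : L.N r a = 0) (hT : k * h ≤ r)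
    (b : H) (c : ℝ) (hb : ∀ t ∈ Icc 0 h, ‖V t a - b‖ ≤ c) : ‖avg V h a - b‖ ≤ c := by
  have hh' : (h : ℂ) ≠ 0 := by exact_mod_cast hh.ne'
  have e : avg V h a - b = ((h : ℂ)⁻¹) • ∫ t in (0 : ℝ)..h, (V t a - b) := by
    rw [intervalIntegral.integral_sub (hV.intInt hh ha hT) intervalIntegrable_const, smul_sub,
      intervalIntegral.integral_const, sub_zero, ← Complex.coe_smul, smul_smul,
      inv_mul_cancel₀ hh', one_smul]
    rfl
  rw [e, norm_smul, norm_inv, Complex.norm_real, Real.norm_eq_abs, abs_of_pos hh]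
  have := intervalIntegral.norm_integral_le_of_norm_le_const (a := 0) (b := h) (C := c)
    (f := fun t => V t a - b) (fun t ht => hb t (by
      rw [uIoc_of_le hh.le] at ht; exact Ioc_subset_Icc_self ht))
  rw [sub_zero, abs_of_pos hh] at this
  calc h⁻¹ * _ ≤ h⁻¹ * (c * h) := by gcongr
    _ = c := by field_simp

theorem norm_avg_le {r h : ℝ} {a : H} (hh : 0 < h) (ha : L.N r a = 0) (hT : k * h ≤ r) :
    ‖avg V h a‖ ≤ ‖a‖ := by
  have := hV.norm_avg_sub_le hh ha hT 0 ‖a‖ (fun t _ => by rw [sub_zero, hV.norm])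
  simpa using this

theorem norm_avg_sub_le' {r h : ℝ} {a : H} (hh : 0 < h) (ha : L.N r a = 0) (hT : k * h ≤ r)
    (b : H) (c : ℝ) (hb : ∀ t ∈ Icc 0 h, ‖V t b - b‖ ≤ c) : ‖avg V h a - b‖ ≤ ‖a - b‖ + c := by
  refine hV.norm_avg_sub_le hh ha hT b _ fun t ht => ?_
  calc ‖V t a - b‖ = ‖V t (a - b) + (V t b - b)‖ := by rw [map_sub]; congr 1; abel
    _ ≤ ‖V t (a - b)‖ + ‖V t b - b‖ := norm_add_le _ _
    _ ≤ _ := by rw [hV.norm]; gcongr; exact hb t ht

theorem clm_avg {r h : ℝ} {a : H} (hh : 0 < h) (ha : L.N r a = 0) (hT : k * h ≤ r)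
    (B : H →L[ℂ] H) : B (avg V h a) = ((h : ℂ)⁻¹) • ∫ t in (0 : ℝ)..h, B (V t a) := by
  unfold avg
  rw [map_smul, B.intervalIntegral_comp_comm (hV.intInt hh ha hT)]

theorem avg_supp {r h : ℝ} {a : H} (hh : 0 < h) (ha : L.N r a = 0) (hT : k * h ≤ r) :
    L.N (r - k * h) (avg V h a) = 0 := by
  rw [hV.clm_avg hh ha hT, intervalIntegral.integral_congr (g := fun _ => (0 : H))]
  · simp
  · intro t ht
    rw [uIcc_of_le hh.le] at ht
    refine L.N_mono (r - k * t) _ _ ?_ (hV.supp r t a ht.1 ha)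
    have := hV.k_nonneg
    have : k * t ≤ k * h := by gcongr; exact ht.2
    linarith

theorem avg_comm {r h : ℝ} {a : H} (hh : 0 < h) (ha : L.N r a = 0) (hT : k * h ≤ r)
    (B : H →L[ℂ] H) (hB : ∀ t ∈ Icc 0 h, B (V t a) = V t (B a)) :
    B (avg V h a) = avg V h (B a) := by
  rw [hV.clm_avg hh ha hT]
  unfold avg
  congr 1
  refine intervalIntegral.integral_congr fun t ht => ?_
  rw [uIcc_of_le hh.le] at ht
  exact hB t ht

omit [CompleteSpace H] in
theorem avg_sub {r h : ℝ} {a b : H} (hh : 0 < h) (ha : L.N r a = 0) (hb : L.N r b = 0)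
    (hT : k * h ≤ r) : avg V h (a - b) = avg V h a - avg V h b := by
  unfold avg
  rw [← smul_sub, ← intervalIntegral.integral_sub (hV.intInt hh ha hT) (hV.intInt hh hb hT)]
  simp only [map_sub]

omit [CompleteSpace H] hV in
theorem avg_smul (h : ℝ) (c : ℂ) (a : H) : avg V h (c • a) = c • avg V h a := by
  unfold avg
  simp only [map_smul]
  rw [intervalIntegral.integral_smul, smul_comm]

theorem rder_avg {r h : ℝ} {a : H} (hh : 0 < h) (ha : L.N r a = 0) (hT : k * (2 * h) ≤ r) :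
    RDer V (avg V h a) (((h : ℂ)⁻¹) • (V h a - a)) := by
  have hk := hV.k_nonneg
  have hT' : k * h ≤ r := le_trans (by gcongr; linarith) hT
  intro c hc
  obtain ⟨δ, hδ, hd⟩ := hV.cont a (c * h / 2) (by positivity)
  refine ⟨min δ h, lt_min hδ hh, fun s hs hsδ => ?_⟩
  have hs1 : s < δ := hsδ.trans_le (min_le_left _ _)
  have hs2 : s < h := hsδ.trans_le (min_le_right _ _)
  have hcont := hV.contOn ha hT
  have hI : ∀ u w, u ∈ Icc 0 (2 * h) → w ∈ Icc 0 (2 * h) →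
      IntervalIntegrable (fun t => V t a) volume u w := fun u w hu hw =>
    (hcont.mono (uIcc_subset_Icc hu hw)).intervalIntegrable
  have e1 : V s (avg V h a) = ((h : ℂ)⁻¹) • ∫ t in s..(h + s), V t a := by
    rw [hV.clm_avg hh ha hT']
    congr 1
    rw [intervalIntegral.integral_congr (g := fun t => V (t + s) a)]
    · rw [intervalIntegral.integral_comp_add_right (fun t => V t a), zero_add]
    · intro t ht
      rw [uIcc_of_le hh.le] at ht
      simp only
      rw [hV.add r s t a ha hs.le ht.1, add_comm]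
      refine le_trans ?_ hT
      gcongr; linarith [ht.2]
  have m0 : (0 : ℝ) ∈ Icc 0 (2 * h) := ⟨le_rfl, by linarith⟩
  have ms : s ∈ Icc 0 (2 * h) := ⟨hs.le, by linarith⟩
  have mh : h ∈ Icc 0 (2 * h) := ⟨hh.le, by linarith⟩
  have mhs : h + s ∈ Icc 0 (2 * h) := ⟨by linarith, by linarith⟩
  have e2 : (∫ t in s..(h + s), V t a) - ∫ t in (0 : ℝ)..h, V t a =
      (∫ t in h..(h + s), V t a) - ∫ t in (0 : ℝ)..s, V t a := by
    rw [← intervalIntegral.integral_add_adjacent_intervals (hI s h ms mh) (hI h (h + s) mh mhs),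
      ← intervalIntegral.integral_add_adjacent_intervals (hI 0 s m0 ms) (hI s h ms mh)]
    abel
  have e3 : V s (avg V h a) - avg V h a - (s : ℂ) • ((h : ℂ)⁻¹) • (V h a - a) =
      ((h : ℂ)⁻¹) • ((∫ t in h..(h + s), (V t a - V h a)) - ∫ t in (0 : ℝ)..s, (V t a - a)) := by
    rw [intervalIntegral.integral_sub (hI h (h + s) mh mhs) intervalIntegrable_const,
      intervalIntegral.integral_sub (hI 0 s m0 ms) intervalIntegrable_const,
      intervalIntegral.integral_const, intervalIntegral.integral_const, e1]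
    unfold avg
    rw [← smul_sub, e2, smul_comm (s : ℂ), ← smul_sub]
    congr 1
    rw [add_sub_cancel_left, sub_zero, ← Complex.coe_smul, ← Complex.coe_smul, smul_sub]
    abel
  have b1 : ‖∫ t in h..(h + s), (V t a - V h a)‖ ≤ c * h / 2 * s := by
    have := intervalIntegral.norm_integral_le_of_norm_le_const (a := h) (b := h + s)
      (C := c * h / 2) (f := fun t => V t a - V h a) (fun t ht => by
        rw [uIoc_of_le (by linarith)] at ht
        rw [hV.norm_sub ha hT hh.le ht.1.le (by linarith [ht.2])]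
        exact hd _ (by linarith [ht.1]) (by linarith [ht.2]))
    rwa [add_sub_cancel_left, abs_of_pos hs] at this
  have b2 : ‖∫ t in (0 : ℝ)..s, (V t a - a)‖ ≤ c * h / 2 * s := by
    have := intervalIntegral.norm_integral_le_of_norm_le_const (a := 0) (b := s)
      (C := c * h / 2) (f := fun t => V t a - a) (fun t ht => by
        rw [uIoc_of_le hs.le] at ht
        exact hd _ ht.1.le (by linarith [ht.2]))
    rwa [sub_zero, abs_of_pos hs] at this
  rw [e3, norm_smul, norm_inv, Complex.norm_real, Real.norm_eq_abs, abs_of_pos hh]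
  calc h⁻¹ * _ ≤ h⁻¹ * (c * h / 2 * s + c * h / 2 * s) := by
        gcongr
        exact (norm_sub_le _ _).trans (add_le_add b1 b2)
    _ = c * s := by field_simp; ring

theorem rder_transfer {V' : ℝ → H →L[ℂ] H} {k' : ℝ} (hV' : L.IsSG V' k')
    (hc : ∀ r s t a, L.N r a = 0 → 0 ≤ s → 0 ≤ t → k' * s + k * t ≤ r →
      V' s (V t a) = V t (V' s a))
    {r h : ℝ} {g x : H} (hh : 0 < h) (hg : L.N r g = 0) (hx : L.N r x = 0)
    (hT : k * h < r) (hd : RDer V' g x) : RDer V' (avg V h g) (avg V h x) := by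
  have hk := hV.k_nonneg
  have hk' := hV'.k_nonneg
  intro c hc0
  obtain ⟨δ, hδ, hd⟩ := hd c hc0
  refine ⟨min δ ((r - k * h) / (k' + 1)), lt_min hδ (by
    apply div_pos <;> linarith), fun s hs hsδ => ?_⟩
  have hs1 : s < δ := hsδ.trans_le (min_le_left _ _)
  have hs2 : s < (r - k * h) / (k' + 1) := hsδ.trans_le (min_le_right _ _)
  rw [lt_div_iff₀ (by linarith)] at hs2
  have hs3 : k * h ≤ r - k' * s := by nlinarith
  have hr' : r - k' * s ≤ r := by nlinarith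
  have n1 : L.N (r - k' * s) (V' s g) = 0 := hV'.supp r s g hs.le hg
  have n2 : L.N (r - k' * s) g = 0 := L.N_mono r _ _ hr' hg
  have n3 : L.N (r - k' * s) ((s : ℂ) • x) = 0 := by
    rw [map_smul, L.N_mono r _ _ hr' hx, smul_zero]
  have n4 : L.N (r - k' * s) (V' s g - g) = 0 := by rw [map_sub, n1, n2, sub_zero]
  have n5 : L.N (r - k' * s) (V' s g - g - (s : ℂ) • x) = 0 := by rw [map_sub, n4, n3, sub_zero]
  rw [hV.avg_comm hh hg hT.le (V' s) (fun t ht => hc r s t g hg hs.le ht.1 (by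
      have : k * t ≤ k * h := by gcongr; exact ht.2
      linarith)), ← avg_smul, ← hV.avg_sub hh n1 n2 hs3, ← hV.avg_sub hh n4 n3 hs3]
  exact (hV.norm_avg_le hh n5 hs3).trans (hd s hs hs1)

end IsSG

end LocalRep

end Vale.Agent.P099
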