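import Vale.Agent.P099.Smooth

/-!
Hilbert space part: full derivative along the plane action and the symmetric relations.
-/

open MeasureTheory Set Filter Topology ComplexConjugate
open scoped InnerProductSpace

noncomputable section

namespace Vale.Agent.P099

variable {H : Type} [NormedAddCommGroup H] [InnerProductSpace ℂ H] [CompleteSpace H]

/-- the real-linear map with `1 ↦ x`, `i ↦ y` -/
def Dv (x y : H) (v : ℂ) : H := (v.re : ℂ) • x + (v.im : ℂ) • y

omit [CompleteSpace H] in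
theorem Dv_eq (x y : H) (v : ℂ) : Dv x y v =
    (1 / 2 : ℂ) • (v • (x - Complex.I • y) + conj v • (x + Complex.I • y)) := by
  unfold Dv
  have h1 : (v.re : ℂ) = (1 / 2 : ℂ) * (v + conj v) := by
    rw [Complex.add_conj]; push_cast; ring
  have h2 : (v.im : ℂ) = (1 / 2 : ℂ) * (-Complex.I * v + Complex.I * conj v) := by
    have := Complex.sub_conj v
    have h3 : -Complex.I * v + Complex.I * conj v = -Complex.I * (v - conj v) := by ring
    rw [h3, this]; push_cast
    linear_combination (v.im : ℂ) * Complex.I_mul_I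
  rw [h1, h2]
  module

omit [CompleteSpace H] in
theorem Dv_real_mul (x y : H) (t : ℝ) (v : ℂ) : Dv x y (t * v) = (t : ℂ) • Dv x y v := by
  unfold Dv
  simp only [Complex.mul_re, Complex.mul_im, Complex.ofReal_re, Complex.ofReal_im, zero_mul,
    sub_zero, add_zero]
  push_cast
  module

omit [CompleteSpace H] in
theorem Dv_neg (x y : H) (v : ℂ) : Dv x y (-v) = - Dv x y v := by
  unfold Dv
  simp only [Complex.neg_re, Complex.neg_im]
  push_cast
  module

omit [CompleteSpace H] in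
theorem Dv_mul (x y : H) (w e : ℂ) :
    Dv x y (w * e) = Dv (Dv x y e) (Dv x y (Complex.I * e)) w := by
  unfold Dv
  simp only [Complex.mul_re, Complex.mul_im, Complex.I_re, Complex.I_im, zero_mul, one_mul,
    zero_sub, zero_add]
  push_cast
  module

omit [CompleteSpace H] in
theorem Dv_one (x y : H) : Dv x y 1 = x := by simp [Dv]

omit [CompleteSpace H] in
theorem Dv_I (x y : H) : Dv x y Complex.I = y := by simp [Dv]

omit [CompleteSpace H] in
theorem clm_Dv (B : H →L[ℂ] H) (x y : H) (v : ℂ) : B (Dv x y v) = Dv (B x) (B y) v := by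
  simp [Dv]

omit [CompleteSpace H] in
theorem RDer.tendsto {V : ℝ → H →L[ℂ] H} {f x : H} (h : RDer V f x) :
    Tendsto (fun t : ℝ => ((t : ℂ)⁻¹) • (V t f - f)) (𝓝[>] 0) (𝓝 x) := by
  rw [Metric.tendsto_nhdsWithin_nhds]
  intro c hc
  obtain ⟨δ, hδ, hd⟩ := h (c / 2) (by linarith)
  refine ⟨δ, hδ, fun t ht htδ => ?_⟩
  have ht' : 0 < t := ht
  have htc : (t : ℂ) ≠ 0 := by exact_mod_cast ht'.ne'
  rw [Real.dist_eq, sub_zero, abs_of_pos ht'] at htδ
  have e : ((t : ℂ)⁻¹) • (V t f - f) - x = ((t : ℂ)⁻¹) • (V t f - f - (t : ℂ) • x) := by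
    rw [smul_sub _ (V t f - f), smul_smul, inv_mul_cancel₀ htc, one_smul]
  rw [dist_eq_norm, e, norm_smul, norm_inv, Complex.norm_real, Real.norm_eq_abs, abs_of_pos ht']
  calc t⁻¹ * _ ≤ t⁻¹ * (c / 2 * t) := by gcongr; exact hd t ht' htδ
    _ = c / 2 := by field_simp
    _ < c := by linarith

namespace LocalRep

variable (L : LocalRep H)

/-- derivative of `v ↦ U v f` at `0` -/
def FDer (f x y : H) : Prop :=
  ∀ c : ℝ, 0 < c → ∃ δ : ℝ, 0 < δ ∧ ∀ v : ℂ, ‖v‖ < δ → ‖L.U v f - f - Dv x y v‖ ≤ c * ‖v‖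

variable {L}

omit [CompleteSpace H] in
theorem two_sided {r : ℝ} {f x : H} (hr : 0 < r) (hf : L.N r f = 0) {e : ℂ} (he : ‖e‖ = 1)
    (hd : RDer (fun t : ℝ => L.U (e * t)) f x) (c : ℝ) (hc : 0 < c) :
    ∃ δ : ℝ, 0 < δ ∧ ∀ t : ℝ, |t| < δ → ‖L.U (e * t) f - f - (t : ℂ) • x‖ ≤ c * |t| := by
  obtain ⟨δ1, hδ1, h1⟩ := hd (c / 2) (by linarith)
  obtain ⟨δ2, hδ2, h2⟩ := L.U_cont' x (c / 2) (by linarith)
  refine ⟨min (min δ1 δ2) (r / 2), by positivity, fun t ht => ?_⟩
  have ht1 : |t| < δ1 := ht.trans_le ((min_le_left _ _).trans (min_le_left _ _))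
  have ht2 : |t| < δ2 := ht.trans_le ((min_le_left _ _).trans (min_le_right _ _))
  have ht3 : |t| < r / 2 := ht.trans_le (min_le_right _ _)
  rcases lt_trichotomy t 0 with hneg | h0 | hpos
  · obtain ⟨s, rfl⟩ : ∃ s, t = -s := ⟨-t, by ring⟩
    have hs : 0 < s := by linarith
    rw [abs_neg, abs_of_pos hs] at ht1 ht2 ht3 ⊢
    have n1 : ‖e * ((-s : ℝ) : ℂ)‖ = s := by
      rw [norm_mul, he, one_mul, Complex.norm_real, Real.norm_eq_abs, abs_neg, abs_of_pos hs]
    have n2 : ‖e * (s : ℂ)‖ = s := by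
      rw [norm_mul, he, one_mul, Complex.norm_real, Real.norm_eq_abs, abs_of_pos hs]
    have e1 : L.U (e * ((-s : ℝ) : ℂ)) (L.U (e * s) f) = f := by
      rw [L.U_add r _ _ f hf (by rw [n1, n2]; linarith)]
      have : e * s + e * ((-s : ℝ) : ℂ) = 0 := by push_cast; ring
      rw [this, L.U_zero]
    have e2 : L.U (e * ((-s : ℝ) : ℂ)) f - f - ((-s : ℝ) : ℂ) • x =
        -(L.U (e * ((-s : ℝ) : ℂ)) (L.U (e * s) f - f - (s : ℂ) • x))
          - (s : ℂ) • (L.U (e * ((-s : ℝ) : ℂ)) x - x) := by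
      rw [map_sub, map_sub, e1, map_smul]
      push_cast
      module
    rw [e2]
    refine (norm_sub_le _ _).trans ?_
    rw [norm_neg, L.norm_U, norm_smul, Complex.norm_real, Real.norm_eq_abs, abs_of_pos hs]
    have b1 := h1 s hs ht1
    have b2 := h2 _ (by rw [n1]; exact ht2)
    calc _ ≤ c / 2 * s + s * (c / 2) := by gcongr
      _ = c * s := by ring
  · subst h0; simp [L.U_zero]
  · rw [abs_of_pos hpos] at ht1 ⊢
    refine (h1 t hpos ht1).trans ?_
    gcongr; linarith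

omit [CompleteSpace H] in
theorem fder_of_rder {r : ℝ} {f x y : H} (hr : 0 < r) (hf : L.N r f = 0)
    (hx : RDer (fun t : ℝ => L.U (1 * t)) f x)
    (hy : RDer (fun t : ℝ => L.U (Complex.I * t)) f y) : L.FDer f x y := by
  intro c hc
  obtain ⟨δ1, hδ1, h1⟩ := two_sided hr hf norm_one hx (c / 3) (by linarith)
  obtain ⟨δ2, hδ2, h2⟩ := two_sided hr hf Complex.norm_I hy (c / 3) (by linarith)
  obtain ⟨δ3, hδ3, h3⟩ := L.U_cont' x (c / 3) (by linarith)
  refine ⟨min (min δ1 δ2) (min δ3 (r / 2)), by positivity, fun v hv => ?_⟩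
  have hv1 : ‖v‖ < δ1 := hv.trans_le ((min_le_left _ _).trans (min_le_left _ _))
  have hv2 : ‖v‖ < δ2 := hv.trans_le ((min_le_left _ _).trans (min_le_right _ _))
  have hv3 : ‖v‖ < δ3 := hv.trans_le ((min_le_right _ _).trans (min_le_left _ _))
  have hv4 : ‖v‖ < r / 2 := hv.trans_le ((min_le_right _ _).trans (min_le_right _ _))
  have a1 := Complex.abs_re_le_norm v
  have a2 := Complex.abs_im_le_norm v
  have n1 : ‖(1 : ℂ) * (v.re : ℂ)‖ = |v.re| := by simp
  have n2 : ‖Complex.I * (v.im : ℂ)‖ = |v.im| := by simp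
  have e1 : L.U (Complex.I * v.im) (L.U (1 * v.re) f) = L.U v f := by
    rw [L.U_add r _ _ f hf (by rw [n1, n2]; linarith)]
    congr 2
    rw [one_mul, mul_comm, Complex.re_add_im]
  have e2 : L.U v f - f - Dv x y v =
      L.U (Complex.I * v.im) (L.U (1 * v.re) f - f - (v.re : ℂ) • x)
        + (v.re : ℂ) • (L.U (Complex.I * v.im) x - x)
        + (L.U (Complex.I * v.im) f - f - (v.im : ℂ) • y) := by
    rw [map_sub, map_sub, e1, map_smul]
    unfold Dv
    module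
  rw [e2]
  refine (norm_add₃_le).trans ?_
  rw [L.norm_U, norm_smul, Complex.norm_real, Real.norm_eq_abs]
  have b1 := h1 v.re (by linarith)
  have b2 := h2 v.im (by linarith)
  have b3 := h3 _ (by rw [n2]; linarith : ‖Complex.I * (v.im : ℂ)‖ < δ3)
  calc _ ≤ c / 3 * ‖v‖ + ‖v‖ * (c / 3) + c / 3 * ‖v‖ := by
        gcongr
        · exact b1.trans (by gcongr)
        · exact b2.trans (by gcongr)
    _ = c * ‖v‖ := by ring

omit [CompleteSpace H] in
theorem FDer.rho {f x y : H} (h : L.FDer f x y) (s : UnitAddCircle) :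
    L.FDer (L.ρ s f) (L.ρ s (Dv x y (conj (vel s))))
      (L.ρ s (Dv x y (Complex.I * conj (vel s)))) := by
  intro c hc
  obtain ⟨δ, hδ, hd⟩ := h c hc
  refine ⟨δ, hδ, fun v hv => ?_⟩
  have n1 : ‖v * conj (vel s)‖ = ‖v‖ := by
    rw [norm_mul, RCLike.norm_conj, norm_vel, mul_one]
  rw [L.U_ρ, ← clm_Dv, ← Dv_mul, ← map_sub, ← map_sub, L.norm_ρ, ← n1]
  exact hd _ (by rw [n1]; exact hv)

omit [CompleteSpace H] in
theorem FDer.tendsto {f x y : H} (h : L.FDer f x y) (v : ℂ) :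
    Tendsto (fun t : ℝ => ((t : ℂ)⁻¹) • (L.U (t * v) f - L.U (-(t * v)) f)) (𝓝[>] 0)
      (𝓝 ((2 : ℂ) • Dv x y v)) := by
  have key : ∀ w : ℂ, RDer (fun t : ℝ => L.U (t * w)) f (Dv x y w) := by
    intro w c hc
    obtain ⟨δ, hδ, hd⟩ := h (c / (‖w‖ + 1)) (by positivity)
    refine ⟨δ / (‖w‖ + 1), by positivity, fun s hs hsδ => ?_⟩
    have n1 : ‖(s : ℂ) * w‖ = s * ‖w‖ := by
      rw [norm_mul, Complex.norm_real, Real.norm_eq_abs, abs_of_pos hs]
    rw [lt_div_iff₀ (by positivity)] at hsδ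
    have := hd (s * w) (by rw [n1]; nlinarith)
    rw [Dv_real_mul, n1] at this
    refine this.trans ?_
    rw [div_mul_eq_mul_div, div_le_iff₀ (by positivity)]
    nlinarith [mul_pos hc hs]
  have t1 := (key v).tendsto
  have t2 := (key (-v)).tendsto
  have t3 := t1.sub t2
  rw [Dv_neg, sub_neg_eq_add, ← two_smul ℂ] at t3
  refine t3.congr fun t => ?_
  rw [← smul_sub, mul_neg]
  congr 1
  abel

omit [CompleteSpace H] in
theorem inner_U_U {r : ℝ} {a : H} (ha : L.N r a = 0) (b : H) (v w : ℂ)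
    (h : ‖v - w‖ + ‖w‖ ≤ r) : ⟪L.U v a, L.U w b⟫_ℂ = ⟪L.U (v - w) a, b⟫_ℂ := by
  rw [← L.inner_U w (L.U (v - w) a) b, L.U_add r _ _ a ha h, sub_add_cancel]

omit [CompleteSpace H] in
theorem inner_U_right {r : ℝ} {a : H} (ha : L.N r a = 0) (b : H) (w : ℂ)
    (h : 2 * ‖w‖ ≤ r) : ⟪a, L.U w b⟫_ℂ = ⟪L.U (-w) a, b⟫_ℂ := by
  have := inner_U_U ha b 0 w (by rw [zero_sub, norm_neg]; linarith)
  rwa [L.U_zero, zero_sub] at this

omit [CompleteSpace H] in
theorem sym1 {r : ℝ} (hr : 0 < r) {a x y b x' y' : H} (ha : L.N r a = 0)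
    (h1 : L.FDer a x y) (h2 : L.FDer b x' y') : ⟪x, y'⟫_ℂ = ⟪y, x'⟫_ℂ := by
  have t1 := (h1.tendsto 1).inner (𝕜 := ℂ) (h2.tendsto Complex.I)
  have t2 := (h1.tendsto Complex.I).inner (𝕜 := ℂ) (h2.tendsto 1)
  have hev : ∀ᶠ t : ℝ in 𝓝[>] 0, t ∈ Ioo 0 (r / 3) := Ioo_mem_nhdsGT (by linarith)
  have := tendsto_nhds_unique_of_eventuallyEq t1 t2 (hev.mono fun t ht => by
    have n1 : ‖(t : ℂ) * 1‖ = t := by simp [abs_of_pos ht.1]
    have n2 : ‖(t : ℂ) * Complex.I‖ = t := by simp [abs_of_pos ht.1]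
    have hb : ∀ v w : ℂ, ‖v‖ = t → ‖w‖ = t → ‖v - w‖ + ‖w‖ ≤ r := fun v w hv hw => by
      have := norm_sub_le v w
      linarith [ht.2]
    simp only [inner_smul_left, inner_smul_right, inner_sub_left, inner_sub_right]
    rw [inner_U_U ha b _ _ (hb _ _ n1 n2), inner_U_U ha b _ _ (hb _ _ (by rw [norm_neg, n1]) n2),
      inner_U_U ha b _ _ (hb _ _ n1 (by rw [norm_neg, n2])),
      inner_U_U ha b _ _ (hb _ _ (by rw [norm_neg, n1]) (by rw [norm_neg, n2])),
      inner_U_U ha b _ _ (hb _ _ n2 n1), inner_U_U ha b _ _ (hb _ _ (by rw [norm_neg, n2]) n1),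
      inner_U_U ha b _ _ (hb _ _ n2 (by rw [norm_neg, n1])),
      inner_U_U ha b _ _ (hb _ _ (by rw [norm_neg, n2]) (by rw [norm_neg, n1]))]
    rw [show -((t : ℂ) * Complex.I) - t * 1 = -(t * 1) - t * Complex.I by ring,
      show (t : ℂ) * Complex.I - -(t * 1) = t * 1 - -(t * Complex.I) by ring,
      show -((t : ℂ) * Complex.I) - -(t * 1) = t * 1 - t * Complex.I by ring,
      show -((t : ℂ) * 1) - -(t * Complex.I) = t * Complex.I - t * 1 by ring]
    ring)
  simp only [Dv_one, Dv_I, inner_smul_left, inner_smul_right] at this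
  have h2c : conj (2 : ℂ) = 2 := by simp [map_ofNat]
  rw [h2c] at this
  linear_combination (1 / 4 : ℂ) * this

omit [CompleteSpace H] in
theorem sym2 {r : ℝ} (hr : 0 < r) {a x y l b x' y' l' : H} (ha : L.N r a = 0)
    (h1 : L.FDer a x y) (h2 : L.FDer b x' y') (h3 : RDer L.W a l) (h4 : RDer L.W b l')
    (v : ℂ) (hv : ‖v‖ = 1) : ⟪l, Dv x' y' v⟫_ℂ = ⟪Dv x y v, l'⟫_ℂ := by
  have step : ∀ w : ℂ, 2 * ‖w‖ ≤ r →
      ⟪l, L.U w b - L.U (-w) b⟫_ℂ = ⟪L.U w a - L.U (-w) a, l'⟫_ℂ := by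
    intro w hw
    have hWc : Tendsto (fun t : ℝ => L.W t (L.U w b - L.U (-w) b)) (𝓝[>] 0)
        (𝓝 (L.U w b - L.U (-w) b)) :=
      (L.W_cont _).mono_left (nhdsWithin_mono _ Ioi_subset_Ici_self)
    have t1 := h3.tendsto.inner (𝕜 := ℂ) hWc
    have t2 := (tendsto_const_nhds (x := L.U w a - L.U (-w) a)).inner (𝕜 := ℂ) h4.tendsto
    refine tendsto_nhds_unique_of_eventuallyEq t1 t2 (Eventually.of_forall fun t => ?_)
    have sk : ∀ g : H, ⟪a, L.U w g - L.U (-w) g⟫_ℂ = -⟪L.U w a - L.U (-w) a, g⟫_ℂ := by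
      intro g
      rw [inner_sub_right, inner_U_right ha g w hw,
        inner_U_right ha g (-w) (by rwa [norm_neg]), neg_neg, inner_sub_left]
      ring
    simp only [inner_smul_left, inner_smul_right]
    rw [inner_sub_left (L.W t a), L.inner_W, map_sub (L.W t), ← L.U_W, ← L.U_W, sk, sk,
      inner_sub_right _ (L.W t b)]
    simp only [map_inv₀, Complex.conj_ofReal]
    ring
  have t1 := (tendsto_const_nhds (x := l)).inner (𝕜 := ℂ) (h2.tendsto v)
  have t2 := (h1.tendsto v).inner (𝕜 := ℂ) (tendsto_const_nhds (x := l'))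
  have hev : ∀ᶠ t : ℝ in 𝓝[>] 0, t ∈ Ioo 0 (r / 2) := Ioo_mem_nhdsGT (by linarith)
  have := tendsto_nhds_unique_of_eventuallyEq t1 t2 (hev.mono fun t ht => by
    have n1 : ‖(t : ℂ) * v‖ = t := by simp [abs_of_pos ht.1, hv]
    simp only [inner_smul_left, inner_smul_right]
    rw [step _ (by rw [n1]; linarith [ht.2])]
    simp only [map_inv₀, Complex.conj_ofReal])
  simp only [inner_smul_left, inner_smul_right] at this
  have h2c : conj (2 : ℂ) = 2 := by simp [map_ofNat]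
  rw [h2c] at this
  linear_combination (1 / 2 : ℂ) * this

omit [CompleteSpace H] in
theorem RDer_rho {f l : H} (h : RDer L.W f l) (s : UnitAddCircle) :
    RDer L.W (L.ρ s f) (L.ρ s l) := by
  intro c hc
  obtain ⟨δ, hδ, hd⟩ := h c hc
  refine ⟨δ, hδ, fun t ht htδ => ?_⟩
  rw [← L.ρ_W, ← map_smul, ← map_sub, ← map_sub, L.norm_ρ]
  exact hd t ht htδ

/-- the key inequality for a smooth vector -/
theorem key_smooth {r : ℝ} (hr : 0 < r) {f x y l : H} (hf : L.N r f = 0)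
    (h1 : L.FDer f x y) (h3 : RDer L.W f l) (j : ℤ) :
    ‖L.P (j + 1) (x - Complex.I • y)‖ ^ 2 ≤ ‖L.P j l‖ ^ 2 + 4 * (‖x + l‖ * ‖y‖) ∧
    ‖L.P (j - 1) (x + Complex.I • y)‖ ^ 2 ≤ ‖L.P j l‖ ^ 2 + 4 * (‖x + l‖ * ‖y‖) := by
  refine L.toCircleRep.key x y l (fun s => ?_) (fun s => ?_) j
  · have := sym1 hr hf h1 (h1.rho s)
    set e := vel s with he
    have hre : conj e = (e.re : ℂ) - e.im * Complex.I := by
      apply Complex.ext <;> simp
    have hre' : e = (e.re : ℂ) + e.im * Complex.I := (Complex.re_add_im e).symm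
    simp only [Dv, map_add, map_smul, inner_add_right, inner_smul_right, Complex.mul_re,
      Complex.mul_im, Complex.I_re, Complex.I_im, Complex.conj_re, Complex.conj_im, zero_mul,
      one_mul, zero_sub, zero_add, neg_neg] at this
    push_cast at this
    simp only [map_add, map_sub, map_smul, inner_add_right, inner_smul_right, inner_sub_right,
      inner_add_left, inner_sub_left, inner_smul_left, Complex.conj_I]
    rw [hre]
    conv_rhs => rw [hre']
    linear_combination (-2 * Complex.I) * this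
      + (- 2 * Complex.I * (e.im : ℂ) * ⟪y, L.ρ s y⟫_ℂ * (-1)) * Complex.I_mul_I
  · have a1 := sym2 hr hf h1 (h1.rho s) h3 (RDer_rho h3 s) 1 norm_one
    have a2 := sym2 hr hf h1 (h1.rho s) h3 (RDer_rho h3 s) Complex.I Complex.norm_I
    rw [Dv_one, Dv_one] at a1
    rw [Dv_I, Dv_I] at a2
    set e := vel s with he
    have hre' : e = (e.re : ℂ) + e.im * Complex.I := (Complex.re_add_im e).symm
    simp only [Dv, map_add, map_smul, inner_add_right, inner_smul_right, Complex.mul_re,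
      Complex.mul_im, Complex.I_re, Complex.I_im, Complex.conj_re, Complex.conj_im, zero_mul,
      one_mul, zero_sub, zero_add, neg_neg] at a1 a2
    push_cast at a1 a2
    simp only [map_add, map_smul, inner_add_right, inner_smul_right,
      inner_sub_left, inner_smul_left, Complex.conj_I]
    conv_lhs => rw [hre']
    linear_combination a1 + Complex.I * a2 + ((e.im : ℂ) * ⟪l, L.ρ s y⟫_ℂ) * Complex.I_mul_I

end LocalRep

end Vale.Agent.P099
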