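import Vale.Agent.P099.Smooth2

/-!
Hilbert space part: the smoothing construction and the two main conclusions.
-/

open MeasureTheory Set Filter Topology ComplexConjugate
open scoped InnerProductSpace

noncomputable section

namespace Vale.Agent.P099

variable {H : Type} [NormedAddCommGroup H] [InnerProductSpace ℂ H] [CompleteSpace H]

namespace LocalRep

variable (L : LocalRep H)

/-- the diagonal semigroup -/
def X' (t : ℝ) : H →L[ℂ] H := (L.U (1 * t)).comp (L.W t)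

/-- the transverse semigroup -/
def Y (t : ℝ) : H →L[ℂ] H := L.U (Complex.I * t)

omit [CompleteSpace H] in
theorem X'_apply (t : ℝ) (a : H) : L.X' t a = L.U (1 * t) (L.W t a) := rfl

omit [CompleteSpace H] in
theorem Y_apply (t : ℝ) (a : H) : L.Y t a = L.U (Complex.I * t) a := rfl

theorem norm_one_mul_real {t : ℝ} (ht : 0 ≤ t) : ‖(1 : ℂ) * (t : ℂ)‖ = t := by
  simp [abs_of_nonneg ht]

theorem norm_I_mul_real {t : ℝ} (ht : 0 ≤ t) : ‖Complex.I * (t : ℂ)‖ = t := by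
  simp [abs_of_nonneg ht]

omit [CompleteSpace H] in
theorem U_comm {r : ℝ} {a : H} (ha : L.N r a = 0) (v w : ℂ) (h : ‖v‖ + ‖w‖ ≤ r) :
    L.U w (L.U v a) = L.U v (L.U w a) := by
  rw [L.U_add r v w a ha h, L.U_add r w v a ha (by linarith), add_comm]

omit [CompleteSpace H] in
theorem sg_W : L.IsSG L.W 0 where
  k_nonneg := le_rfl
  norm := L.norm_W
  zero := L.W_zero
  add := fun _ s t a _ hs ht _ => (L.W_add s t a hs ht).symm
  supp := fun r t a _ ha => by rw [zero_mul, sub_zero]; exact L.N_W r t a ha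
  cont := L.W_cont'

omit [CompleteSpace H] in
theorem sg_Y : L.IsSG L.Y 1 where
  k_nonneg := zero_le_one
  norm := fun t a => L.norm_U _ a
  zero := fun a => by simp [Y_apply, L.U_zero]
  add := fun r s t a ha hs ht h => by
    rw [Y_apply, Y_apply, Y_apply, L.U_add r _ _ a ha
      (by rw [norm_I_mul_real hs, norm_I_mul_real ht]; linarith)]
    congr 2; push_cast; ring
  supp := fun r t a ht ha => by
    have := L.N_U r (Complex.I * t) a ha
    rw [norm_I_mul_real ht] at this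
    rw [one_mul]; exact this
  cont := fun a c hc => by
    obtain ⟨δ, hδ, h⟩ := L.U_cont' a c hc
    exact ⟨δ, hδ, fun t ht htδ => h _ (by rwa [norm_I_mul_real ht])⟩

omit [CompleteSpace H] in
theorem sg_X' : L.IsSG L.X' 1 where
  k_nonneg := zero_le_one
  norm := fun t a => by rw [X'_apply, L.norm_U, L.norm_W]
  zero := fun a => by simp [X'_apply, L.U_zero, L.W_zero]
  add := fun r s t a ha hs ht h => by
    rw [X'_apply, X'_apply, X'_apply, ← L.U_W, ← L.W_add s t a hs ht,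
      L.U_add r _ _ _ (L.N_W r _ a ha)
      (by rw [norm_one_mul_real hs, norm_one_mul_real ht]; linarith)]
    congr 2; push_cast; ring
  supp := fun r t a ht ha => by
    have := L.N_U r (1 * t) _ (L.N_W r t a ha)
    rw [norm_one_mul_real ht] at this
    rw [one_mul]; exact this
  cont := fun a c hc => by
    obtain ⟨δ, hδ, h⟩ := L.U_cont' a (c / 2) (by linarith)
    obtain ⟨δ', hδ', h'⟩ := L.W_cont' a (c / 2) (by linarith)
    refine ⟨min δ δ', lt_min hδ hδ', fun t ht htδ => ?_⟩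
    have b1 := h (1 * t) (by rw [norm_one_mul_real ht]; exact htδ.trans_le (min_le_left _ _))
    have b2 := h' t ht (htδ.trans_le (min_le_right _ _))
    calc ‖L.X' t a - a‖ = ‖L.U (1 * t) (L.W t a - a) + (L.U (1 * t) a - a)‖ := by
          rw [X'_apply, map_sub]; congr 1; abel
      _ ≤ ‖L.U (1 * t) (L.W t a - a)‖ + ‖L.U (1 * t) a - a‖ := norm_add_le _ _
      _ ≤ c := by rw [L.norm_U]; linarith

omit [CompleteSpace H] in
theorem W_comm (s t : ℝ) (hs : 0 ≤ s) (ht : 0 ≤ t) (a : H) :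
    L.W s (L.W t a) = L.W t (L.W s a) := by
  rw [← L.W_add s t a hs ht, ← L.W_add t s a ht hs, add_comm]

omit [CompleteSpace H] in
theorem comm_Y_X' (r s t : ℝ) (a : H) (ha : L.N r a = 0) (hs : 0 ≤ s) (ht : 0 ≤ t)
    (h : 1 * s + 1 * t ≤ r) : L.Y s (L.X' t a) = L.X' t (L.Y s a) := by
  rw [X'_apply, X'_apply, Y_apply, Y_apply, ← L.U_W]
  exact L.U_comm (L.N_W r t a ha) _ _
    (by rw [norm_one_mul_real ht, norm_I_mul_real hs]; linarith)

omit [CompleteSpace H] in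
theorem comm_W_X' (s t : ℝ) (a : H) (hs : 0 ≤ s) (ht : 0 ≤ t) :
    L.W s (L.X' t a) = L.X' t (L.W s a) := by
  rw [X'_apply, X'_apply, ← L.U_W, L.W_comm s t hs ht]

omit [CompleteSpace H] in
theorem comm_W_Y (s t : ℝ) (a : H) : L.W s (L.Y t a) = L.Y t (L.W s a) := by
  rw [Y_apply, Y_apply, ← L.U_W]

omit [CompleteSpace H] in
theorem rder_U_of {f x' l : H} (h1 : RDer L.X' f x') (h2 : RDer L.W f l) :
    RDer (fun t : ℝ => L.U (1 * t)) f (x' - l) := by
  intro c hc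
  obtain ⟨δ1, hδ1, h1⟩ := h1 (c / 3) (by linarith)
  obtain ⟨δ2, hδ2, h2⟩ := h2 (c / 3) (by linarith)
  obtain ⟨δ3, hδ3, h3⟩ := L.W_cont' (x' - l) (c / 3) (by linarith)
  refine ⟨min δ1 (min δ2 δ3), by positivity, fun s hs hsδ => ?_⟩
  have b1 := h1 s hs (hsδ.trans_le (min_le_left _ _))
  have b2 := h2 s hs (hsδ.trans_le ((min_le_right _ _).trans (min_le_left _ _)))
  have b3 := h3 s hs.le (hsδ.trans_le ((min_le_right _ _).trans (min_le_right _ _)))
  have e : L.W s (L.U (1 * s) f - f - (s : ℂ) • (x' - l)) =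
      (L.X' s f - f - (s : ℂ) • x') + -(L.W s f - f - (s : ℂ) • l)
        + -((s : ℂ) • (L.W s (x' - l) - (x' - l))) := by
    rw [map_sub, map_sub, map_smul, X'_apply, L.U_W]
    module
  change ‖L.U (1 * s) f - f - (s : ℂ) • (x' - l)‖ ≤ c * s
  rw [← L.norm_W s, e]
  refine norm_add₃_le.trans ?_
  rw [norm_neg, norm_neg, norm_smul, Complex.norm_real, Real.norm_eq_abs, abs_of_pos hs]
  calc _ ≤ c / 3 * s + c / 3 * s + s * (c / 3) := by gcongr
    _ = c * s := by ring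

theorem construct {ε τ : ℝ} (hε : 0 < ε) (hτ : 0 < τ) {F : H} (hF : L.N (10 * ε) F = 0) :
    ∃ f x y l : H, L.N ε f = 0 ∧ L.FDer f x y ∧ RDer L.W f l ∧
      ‖x + l‖ ≤ ε⁻¹ * ‖L.X' ε F - F‖ ∧ ‖y‖ ≤ ε⁻¹ * ‖L.Y ε F - F‖ ∧
      ∀ (b : H) (c : ℝ), (∀ t ∈ Icc 0 ε, ‖L.X' t b - b‖ ≤ c ∧ ‖L.Y t b - b‖ ≤ c) →
        ‖l - b‖ ≤ ‖((τ : ℂ)⁻¹) • (L.W τ F - F) - b‖ + 2 * c ∧
        ((∀ t a, L.W t a = a) → ‖f - b‖ ≤ ‖F - b‖ + 2 * c) := by
  have hW := L.sg_W
  have hY := L.sg_Y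
  have hX := L.sg_X'
  have mono : ∀ {r r' : ℝ} {a : H}, L.N r a = 0 → r' ≤ r → L.N r' a = 0 :=
    fun ha h => L.N_mono _ _ _ h ha
  have nε : ‖((ε : ℂ)⁻¹)‖ = ε⁻¹ := by simp [abs_of_pos hε]
  set G1 := avg L.W τ F with hG1
  have nG1 : L.N (10 * ε) G1 = 0 :=
    mono (hW.avg_supp hτ hF (by linarith)) (by linarith)
  set G2 := avg L.Y ε G1 with hG2
  have nG2 : L.N (9 * ε) G2 = 0 :=
    mono (hY.avg_supp hε nG1 (by linarith)) (by linarith)
  set f := avg L.X' ε G2 with hf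
  have nf : L.N (8 * ε) f = 0 :=
    mono (hX.avg_supp hε nG2 (by linarith)) (by linarith)
  -- the diagonal derivative
  have dX : RDer L.X' f (((ε : ℂ)⁻¹) • (L.X' ε G2 - G2)) := hX.rder_avg hε nG2 (by linarith)
  have nXF : L.N (9 * ε) (L.X' ε F) = 0 := mono (hX.supp _ ε F hε.le hF) (by linarith)
  have nXG1 : L.N (9 * ε) (L.X' ε G1) = 0 := mono (hX.supp _ ε G1 hε.le nG1) (by linarith)
  have nXFs : L.N (9 * ε) (L.X' ε F - F) = 0 := by
    rw [map_sub, nXF, mono hF (by linarith), sub_zero]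
  have eX1 : L.X' ε G1 - G1 = avg L.W τ (L.X' ε F - F) := by
    rw [hW.avg_sub hτ nXF (mono hF (by linarith)) (by linarith), hG1,
      hW.avg_comm hτ hF (by linarith) (L.X' ε)
        (fun t ht => (L.comm_W_X' t ε F ht.1 hε.le).symm)]
  have eX2 : L.X' ε G2 - G2 = avg L.Y ε (L.X' ε G1 - G1) := by
    rw [hY.avg_sub hε nXG1 (mono nG1 (by linarith)) (by linarith), hG2,
      hY.avg_comm hε nG1 (by linarith) (L.X' ε)
        (fun t ht => (L.comm_Y_X' _ t ε G1 nG1 ht.1 hε.le (by linarith [ht.2])).symm)]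
  have bX : ‖((ε : ℂ)⁻¹) • (L.X' ε G2 - G2)‖ ≤ ε⁻¹ * ‖L.X' ε F - F‖ := by
    rw [norm_smul, nε, eX2]
    gcongr
    refine (hY.norm_avg_le (r := 9 * ε) hε ?_ (by linarith)).trans ?_
    · rw [map_sub, nXG1, mono nG1 (by linarith), sub_zero]
    · rw [eX1]; exact hW.norm_avg_le hτ nXFs (by linarith)
  -- the transverse derivative
  have dY1 : RDer L.Y G2 (((ε : ℂ)⁻¹) • (L.Y ε G1 - G1)) := hY.rder_avg hε nG1 (by linarith)
  have nYF : L.N (9 * ε) (L.Y ε F) = 0 := mono (hY.supp _ ε F hε.le hF) (by linarith)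
  have nYG1 : L.N (9 * ε) (L.Y ε G1) = 0 := mono (hY.supp _ ε G1 hε.le nG1) (by linarith)
  have ny1 : L.N (9 * ε) (((ε : ℂ)⁻¹) • (L.Y ε G1 - G1)) = 0 := by
    rw [map_smul, map_sub, nYG1, mono nG1 (by linarith), sub_zero, smul_zero]
  have dY : RDer L.Y f (avg L.X' ε (((ε : ℂ)⁻¹) • (L.Y ε G1 - G1))) :=
    hX.rder_transfer hY L.comm_Y_X' hε nG2 ny1 (by linarith) dY1
  have eY1 : L.Y ε G1 - G1 = avg L.W τ (L.Y ε F - F) := by
    rw [hW.avg_sub hτ nYF (mono hF (by linarith)) (by linarith), hG1,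
      hW.avg_comm hτ hF (by linarith) (L.Y ε) (fun t _ => (L.comm_W_Y t ε F).symm)]
  have bY : ‖avg L.X' ε (((ε : ℂ)⁻¹) • (L.Y ε G1 - G1))‖ ≤ ε⁻¹ * ‖L.Y ε F - F‖ := by
    refine (hX.norm_avg_le hε ny1 (by linarith)).trans ?_
    rw [norm_smul, nε, eY1]
    gcongr
    refine hW.norm_avg_le (r := 9 * ε) hτ ?_ (by linarith)
    rw [map_sub, nYF, mono hF (by linarith), sub_zero]
  -- the derivative along `W`
  set l0 := ((τ : ℂ)⁻¹) • (L.W τ F - F) with hl0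
  have dW0 : RDer L.W G1 l0 := hW.rder_avg hτ hF (by linarith)
  have nl0 : L.N (10 * ε) l0 = 0 := by
    rw [hl0, map_smul, map_sub, L.N_W _ τ F hF, hF, sub_zero, smul_zero]
  have dW1 : RDer L.W G2 (avg L.Y ε l0) :=
    hY.rder_transfer hW (fun _ s t a _ _ _ _ => L.comm_W_Y s t a) hε nG1 nl0 (by linarith) dW0
  have nl1 : L.N (9 * ε) (avg L.Y ε l0) = 0 :=
    mono (hY.avg_supp hε nl0 (by linarith)) (by linarith)
  have dW : RDer L.W f (avg L.X' ε (avg L.Y ε l0)) :=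
    hX.rder_transfer hW (fun _ s t a _ hs ht _ => L.comm_W_X' s t a hs ht) hε nG2 nl1
      (by linarith) dW1
  refine ⟨f, ((ε : ℂ)⁻¹) • (L.X' ε G2 - G2) - avg L.X' ε (avg L.Y ε l0), _, _,
    mono nf (by linarith), fder_of_rder (by linarith) nf (L.rder_U_of dX dW) dY, dW,
    by rw [sub_add_cancel]; exact bX, bY, fun b c hb => ⟨?_, fun hW1 => ?_⟩⟩
  · have b1 := hX.norm_avg_sub_le' hε nl1 (by linarith) b c (fun t ht => (hb t ht).1)
    have b2 := hY.norm_avg_sub_le' hε nl0 (by linarith) b c (fun t ht => (hb t ht).2)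
    linarith
  · have b1 := hX.norm_avg_sub_le' hε nG2 (by linarith) b c (fun t ht => (hb t ht).1)
    have b2 := hY.norm_avg_sub_le' hε nG1 (by linarith) b c (fun t ht => (hb t ht).2)
    have b3 := hW.norm_avg_sub_le hτ hF (by linarith) b ‖F - b‖ (fun t _ => by rw [hW1])
    linarith

/-- the approximation hypothesis supplied by the cutoff functions -/
def Approx (u : H) : Prop :=
  ∀ κ : ℝ, 0 < κ → ∃ ε : ℝ, 0 < ε ∧ ε < κ ∧ ∃ F : H, L.N (10 * ε) F = 0 ∧ ‖F - u‖ ≤ κ ∧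
    ‖L.X' ε F - F‖ ≤ κ * ε ∧ ‖L.X' ε F - F‖ * ‖L.Y ε F - F‖ ≤ κ * ε ^ 2

theorem approx_seq {u : H} (hu : L.Approx u) {τ : ℝ} (hτ : 0 < τ) (κ : ℝ) (hκ : 0 < κ) :
    ∃ r : ℝ, 0 < r ∧ ∃ f x y l : H, L.N r f = 0 ∧ L.FDer f x y ∧ RDer L.W f l ∧
      ‖x + l‖ ≤ κ ∧ ‖x + l‖ * ‖y‖ ≤ κ ∧ ‖l - ((τ : ℂ)⁻¹) • (L.W τ u - u)‖ ≤ κ ∧
      ((∀ t a, L.W t a = a) → ‖f - u‖ ≤ κ) := by
  set l1 := ((τ : ℂ)⁻¹) • (L.W τ u - u) with hl1
  obtain ⟨δ1, hδ1, h1⟩ := L.sg_X'.cont l1 (κ / 4) (by linarith)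
  obtain ⟨δ2, hδ2, h2⟩ := L.sg_Y.cont l1 (κ / 4) (by linarith)
  obtain ⟨δ3, hδ3, h3⟩ := L.sg_X'.cont u (κ / 4) (by linarith)
  obtain ⟨δ4, hδ4, h4⟩ := L.sg_Y.cont u (κ / 4) (by linarith)
  set κ' := min (min (min δ1 δ2) (min δ3 δ4)) (min (κ / 2) (τ * κ / 4)) with hκ'
  have k1 : κ' ≤ δ1 := (min_le_left _ _).trans ((min_le_left _ _).trans (min_le_left _ _))
  have k2 : κ' ≤ δ2 := (min_le_left _ _).trans ((min_le_left _ _).trans (min_le_right _ _))
  have k3 : κ' ≤ δ3 := (min_le_left _ _).trans ((min_le_right _ _).trans (min_le_left _ _))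
  have k4 : κ' ≤ δ4 := (min_le_left _ _).trans ((min_le_right _ _).trans (min_le_right _ _))
  have k5 : κ' ≤ κ / 2 := (min_le_right _ _).trans (min_le_left _ _)
  have k6 : κ' ≤ τ * κ / 4 := (min_le_right _ _).trans (min_le_right _ _)
  have k0 : 0 < κ' := by positivity
  obtain ⟨ε, hε, hεκ, F, hF, hFu, bX, bXY⟩ := hu κ' k0
  obtain ⟨f, x, y, l, nf, df, dW, b1, b2, hb⟩ := L.construct hε hτ hF
  refine ⟨ε, hε, f, x, y, l, nf, df, dW, ?_, ?_, ?_, fun hW1 => ?_⟩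
  · calc _ ≤ ε⁻¹ * (κ' * ε) := b1.trans (by gcongr)
      _ = κ' := by field_simp
      _ ≤ κ := by linarith
  · calc _ ≤ (ε⁻¹ * ‖L.X' ε F - F‖) * (ε⁻¹ * ‖L.Y ε F - F‖) := by gcongr
      _ = ε⁻¹ ^ 2 * (‖L.X' ε F - F‖ * ‖L.Y ε F - F‖) := by ring
      _ ≤ ε⁻¹ ^ 2 * (κ' * ε ^ 2) := by gcongr
      _ = κ' := by field_simp
      _ ≤ κ := by linarith
  · have := (hb l1 (κ / 4) fun t ht =>
      ⟨h1 t ht.1 (by linarith [ht.2]), h2 t ht.1 (by linarith [ht.2])⟩).1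
    have e : ((τ : ℂ)⁻¹) • (L.W τ F - F) - l1 = ((τ : ℂ)⁻¹) • (L.W τ (F - u) - (F - u)) := by
      rw [hl1, map_sub]; module
    have b3 : ‖((τ : ℂ)⁻¹) • (L.W τ F - F) - l1‖ ≤ κ / 2 := by
      rw [e, norm_smul, norm_inv, Complex.norm_real, Real.norm_eq_abs, abs_of_pos hτ]
      have : ‖L.W τ (F - u) - (F - u)‖ ≤ τ * κ / 2 := by
        refine (norm_sub_le _ _).trans ?_
        rw [L.norm_W]; linarith
      calc _ ≤ τ⁻¹ * (τ * κ / 2) := by gcongr
        _ = κ / 2 := by field_simp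
    linarith
  · have := (hb u (κ / 4) fun t ht =>
      ⟨h3 t ht.1 (by linarith [ht.2]), h4 t ht.1 (by linarith [ht.2])⟩).2 hW1
    linarith

/-- First conclusion: invariance under the auxiliary semigroup. -/
theorem W_invariant {u : H} (hu : L.Approx u) {τ : ℝ} (hτ : 0 < τ) : L.W τ u = u := by
  set l1 := ((τ : ℂ)⁻¹) • (L.W τ u - u) with hl1
  have hpos : ∀ n : ℕ, (0 : ℝ) < 1 / ((n : ℝ) + 1) := fun n => by positivity
  choose r hr f x y l nf df dW b1 b2 b3 _ using fun n : ℕ => L.approx_seq hu hτ _ (hpos n)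
  have t0 : Tendsto (fun n : ℕ => 1 / ((n : ℝ) + 1)) atTop (𝓝 0) :=
    tendsto_one_div_add_atTop_nhds_zero_nat
  have tl : Tendsto l atTop (𝓝 l1) := by
    rw [tendsto_iff_norm_sub_tendsto_zero]
    exact squeeze_zero (fun _ => norm_nonneg _) b3 t0
  have txl : Tendsto (fun n => x n + l n) atTop (𝓝 0) := by
    rw [tendsto_zero_iff_norm_tendsto_zero]
    exact squeeze_zero (fun _ => norm_nonneg _) b1 t0
  have tx : Tendsto x atTop (𝓝 (-l1)) := by
    have := txl.sub tl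
    simpa using this
  have tκ : Tendsto (fun n => ‖x n + l n‖ * ‖y n‖) atTop (𝓝 0) :=
    squeeze_zero (fun _ => by positivity) b2 t0
  have hconv : ∀ j : ℤ, 2 * ‖L.P (j + 1) l1‖ ^ 2 ≤ ‖L.P j l1‖ ^ 2 + ‖L.P (j + 2) l1‖ ^ 2 := by
    intro j
    have cP : ∀ k : ℤ, Continuous fun a : H => ‖L.P k a‖ ^ 2 := fun k =>
      ((L.P k).continuous.norm).pow 2
    have t1 := (((cP (j + 1)).tendsto _).comp tx).const_mul 2
    have t2 := ((((cP j).tendsto _).comp tl).add (((cP (j + 2)).tendsto _).comp tl)).add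
      (tκ.const_mul 8)
    simp only [map_neg, norm_neg, mul_zero, add_zero] at t1 t2
    refine le_of_tendsto_of_tendsto' t1 t2 fun n => ?_
    have k1 := (key_smooth (hr n) (nf n) (df n) (dW n) j).1
    have k2 := (key_smooth (hr n) (nf n) (df n) (dW n) (j + 2)).2
    rw [show j + 2 - 1 = j + 1 by ring] at k2
    rw [map_sub] at k1
    rw [map_add] at k2
    have par := parallelogram_law_with_norm ℂ (L.P (j + 1) (x n))
      (L.P (j + 1) (Complex.I • y n))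
    simp only [Function.comp]
    nlinarith [sq_nonneg ‖L.P (j + 1) (Complex.I • y n)‖]
  have hz : ∀ j, L.P j l1 = 0 := by
    intro j
    have := convex_seq_nonpos (fun j => ‖L.P j l1‖ ^ 2) hconv (L.tendsto_P_atBot l1)
      (L.tendsto_P_atTop l1) j
    have h2 : ‖L.P j l1‖ ^ 2 = 0 := le_antisymm this (by positivity)
    simpa using h2
  have h0 := L.toCircleRep.eq_zero_of_P' l1 hz
  have hτ' : ((τ : ℂ)⁻¹) ≠ 0 := inv_ne_zero (by exact_mod_cast hτ.ne')
  rw [hl1, smul_eq_zero] at h0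
  exact sub_eq_zero.1 (h0.resolve_left hτ')

theorem norm_U_P_sub_le {f x y : H} (df : L.FDer f x y) (k : ℤ) {B : ℝ}
    (hp : ‖L.P (k + 1) (x - Complex.I • y)‖ ≤ B) (hq : ‖L.P (k - 1) (x + Complex.I • y)‖ ≤ B)
    (c : ℝ) (hc : 0 < c) :
    ∃ δ : ℝ, 0 < δ ∧ ∀ w : ℂ, ‖w‖ < δ → ‖L.U w (L.P k f) - L.P k f‖ ≤ (B + c) * ‖w‖ := by
  obtain ⟨δ, hδ, hd⟩ := df c hc
  refine ⟨δ, hδ, fun w hw => ?_⟩
  set p := x - Complex.I • y with hpd
  set q := x + Complex.I • y with hqd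
  have i1 : Integrable (fun s : UnitAddCircle => fourier (-k) s • L.U w (L.ρ s f))
      AddCircle.haarAddCircle := by
    have := (L.U w).integrable_comp (L.integrable_int (-k) f)
    simpa using this
  have i2 := L.integrable_int (-k) f
  have i3 : Integrable (fun s : UnitAddCircle => w • fourier (-(k + 1)) s • L.ρ s p)
      AddCircle.haarAddCircle := (L.integrable_int (-(k + 1)) p).smul w
  have i4 : Integrable (fun s : UnitAddCircle => conj w • fourier (-(k - 1)) s • L.ρ s q)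
      AddCircle.haarAddCircle := (L.integrable_int (-(k - 1)) q).smul (conj w)
  have i5 : Integrable (fun s : UnitAddCircle => (1 / 2 : ℂ) •
      (w • fourier (-(k + 1)) s • L.ρ s p + conj w • fourier (-(k - 1)) s • L.ρ s q))
      AddCircle.haarAddCircle := (i3.add i4).smul (1 / 2 : ℂ)
  have i6 : Integrable (fun s : UnitAddCircle => fourier (-k) s • L.U w (L.ρ s f)
      - fourier (-k) s • L.ρ s f) AddCircle.haarAddCircle := i1.sub i2
  have e : L.U w (L.P k f) - L.P k f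
      - (1 / 2 : ℂ) • (w • L.P (k + 1) p + conj w • L.P (k - 1) q) =
      ∫ s, fourier (-k) s • L.ρ s (L.U (w * conj (vel s)) f - f - Dv x y (w * conj (vel s)))
        ∂AddCircle.haarAddCircle := by
    rw [L.clm_P, L.P_apply k, L.P_apply (k + 1), L.P_apply (k - 1), ← integral_smul,
      ← integral_smul, ← integral_add i3 i4, ← integral_smul, ← integral_sub i1 i2,
      ← integral_sub i6 i5]
    congr 1
    ext s
    have e1 : fourier (-(k + 1)) s = fourier (-k) s * conj (vel s) := by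
      rw [vel_eq_fourier, ← fourier_neg, ← fourier_add]; congr 2; ring
    have e2 : fourier (-(k - 1)) s = fourier (-k) s * vel s := by
      rw [vel_eq_fourier, ← fourier_add]; congr 2; ring
    rw [e1, e2, Dv_eq, ← hpd, ← hqd]
    clear_value p q
    simp only [map_sub, map_smul, map_add, map_mul, Complex.conj_conj, ← L.U_ρ]
    module
  have b1 : ‖L.U w (L.P k f) - L.P k f
      - (1 / 2 : ℂ) • (w • L.P (k + 1) p + conj w • L.P (k - 1) q)‖ ≤ c * ‖w‖ := by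
    rw [e]
    have := norm_integral_le_of_norm_le_const (μ := AddCircle.haarAddCircle) (C := c * ‖w‖)
      (f := fun s : UnitAddCircle => fourier (-k) s •
        L.ρ s (L.U (w * conj (vel s)) f - f - Dv x y (w * conj (vel s))))
      (Eventually.of_forall fun s => by
        have n1 : ‖w * conj (vel s)‖ = ‖w‖ := by
          rw [norm_mul, RCLike.norm_conj, norm_vel, mul_one]
        rw [norm_smul, norm_fourier_apply, L.norm_ρ, one_mul, ← n1]
        exact hd _ (by rw [n1]; exact hw))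
    simpa using this
  have b2 : ‖(1 / 2 : ℂ) • (w • L.P (k + 1) p + conj w • L.P (k - 1) q)‖ ≤ B * ‖w‖ := by
    rw [norm_smul]
    have : ‖w • L.P (k + 1) p + conj w • L.P (k - 1) q‖ ≤ ‖w‖ * B + ‖w‖ * B := by
      refine (norm_add_le _ _).trans ?_
      rw [norm_smul, norm_smul, RCLike.norm_conj]
      gcongr
    have h12 : ‖(1 / 2 : ℂ)‖ = 1 / 2 := by simp
    rw [h12]; linarith
  have := norm_add_le (L.U w (L.P k f) - L.P k f
      - (1 / 2 : ℂ) • (w • L.P (k + 1) p + conj w • L.P (k - 1) q))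
      ((1 / 2 : ℂ) • (w • L.P (k + 1) p + conj w • L.P (k - 1) q))
  rw [sub_add_cancel] at this
  linarith

omit [CompleteSpace H] in
theorem chain {r : ℝ} {φ : H} (hφ : L.N r φ = 0) {v : ℂ} (hv : 2 * ‖v‖ ≤ r) (g : H)
    (n : ℕ) : ‖⟪φ, L.U v g - g⟫_ℂ‖ ≤
      ((n : ℝ) + 1) * (‖φ‖ * ‖L.U (((n : ℂ) + 1)⁻¹ * v) g - g‖) := by
  set w := ((n : ℂ) + 1)⁻¹ * v with hw
  have hn : ((n : ℂ) + 1) ≠ 0 := by exact_mod_cast Nat.succ_ne_zero n
  have nw : ((n : ℝ) + 1) * ‖w‖ = ‖v‖ := by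
    rw [hw, norm_mul, norm_inv]
    have : ‖(n : ℂ) + 1‖ = (n : ℝ) + 1 := by exact_mod_cast Complex.norm_natCast (n + 1)
    rw [this]; field_simp
  have hind : ∀ j : ℕ, j ≤ n + 1 →
      ‖⟪L.U (-((j : ℂ) * w)) φ - φ, g⟫_ℂ‖ ≤ (j : ℝ) * (‖φ‖ * ‖L.U w g - g‖) := by
    intro j
    induction j with
    | zero => intro _; simp [L.U_zero]
    | succ j ih =>
      intro hj
      have hj' : (j : ℝ) ≤ n := by exact_mod_cast Nat.le_of_succ_le_succ hj
      have nj : ‖-((j : ℂ) * w)‖ = j * ‖w‖ := by simp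
      have hw0 := norm_nonneg w
      have hn0 : (0 : ℝ) ≤ n := n.cast_nonneg
      have nψ := L.N_U r (-((j : ℂ) * w)) φ hφ
      have e1 : L.U (-(((j + 1 : ℕ) : ℂ) * w)) φ = L.U (-w) (L.U (-((j : ℂ) * w)) φ) := by
        rw [L.U_add r _ _ φ hφ (by rw [nj, norm_neg]; nlinarith)]
        congr 2; push_cast; ring
      have e2 : ⟪L.U (-(((j + 1 : ℕ) : ℂ) * w)) φ - φ, g⟫_ℂ =
          ⟪L.U (-((j : ℂ) * w)) φ, L.U w g - g⟫_ℂ + ⟪L.U (-((j : ℂ) * w)) φ - φ, g⟫_ℂ := by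
        rw [e1, inner_sub_right, inner_U_right nψ g w (by rw [nj]; nlinarith), inner_sub_left,
          inner_sub_left]
        ring
      rw [e2]
      refine (norm_add_le _ _).trans ?_
      have b1 := norm_inner_le_norm (𝕜 := ℂ) (L.U (-((j : ℂ) * w)) φ) (L.U w g - g)
      rw [L.norm_U] at b1
      have b2 := ih (by omega)
      push_cast
      linarith
  have := hind (n + 1) le_rfl
  have e3 : ((n + 1 : ℕ) : ℂ) * w = v := by
    rw [hw]; push_cast; field_simp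
  rw [e3, inner_sub_left, ← inner_U_right hφ g v hv, ← inner_sub_right] at this
  exact_mod_cast this

/-- Second conclusion: local invariance under the plane action. -/
theorem U_invariant {u : H} (hu : L.Approx u) (hW1 : ∀ t a, L.W t a = a) {r : ℝ} {φ : H}
    (hφ : L.N r φ = 0) {v : ℂ} (hv : 2 * ‖v‖ ≤ r) : ⟪φ, L.U v u - u⟫_ℂ = 0 := by
  let Λ : H →L[ℂ] ℂ := (innerSL ℂ φ).comp (L.U v - ContinuousLinearMap.id ℂ H)
  have hΛ : ∀ a, Λ a = ⟪φ, L.U v a - a⟫_ℂ := fun a => rfl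
  rw [← hΛ]
  refine L.toCircleRep.eq_zero_of_P Λ u fun k => ?_
  have hb : ∀ κ : ℝ, 0 < κ → κ ≤ 1 →
      ‖Λ (L.P k u)‖ ≤ (‖φ‖ * (4 * ‖v‖) + ‖Λ.comp (L.P k)‖) * κ := by
    intro κ hκ hκ1
    obtain ⟨r', hr', f, x, y, l, nf, df, dW, b1, b2, b3, b4⟩ :=
      L.approx_seq hu one_pos (κ ^ 2) (by positivity)
    have b4' := b4 hW1
    rw [hW1, sub_self, smul_zero, sub_zero] at b3
    have kk := key_smooth hr' nf df dW k
    have bl : ‖L.P k l‖ ≤ κ ^ 2 := by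
      have := L.toCircleRep.norm_P0_le k l
      rw [one_mul] at this
      exact le_trans this b3
    have bl2 : ‖L.P k l‖ ^ 2 ≤ κ ^ 2 := by
      have h1 : κ ^ 2 ≤ 1 := by nlinarith
      calc _ ≤ (κ ^ 2) ^ 2 := by gcongr
        _ ≤ κ ^ 2 := by nlinarith [sq_nonneg κ]
    have hp : ‖L.P (k + 1) (x - Complex.I • y)‖ ≤ 3 * κ :=
      (pow_le_pow_iff_left₀ (norm_nonneg _) (by positivity) two_ne_zero).1 (by nlinarith [kk.1])
    have hq : ‖L.P (k - 1) (x + Complex.I • y)‖ ≤ 3 * κ :=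
      (pow_le_pow_iff_left₀ (norm_nonneg _) (by positivity) two_ne_zero).1 (by nlinarith [kk.2])
    obtain ⟨δ, hδ, hd⟩ := L.norm_U_P_sub_le df k hp hq κ hκ
    obtain ⟨n, hn⟩ := exists_nat_gt (‖v‖ / δ)
    have hn1 : ‖(n : ℂ) + 1‖ = (n : ℝ) + 1 := by exact_mod_cast Complex.norm_natCast (n + 1)
    have nw : ‖((n : ℂ) + 1)⁻¹ * v‖ = ((n : ℝ) + 1)⁻¹ * ‖v‖ := by
      rw [norm_mul, norm_inv, hn1]
    have hw : ‖((n : ℂ) + 1)⁻¹ * v‖ < δ := by
      rw [nw, inv_mul_lt_iff₀ (by positivity)]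
      rw [div_lt_iff₀ hδ] at hn
      nlinarith
    have c1 := L.chain hφ hv (L.P k f) n
    have c2 := hd _ hw
    have c3 : ‖Λ (L.P k f)‖ ≤ ‖φ‖ * (4 * ‖v‖) * κ := by
      rw [hΛ]
      refine c1.trans ?_
      calc _ ≤ ((n : ℝ) + 1) * (‖φ‖ * ((3 * κ + κ) * ‖((n : ℂ) + 1)⁻¹ * v‖)) := by gcongr
        _ = _ := by rw [nw]; field_simp; ring
    have c4 : ‖Λ (L.P k u) - Λ (L.P k f)‖ ≤ ‖Λ.comp (L.P k)‖ * κ := by
      have := (Λ.comp (L.P k)).le_opNorm (u - f)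
      rw [map_sub] at this
      refine le_trans this ?_
      gcongr
      rw [norm_sub_rev]
      nlinarith
    have c5 := norm_add_le (Λ (L.P k u) - Λ (L.P k f)) (Λ (L.P k f))
    rw [sub_add_cancel] at c5
    linarith
  rw [← norm_le_zero_iff]
  refine le_of_forall_pos_le_add fun c hc => ?_
  set K := ‖φ‖ * (4 * ‖v‖) + ‖Λ.comp (L.P k)‖ with hK
  have hK0 : 0 ≤ K := by positivity
  have := hb (min 1 (c / (K + 1))) (by positivity) (min_le_left _ _)
  refine this.trans ?_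
  calc K * min 1 (c / (K + 1)) ≤ (K + 1) * (c / (K + 1)) := by
        gcongr
        · linarith
        · exact min_le_right _ _
    _ = 0 + c := by field_simp; ring

end LocalRep

end Vale.Agent.P099
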