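import Vale.Agent.P099.Defs

/-!
A triangle described by three unit inner normals, and the local dynamics on its double.
-/

open MeasureTheory Set Filter Topology ComplexConjugate

noncomputable section

namespace Vale.Agent.P099

/-- signed distance to the line with unit normal `n` and offset `c`. -/
def ell (n : ℂ) (c : ℝ) (x : ℂ) : ℝ := (conj n * x).re - c

structure Tbl where
  n : Fin 3 → ℂ
  c : Fin 3 → ℝ
  a : Fin 3 → UnitAddCircle
  K : ℝ
  norm_n : ∀ i, ‖n i‖ = 1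
  vel_a : ∀ i, vel (a i) = -(n i) ^ 2
  K_pos : 0 < K
  corner : ∀ i, ∃ x₀ : ℂ, ∀ (x : ℂ) (r : ℝ), |ell (n (i + 1)) (c (i + 1)) x| ≤ r →
    |ell (n (i + 2)) (c (i + 2)) x| ≤ r → ‖x - x₀‖ ≤ K * r
  bdd : Bornology.IsBounded {x : ℂ | ∀ i, 0 ≤ ell (n i) (c i) x}
  mid : ∀ i, ∃ x₀ : ℂ, ell (n i) (c i) x₀ = 0 ∧ ∀ j, j ≠ i → 0 < ell (n j) (c j) x₀

namespace Tbl

variable (B : Tbl)

/-- signed distance to side `i`, positive inside. -/
def l (i : Fin 3) (x : ℂ) : ℝ := ell (B.n i) (B.c i) x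

/-- the open triangle -/
def Q : Set ℂ := {x | ∀ i, 0 < B.l i x}

/-- reflection of the plane in side `i` -/
def mirror (i : Fin 3) (x : ℂ) : ℂ := x - 2 * (B.l i x : ℂ) * B.n i

/-- normalized phase space measure -/
def muZ : Measure Phase :=
  ((volume B.Q)⁻¹ • volume.restrict B.Q).prod AddCircle.haarAddCircle

/-- the data `B` describe the triangle with vertices `p` -/
structure Fits (p : Fin 3 → ℂ) : Prop where
  table_eq : table p = B.Q
  mem_side : ∀ i y, B.l i y = 0 → (∀ j, j ≠ i → 0 < B.l j y) → y ∈ side p i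
  of_mem_side : ∀ i y, y ∈ side p i → B.l i y = 0
  reflect_eq : ∀ i θ, reflectDir p i θ = B.a i - θ

/-- the double: a sheet and a phase point -/
abbrev Dbl : Type := Bool × Phase

def muD : Measure Dbl := (Measure.count : Measure Bool).prod B.muZ

def shift (v : ℂ) (ω : Dbl) : Dbl :=
  (ω.1, (ω.2.1 + (if ω.1 then v else conj v) * vel ω.2.2, ω.2.2))

def refl (i : Fin 3) (ω : Dbl) : Dbl := (!ω.1, (B.mirror i ω.2.1, B.a i - ω.2.2))

def needs (i : Fin 3) (ω : Dbl) : Prop :=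
  B.l i ω.2.1 < 0 ∨ (B.l i ω.2.1 = 0 ∧ ω.1 = false)

open Classical in
def fold (ω : Dbl) : Dbl :=
  if B.needs 0 ω then B.refl 0 ω else if B.needs 1 ω then B.refl 1 ω
  else if B.needs 2 ω then B.refl 2 ω else ω

/-- second smallest distance to a side -/
def d2 (x : ℂ) : ℝ :=
  min (max (B.l 1 x) (B.l 2 x)) (min (max (B.l 2 x) (B.l 0 x)) (max (B.l 0 x) (B.l 1 x)))

open Classical in
def d (ω : Dbl) : ℝ := if ∀ i, ¬ B.needs i ω then B.d2 ω.2.1 else 0

def rot (s : UnitAddCircle) (ω : Dbl) : Dbl :=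
  (ω.1, (ω.2.1, ω.2.2 + (if ω.1 then s else -s)))

def T0 (v : ℂ) (ω : Dbl) : Dbl := B.fold (shift v ω)

open Classical in
def T (v : ℂ) (ω : Dbl) : Dbl :=
  if 2 * ‖v‖ < B.d ω ∧ 2 * ‖v‖ < B.d (B.T0 v ω) then B.T0 v ω
  else rot ((1 / 2 : ℝ) : UnitAddCircle) ω

end Tbl

end Vale.Agent.P099
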