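import Vale.Agent.P099.Tbl
import Vale.Agent.P099.Modes

/-!
Local geometry of folding.
-/

open MeasureTheory Set Filter Topology ComplexConjugate

noncomputable section

namespace Vale.Agent.P099

namespace Tbl

variable (B : Tbl)

theorem conj_n_mul (i : Fin 3) : conj (B.n i) * B.n i = 1 := by
  rw [Complex.conj_mul', B.norm_n]; simp

theorem l_add (i : Fin 3) (x w : ℂ) : B.l i (x + w) = B.l i x + (conj (B.n i) * w).re := by
  simp only [l, ell, mul_add, Complex.add_re]; ring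

theorem abs_re_le (i : Fin 3) (w : ℂ) : |(conj (B.n i) * w).re| ≤ ‖w‖ := by
  refine (Complex.abs_re_le_norm _).trans ?_
  rw [norm_mul, RCLike.norm_conj, B.norm_n, one_mul]

theorem l_lip (i : Fin 3) (x y : ℂ) : |B.l i x - B.l i y| ≤ ‖x - y‖ := by
  have := B.l_add i y (x - y)
  rw [add_sub_cancel] at this
  rw [this, add_sub_cancel_left]
  exact B.abs_re_le i _

theorem continuous_l (i : Fin 3) : Continuous (B.l i) := by
  unfold l ell
  fun_prop

theorem l_add_n (i : Fin 3) (x : ℂ) (t : ℝ) : B.l i (x + t * B.n i) = B.l i x + t := by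
  rw [l_add, mul_left_comm, conj_n_mul]; simp

theorem l_mirror (i : Fin 3) (x : ℂ) : B.l i (B.mirror i x) = -B.l i x := by
  have : B.mirror i x = x + ((-2 * B.l i x : ℝ) : ℂ) * B.n i := by
    unfold mirror; push_cast; ring
  rw [this, l_add_n]; ring

theorem mirror_mirror (i : Fin 3) (x : ℂ) : B.mirror i (B.mirror i x) = x := by
  have := B.l_mirror i x
  conv_lhs => unfold mirror
  unfold mirror at this
  rw [this]; push_cast; ring

theorem two_re (z : ℂ) : 2 * (z.re : ℂ) = z + conj z := by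
  rw [Complex.add_conj]; push_cast; ring

theorem mirror_add (i : Fin 3) (x w : ℂ) :
    B.mirror i (x + w) = B.mirror i x + vel (B.a i) * conj w := by
  unfold mirror
  rw [l_add, B.vel_a]
  push_cast
  have h1 := two_re (conj (B.n i) * w)
  have h2 := B.conj_n_mul i
  rw [map_mul, Complex.conj_conj] at h1
  linear_combination (-B.n i) * h1 - w * h2

theorem mirror_eq (i : Fin 3) (x : ℂ) :
    B.mirror i x = vel (B.a i) * conj x + B.mirror i 0 := by
  have := B.mirror_add i 0 x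
  rw [zero_add] at this
  rw [this, add_comm]

theorem norm_mirror_le (i : Fin 3) {x y : ℂ} (hx : 0 ≤ B.l i x) (hy : B.l i y ≤ 0) :
    ‖B.mirror i y - x‖ ≤ ‖y - x‖ := by
  have h1 : B.l i y = B.l i x + (conj (B.n i) * (y - x)).re := by
    rw [← l_add, add_sub_cancel]
  have e : B.mirror i y - x = (y - x) - ((2 * B.l i y : ℝ) : ℂ) * B.n i := by
    unfold mirror; push_cast; ring
  refine (pow_le_pow_iff_left₀ (norm_nonneg _) (norm_nonneg _) two_ne_zero).1 ?_
  rw [e, Complex.sq_norm, Complex.sq_norm, Complex.normSq_sub, Complex.normSq_mul,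
    Complex.normSq_ofReal, Complex.normSq_eq_norm_sq (B.n i), B.norm_n]
  have e2 : ((y - x) * conj (((2 * B.l i y : ℝ) : ℂ) * B.n i)).re =
      2 * B.l i y * (B.l i y - B.l i x) := by
    rw [map_mul, Complex.conj_ofReal, mul_left_comm, Complex.re_ofReal_mul, mul_comm (y - x)]
    rw [h1]; ring
  rw [e2]
  nlinarith [mul_nonneg hx (neg_nonneg.2 hy)]

theorem fin3 (j : Fin 3) : j = 0 ∨ j = 1 ∨ j = 2 := by
  fin_cases j <;> simp

theorem exists_special {ρ : ℝ} {x : ℂ} (h : ρ < B.d2 x) : ∃ i, ∀ j, j ≠ i → ρ < B.l j x := by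
  unfold d2 at h
  simp only [lt_min_iff, lt_max_iff] at h
  obtain ⟨h1, h2, h3⟩ := h
  by_cases a0 : ρ < B.l 0 x
  · rcases h1 with h1 | h1
    · refine ⟨2, fun j hj => ?_⟩
      rcases fin3 j with rfl | rfl | rfl
      exacts [a0, h1, absurd rfl hj]
    · refine ⟨1, fun j hj => ?_⟩
      rcases fin3 j with rfl | rfl | rfl
      exacts [a0, absurd rfl hj, h1]
  · refine ⟨0, fun j hj => ?_⟩
    rcases fin3 j with rfl | rfl | rfl
    exacts [absurd rfl hj, h3.resolve_left a0, h2.resolve_right a0]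

theorem lt_d2_of {ρ : ℝ} {x : ℂ} {i : Fin 3} (h : ∀ j, j ≠ i → ρ < B.l j x) : ρ < B.d2 x := by
  unfold d2
  simp only [lt_min_iff, lt_max_iff]
  rcases fin3 i with rfl | rfl | rfl
  · have h1 := h 1 (by decide)
    have h2 := h 2 (by decide)
    tauto
  · have h1 := h 0 (by decide)
    have h2 := h 2 (by decide)
    tauto
  · have h1 := h 0 (by decide)
    have h2 := h 1 (by decide)
    tauto

theorem d2_le (x y : ℂ) : B.d2 x ≤ B.d2 y + ‖x - y‖ := by
  by_contra h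
  push Not at h
  obtain ⟨i, hi⟩ := B.exists_special h
  have : B.d2 y < B.d2 y := B.lt_d2_of (i := i) fun j hj => by
    have := hi j hj
    have := (abs_le.1 (B.l_lip j x y)).2
    linarith
  exact lt_irrefl _ this

theorem d2_lip (x y : ℂ) : |B.d2 x - B.d2 y| ≤ ‖x - y‖ := by
  have h1 := B.d2_le x y
  have h2 := B.d2_le y x
  rw [norm_sub_rev] at h2
  rw [abs_le]; constructor <;> linarith

theorem continuous_d2 : Continuous B.d2 := by
  unfold d2
  have := B.continuous_l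
  fun_prop

/-- canonical points of the double -/
def canon (ω : Dbl) : Prop := ∀ i, ¬ B.needs i ω

theorem canon.nonneg {B : Tbl} {ω : Dbl} (h : B.canon ω) (i : Fin 3) : 0 ≤ B.l i ω.2.1 :=
  not_lt.1 fun h1 => h i (Or.inl h1)

theorem not_needs_of_pos {i : Fin 3} {ω : Dbl} (h : 0 < B.l i ω.2.1) : ¬ B.needs i ω := by
  rintro (h1 | h1) <;> linarith [h1]

theorem canon_of_mem {ω : Dbl} (h : ω.2.1 ∈ B.Q) : B.canon ω :=
  fun i => B.not_needs_of_pos (h i)

theorem d_of_canon {ω : Dbl} (h : B.canon ω) : B.d ω = B.d2 ω.2.1 := by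
  unfold d; exact if_pos h

theorem canon_of_d_pos {ω : Dbl} (h : 0 < B.d ω) : B.canon ω := by
  by_contra h1
  unfold d at h
  rw [if_neg (show ¬ ∀ i, ¬ B.needs i ω from h1)] at h
  exact lt_irrefl _ h

theorem fold_of_canon {ω : Dbl} (h : B.canon ω) : B.fold ω = ω := by
  unfold fold
  rw [if_neg (h 0), if_neg (h 1), if_neg (h 2)]

open Classical in
/-- folding in one side only -/
def foldi (i : Fin 3) (ω : Dbl) : Dbl := if B.needs i ω then B.refl i ω else ω

theorem fold_eq_foldi {i : Fin 3} {ω : Dbl} (h : ∀ j, j ≠ i → ¬ B.needs j ω) :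
    B.fold ω = B.foldi i ω := by
  unfold fold foldi
  rcases fin3 i with rfl | rfl | rfl
  · rw [if_neg (h 1 (by decide)), if_neg (h 2 (by decide))]
  · rw [if_neg (h 0 (by decide)), if_neg (h 2 (by decide))]
  · rw [if_neg (h 0 (by decide)), if_neg (h 1 (by decide))]

theorem refl_refl (i : Fin 3) (ω : Dbl) : B.refl i (B.refl i ω) = ω := by
  obtain ⟨σ, x, θ⟩ := ω
  simp [refl, mirror_mirror]

theorem needs_refl (i : Fin 3) (ω : Dbl) : B.needs i (B.refl i ω) ↔ ¬ B.needs i ω := by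
  obtain ⟨σ, x, θ⟩ := ω
  simp only [needs, refl, l_mirror]
  rcases lt_trichotomy (B.l i x) 0 with h | h | h
  · simp [h, h.le, h.ne]
  · cases σ <;> simp [h]
  · simp [h, h.ne', h.not_gt]

theorem foldi_refl (i : Fin 3) (ω : Dbl) : B.foldi i (B.refl i ω) = B.foldi i ω := by
  unfold foldi
  by_cases h : B.needs i ω
  · rw [if_neg (by rw [needs_refl]; exact not_not.2 h), if_pos h]
  · rw [if_pos ((B.needs_refl i ω).2 h), if_neg h, refl_refl]

theorem refl_shift (i : Fin 3) (v : ℂ) (ω : Dbl) :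
    B.refl i (shift v ω) = shift v (B.refl i ω) := by
  obtain ⟨σ, x, θ⟩ := ω
  have e : vel (B.a i - θ) = vel (B.a i) * conj (vel θ) := by
    rw [sub_eq_add_neg, vel_add, vel_neg]
  cases σ <;> simp only [refl, shift, mirror_add, e] <;> simp <;> ring

theorem shift_shift (v w : ℂ) (ω : Dbl) : shift v (shift w ω) = shift (v + w) ω := by
  obtain ⟨σ, x, θ⟩ := ω
  cases σ <;> simp [shift] <;> ring

theorem shift_zero (ω : Dbl) : shift 0 ω = ω := by
  obtain ⟨σ, x, θ⟩ := ω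
  cases σ <;> simp [shift]

theorem norm_shift (v : ℂ) (ω : Dbl) : ‖(shift v ω).2.1 - ω.2.1‖ = ‖v‖ := by
  obtain ⟨σ, x, θ⟩ := ω
  cases σ <;> simp [shift, norm_vel]

theorem local_fold {x : ℂ} {ρ : ℝ} {i : Fin 3} (hx : 0 ≤ B.l i x)
    (hi : ∀ j, j ≠ i → ρ < B.l j x) (ω : Dbl) (h : ‖ω.2.1 - x‖ ≤ ρ) :
    B.fold ω = B.foldi i ω ∧ B.canon (B.foldi i ω) ∧ ‖(B.foldi i ω).2.1 - x‖ ≤ ‖ω.2.1 - x‖ := by
  have pos : ∀ y : ℂ, ‖y - x‖ ≤ ρ → ∀ j, j ≠ i → 0 < B.l j y := fun y hy j hj => by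
    have := hi j hj
    have := (abs_le.1 (B.l_lip j y x)).1
    linarith
  have h3 : ‖(B.foldi i ω).2.1 - x‖ ≤ ‖ω.2.1 - x‖ := by
    unfold foldi
    by_cases hn : B.needs i ω
    · rw [if_pos hn]
      refine B.norm_mirror_le i hx ?_
      rcases hn with h1 | h1
      · exact h1.le
      · exact h1.1.le
    · rw [if_neg hn]
  refine ⟨B.fold_eq_foldi fun j hj => B.not_needs_of_pos (pos _ h j hj), fun j => ?_, h3⟩
  by_cases hj : j = i
  · subst hj
    unfold foldi
    by_cases hn : B.needs j ω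
    · rw [if_pos hn, needs_refl]; exact not_not.2 hn
    · rw [if_neg hn]; exact hn
  · exact B.not_needs_of_pos (pos _ (h3.trans h) j hj)

theorem T0_spec {v : ℂ} {ω : Dbl} (h : ‖v‖ < B.d ω) :
    B.canon (B.T0 v ω) ∧ ‖(B.T0 v ω).2.1 - ω.2.1‖ ≤ ‖v‖ := by
  have hc := B.canon_of_d_pos ((norm_nonneg v).trans_lt h)
  rw [B.d_of_canon hc] at h
  obtain ⟨i, hi⟩ := B.exists_special h
  obtain ⟨h1, h2, h3⟩ := B.local_fold (hc.nonneg i) hi (shift v ω) (norm_shift v ω).le
  unfold T0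
  rw [h1]
  exact ⟨h2, h3.trans (norm_shift v ω).le⟩

theorem d_T0 {v : ℂ} {ω : Dbl} (h : ‖v‖ < B.d ω) : |B.d (B.T0 v ω) - B.d ω| ≤ ‖v‖ := by
  have hc := B.canon_of_d_pos ((norm_nonneg v).trans_lt h)
  obtain ⟨h1, h2⟩ := B.T0_spec h
  rw [B.d_of_canon h1, B.d_of_canon hc]
  exact (B.d2_lip _ _).trans h2

theorem T0_add {v w : ℂ} {ω : Dbl} (h : ‖v‖ + ‖w‖ < B.d ω) :
    B.T0 v (B.T0 w ω) = B.T0 (v + w) ω := by
  have hv := norm_nonneg v
  have hw := norm_nonneg w
  have hc := B.canon_of_d_pos (by linarith : 0 < B.d ω)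
  rw [B.d_of_canon hc] at h
  obtain ⟨i, hi⟩ := B.exists_special h
  obtain ⟨h1, -, h3⟩ := B.local_fold (hc.nonneg i) hi (shift w ω)
    (by rw [norm_shift]; linarith)
  rw [norm_shift] at h3
  obtain ⟨h4, -, -⟩ := B.local_fold (hc.nonneg i) hi (shift v (B.foldi i (shift w ω))) (by
    have := norm_add_le ((shift v (B.foldi i (shift w ω))).2.1 - (B.foldi i (shift w ω)).2.1)
      ((B.foldi i (shift w ω)).2.1 - ω.2.1)
    rw [sub_add_sub_cancel, norm_shift] at this
    linarith)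
  obtain ⟨h5, -, -⟩ := B.local_fold (hc.nonneg i) hi (shift (v + w) ω)
    (by rw [norm_shift]; exact norm_add_le v w)
  unfold T0
  rw [h1, h4, h5]
  by_cases hn : B.needs i (shift w ω)
  · have : B.foldi i (shift w ω) = B.refl i (shift w ω) := by unfold foldi; rw [if_pos hn]
    rw [this, ← refl_shift, shift_shift, foldi_refl]
  · have : B.foldi i (shift w ω) = shift w ω := by unfold foldi; rw [if_neg hn]
    rw [this, shift_shift]

theorem T0_zero {ω : Dbl} (h : B.canon ω) : B.T0 0 ω = ω := by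
  unfold T0; rw [shift_zero, B.fold_of_canon h]

theorem rot_zero (ω : Dbl) : rot 0 ω = ω := by
  obtain ⟨σ, x, θ⟩ := ω
  cases σ <;> simp [rot]

theorem rot_add (s t : UnitAddCircle) (ω : Dbl) : rot (s + t) ω = rot s (rot t ω) := by
  obtain ⟨σ, x, θ⟩ := ω
  cases σ <;> simp [rot] <;> abel

theorem needs_rot (i : Fin 3) (s : UnitAddCircle) (ω : Dbl) :
    B.needs i (rot s ω) ↔ B.needs i ω := Iff.rfl

theorem d_rot (s : UnitAddCircle) (ω : Dbl) : B.d (rot s ω) = B.d ω := rfl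

theorem refl_rot (i : Fin 3) (s : UnitAddCircle) (ω : Dbl) :
    B.refl i (rot s ω) = rot s (B.refl i ω) := by
  obtain ⟨σ, x, θ⟩ := ω
  cases σ <;> simp [rot, refl] <;> abel

theorem fold_rot (s : UnitAddCircle) (ω : Dbl) : B.fold (rot s ω) = rot s (B.fold ω) := by
  unfold fold
  by_cases h0 : B.needs 0 ω
  · rw [if_pos h0, if_pos ((B.needs_rot 0 s ω).2 h0), refl_rot]
  rw [if_neg h0, if_neg (mt (B.needs_rot 0 s ω).1 h0)]
  by_cases h1 : B.needs 1 ω
  · rw [if_pos h1, if_pos ((B.needs_rot 1 s ω).2 h1), refl_rot]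
  rw [if_neg h1, if_neg (mt (B.needs_rot 1 s ω).1 h1)]
  by_cases h2 : B.needs 2 ω
  · rw [if_pos h2, if_pos ((B.needs_rot 2 s ω).2 h2), refl_rot]
  rw [if_neg h2, if_neg (mt (B.needs_rot 2 s ω).1 h2)]

theorem shift_rot (v : ℂ) (s : UnitAddCircle) (ω : Dbl) :
    shift v (rot s ω) = rot s (shift (v * vel s) ω) := by
  obtain ⟨σ, x, θ⟩ := ω
  cases σ <;> simp [rot, shift, vel_add, vel_neg] <;> ring

theorem T0_rot (v : ℂ) (s : UnitAddCircle) (ω : Dbl) :
    B.T0 v (rot s ω) = rot s (B.T0 (v * vel s) ω) := by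
  unfold T0; rw [shift_rot, fold_rot]

theorem T_eq_T0 {v : ℂ} {ω : Dbl} (h : 3 * ‖v‖ < B.d ω) : B.T v ω = B.T0 v ω := by
  have hv := norm_nonneg v
  have := (abs_le.1 (B.d_T0 (by linarith : ‖v‖ < B.d ω))).1
  unfold T
  rw [if_pos ⟨by linarith, by linarith⟩]

theorem d_T (v : ℂ) (ω : Dbl) : |B.d (B.T v ω) - B.d ω| ≤ ‖v‖ := by
  have hv := norm_nonneg v
  unfold T
  split_ifs with h
  · exact B.d_T0 (by linarith [h.1])
  · rw [d_rot, sub_self, abs_zero]; exact hv

theorem T_add (v w : ℂ) (ω : Dbl) (h : 3 * (‖v‖ + ‖w‖) < B.d ω) :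
    B.T v (B.T w ω) = B.T (v + w) ω := by
  have hv := norm_nonneg v
  have hw := norm_nonneg w
  have := (abs_le.1 (B.d_T0 (by linarith : ‖w‖ < B.d ω))).1
  have := norm_add_le v w
  rw [B.T_eq_T0 (by linarith : 3 * ‖w‖ < B.d ω), B.T_eq_T0 (by linarith),
    B.T_eq_T0 (by linarith), B.T0_add (by linarith)]

theorem T_zero (ω : Dbl) (h : 0 < B.d ω) : B.T 0 ω = ω := by
  rw [B.T_eq_T0 (by simpa using h), B.T0_zero (B.canon_of_d_pos h)]

theorem T_rot (v : ℂ) (s : UnitAddCircle) (ω : Dbl) :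
    B.T v (rot s ω) = rot s (B.T (v * vel s) ω) := by
  have n : ‖v * vel s‖ = ‖v‖ := by rw [norm_mul, norm_vel, mul_one]
  unfold T
  rw [T0_rot, d_rot, d_rot, n]
  split_ifs
  · rfl
  · rw [← rot_add, ← rot_add, add_comm]

theorem vel_half : vel ((1 / 2 : ℝ) : UnitAddCircle) = -1 := by
  unfold vel
  rw [AddCircle.toCircle_apply_mk, Circle.coe_exp]
  rw [show ((2 * Real.pi / 1 * (1 / 2) : ℝ) : ℂ) = Real.pi by push_cast; ring]
  exact Complex.exp_pi_mul_I

theorem isOpen_Q : IsOpen B.Q := by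
  have : B.Q = ⋂ i, {x | 0 < B.l i x} := by ext x; simp [Q]
  rw [this]
  exact isOpen_iInter_of_finite fun i => isOpen_lt continuous_const (B.continuous_l i)

theorem l_combo (i : Fin 3) (x y : ℂ) (s t : ℝ) (hst : s + t = 1) :
    B.l i (s • x + t • y) = s * B.l i x + t * B.l i y := by
  simp only [l, ell, Complex.real_smul, mul_add, Complex.add_re]
  rw [mul_left_comm, mul_left_comm (conj (B.n i)) (t : ℂ), Complex.re_ofReal_mul,
    Complex.re_ofReal_mul]
  linear_combination (B.c i) * hst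

theorem convex_Q : Convex ℝ B.Q := by
  intro x hx y hy s t hs ht hst i
  rw [B.l_combo i x y s t hst]
  have h1 := hx i
  have h2 := hy i
  rcases hs.eq_or_lt with rfl | hs'
  · rw [zero_add] at hst; subst hst; simpa using h2
  · positivity

/-- points of the open triangle near a point of the open side -/
theorem exists_near_side (i : Fin 3) : ∃ x₀ : ℂ, ∃ ρ : ℝ, 0 < ρ ∧ B.l i x₀ = 0 ∧
    ∀ j, j ≠ i → ρ < B.l j x₀ := by
  obtain ⟨x₀, h0, h1⟩ := B.mid i
  have h2 : 0 < B.d2 x₀ := B.lt_d2_of (i := i) h1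
  have : ∀ᶠ ρ in 𝓝[>] (0 : ℝ), ∀ j, j ≠ i → ρ < B.l j x₀ := by
    rw [eventually_all]
    intro j
    by_cases hj : j = i
    · simp [hj]
    · have : ∀ᶠ ρ in 𝓝 (0 : ℝ), ρ < B.l j x₀ := gt_mem_nhds (h1 j hj)
      filter_upwards [nhdsWithin_le_nhds this] with ρ hρ _ using hρ
  obtain ⟨ρ, hρ, hρ0⟩ := (this.and self_mem_nhdsWithin).exists
  exact ⟨x₀, ρ, hρ0, h0, hρ⟩

theorem nonempty_Q : B.Q.Nonempty := by
  obtain ⟨x₀, ρ, hρ, h0, h1⟩ := B.exists_near_side 0
  refine ⟨x₀ + ρ * B.n 0, fun j => ?_⟩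
  by_cases hj : j = 0
  · subst hj; rw [l_add_n, h0]; simpa using hρ
  · have := (abs_le.1 (B.l_lip j (x₀ + ρ * B.n 0) x₀)).1
    rw [add_sub_cancel_left, norm_mul, B.norm_n, Complex.norm_real, Real.norm_eq_abs,
      abs_of_pos hρ] at this
    linarith [h1 j hj]

theorem bounded_Q : Bornology.IsBounded B.Q := B.bdd.subset fun _ hx i => (hx i).le

end Tbl

end Vale.Agent.P099
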