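import Vale.Agent.P099.TblLocal

/-!
Measure preservation of the local plane action on the double.
-/

open MeasureTheory Set Filter Topology ComplexConjugate

noncomputable section

namespace Vale.Agent.P099

theorem piecewise_le {α : Type} [MeasurableSpace α] (m : Measure α) {n : ℕ} (f : α → α)
    (g h : Fin n → α → α) (hh : ∀ k, MeasurePreserving (h k) m m)
    (hgh : ∀ k x, g k (h k x) = x) (E : Set α) (hE : MeasurableSet E) (hf : Measurable f)
    (heq : ∀ k, MeasurableSet {x | f x = g k x}) (hcov : ∀ x ∈ E, ∃ k, f x = g k x)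
    (hinj : InjOn f E) (A : Set α) (hA : MeasurableSet A) (X : Set α) (hX : MapsTo f E X) :
    m (E ∩ f ⁻¹' A) ≤ m (A ∩ X) := by
  set S : Fin n → Set α := fun k => E ∩ f ⁻¹' A ∩ {x | f x = g k x} with hS
  have hSm : ∀ k, MeasurableSet (S k) := fun k => (hE.inter (hf hA)).inter (heq k)
  have hDm : ∀ k, MeasurableSet (disjointed S k) := fun k => by
    rw [disjointed_apply]
    refine (hSm k).diff ?_
    rw [Finset.sup_set_eq_biUnion]
    exact Finset.measurableSet_biUnion _ fun j _ => hSm j
  have h1 : E ∩ f ⁻¹' A ⊆ ⋃ k, disjointed S k := by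
    rw [iUnion_disjointed]
    rintro x ⟨hx, hxA⟩
    obtain ⟨k, hk⟩ := hcov x hx
    exact mem_iUnion.2 ⟨k, ⟨hx, hxA⟩, hk⟩
  have h2 : Pairwise (Function.onFun Disjoint fun k => h k ⁻¹' disjointed S k) := by
    intro j k hjk
    rw [Function.onFun, Set.disjoint_left]
    intro x hj hk
    have a1 := disjointed_subset S j hj
    have a2 := disjointed_subset S k hk
    have e : h j x = h k x := hinj a1.1.1 a2.1.1 (by
      rw [show f (h j x) = g j (h j x) from a1.2, show f (h k x) = g k (h k x) from a2.2,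
        hgh, hgh])
    have := disjoint_disjointed S hjk
    rw [Function.onFun, Set.disjoint_left] at this
    exact this hj (by rw [mem_preimage] at hk; rwa [e])
  calc m (E ∩ f ⁻¹' A) ≤ m (⋃ k, disjointed S k) := measure_mono h1
    _ ≤ ∑' k, m (disjointed S k) := measure_iUnion_le _
    _ = ∑' k, m (h k ⁻¹' disjointed S k) := by
        congr 1; ext k; rw [(hh k).measure_preimage (hDm k).nullMeasurableSet]
    _ = m (⋃ k, h k ⁻¹' disjointed S k) :=
        (measure_iUnion h2 fun k => (hh k).measurable (hDm k)).symm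
    _ ≤ m (A ∩ X) := by
        refine measure_mono (iUnion_subset fun k x hx => ?_)
        have a1 := disjointed_subset S k hx
        have e : f (h k x) = x := by rw [show f (h k x) = g k (h k x) from a1.2, hgh]
        exact ⟨by rw [← e]; exact a1.1.2, by rw [← e]; exact hX a1.1.1⟩

theorem measurePreserving_of_le {α : Type} [MeasurableSpace α] (m : Measure α)
    [IsFiniteMeasure m] (f : α → α) (hf : Measurable f)
    (h : ∀ A, MeasurableSet A → m (f ⁻¹' A) ≤ m A) : MeasurePreserving f m m := by
  refine ⟨hf, Measure.ext fun A hA => ?_⟩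
  rw [Measure.map_apply hf hA]
  refine le_antisymm (h A hA) ?_
  have h1 := h Aᶜ hA.compl
  rw [preimage_compl, measure_compl (hf hA) (measure_ne_top _ _),
    measure_compl hA (measure_ne_top _ _)] at h1
  exact (ENNReal.sub_le_sub_iff_left (measure_mono (subset_univ _)) (measure_ne_top _ _)).1 h1

theorem measurePreserving_not :
    MeasurePreserving (fun b : Bool => !b) Measure.count Measure.count := by
  refine measurePreserving_of_le _ _ (measurable_of_countable _) fun A _ => le_of_eq ?_
  have : (fun b : Bool => !b) ⁻¹' A = (fun b : Bool => !b) '' A := by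
    ext b; simp
  rw [this, Measure.count_injective_image Bool.not_injective]

namespace Tbl

variable (B : Tbl)

def m0Z : Measure Phase := (volume : Measure ℂ).prod AddCircle.haarAddCircle

instance : SFinite m0Z := by unfold m0Z; infer_instance

def m0 : Measure Dbl := (Measure.count : Measure Bool).prod m0Z

def QD : Set Dbl := {ω | ω.2.1 ∈ B.Q}

theorem measurableSet_Q : MeasurableSet B.Q := B.isOpen_Q.measurableSet

theorem measurableSet_QD : MeasurableSet B.QD :=
  (measurable_fst.comp measurable_snd) B.measurableSet_Q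

theorem vol_Q_pos : volume B.Q ≠ 0 := (B.isOpen_Q.measure_pos _ B.nonempty_Q).ne'

theorem vol_Q_ne_top : volume B.Q ≠ ⊤ := B.bounded_Q.measure_lt_top.ne

instance : IsProbabilityMeasure ((volume B.Q)⁻¹ • volume.restrict B.Q) :=
  ⟨by simp [ENNReal.inv_mul_cancel B.vol_Q_pos B.vol_Q_ne_top]⟩

instance : IsProbabilityMeasure B.muZ := by unfold muZ; infer_instance

instance : IsFiniteMeasure B.muD := by unfold muD; infer_instance

theorem muZ_eq : B.muZ = (volume B.Q)⁻¹ • m0Z.restrict (B.Q ×ˢ univ) := by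
  unfold muZ m0Z
  rw [Measure.prod_smul_left, Measure.restrict_prod_eq_prod_univ]

theorem muD_eq : B.muD = (volume B.Q)⁻¹ • m0.restrict B.QD := by
  unfold muD m0
  rw [muZ_eq, Measure.prod_smul_right]
  congr 1
  have : B.QD = univ ×ˢ (B.Q ×ˢ univ) := by ext ω; simp [QD]
  rw [this, ← Measure.prod_restrict, Measure.restrict_univ]

theorem muD_apply {S : Set Dbl} (hS : MeasurableSet S) :
    B.muD S = (volume B.Q)⁻¹ * m0 (S ∩ B.QD) := by
  rw [muD_eq, Measure.smul_apply, Measure.restrict_apply hS, smul_eq_mul]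

theorem ae_QD : ∀ᵐ ω ∂B.muD, ω.2.1 ∈ B.Q := by
  rw [muD_eq]
  exact Measure.ae_smul_measure (ae_restrict_mem B.measurableSet_QD) _

theorem ae_Q : ∀ᵐ z ∂B.muZ, z.1 ∈ B.Q := by
  rw [muZ_eq]
  refine Measure.ae_smul_measure ?_ _
  filter_upwards [ae_restrict_mem (B.measurableSet_Q.prod MeasurableSet.univ)] with z hz using hz.1

theorem measurable_vel : Measurable vel := continuous_vel.measurable

theorem continuous_shift (v : ℂ) : Continuous (shift v) := by
  unfold shift
  have h1 : Continuous fun ω : Dbl => (if ω.1 then v else conj v) :=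
    (continuous_of_discreteTopology (f := fun b : Bool => if b then v else conj v)).comp
      continuous_fst
  have := continuous_vel
  fun_prop

theorem continuous_mirror (i : Fin 3) : Continuous (B.mirror i) := by
  unfold mirror
  have := B.continuous_l i
  fun_prop

theorem continuous_refl (i : Fin 3) : Continuous (B.refl i) := by
  unfold refl
  have h1 : Continuous fun ω : Dbl => !ω.1 :=
    (continuous_of_discreteTopology (f := fun b : Bool => !b)).comp continuous_fst
  have := B.continuous_mirror i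
  fun_prop

theorem continuous_rot (s : UnitAddCircle) : Continuous (rot s) := by
  unfold rot
  have h1 : Continuous fun ω : Dbl => (if ω.1 then s else -s) :=
    (continuous_of_discreteTopology (f := fun b : Bool => if b then s else -s)).comp
      continuous_fst
  fun_prop

theorem mp_shiftZ (w : ℂ) :
    MeasurePreserving (fun z : Phase => (z.1 + w * vel z.2, z.2)) m0Z m0Z := by
  have h1 : MeasurePreserving (fun p : UnitAddCircle × ℂ => (id p.1, p.2 + w * vel p.1))
      (AddCircle.haarAddCircle.prod volume) (AddCircle.haarAddCircle.prod volume) :=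
    (MeasurePreserving.id _).skew_product (g := fun θ x => x + w * vel θ)
      (by have := measurable_vel; fun_prop)
      (Eventually.of_forall fun θ => (measurePreserving_add_right volume _).map_eq)
  exact (Measure.measurePreserving_swap.comp h1).comp Measure.measurePreserving_swap

theorem mp_shift (v : ℂ) : MeasurePreserving (shift v) m0 m0 :=
  (MeasurePreserving.id _).skew_product
    (g := fun (σ : Bool) (z : Phase) => (z.1 + (if σ then v else conj v) * vel z.2, z.2))
    (measurable_from_prod_countable_right fun σ =>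
      (mp_shiftZ (if σ then v else conj v)).measurable)
    (Eventually.of_forall fun _ => (mp_shiftZ _).map_eq)

theorem mp_mirror (i : Fin 3) : MeasurePreserving (B.mirror i) volume volume := by
  have h1 := (measurePreserving_add_right volume (B.mirror i 0)).comp
    ((rotation (AddCircle.toCircle (B.a i))).measurePreserving.comp
      Complex.conjLIE.measurePreserving)
  have e : B.mirror i = (fun x => x + B.mirror i 0) ∘
      (rotation (AddCircle.toCircle (B.a i))) ∘ Complex.conjLIE := by
    funext x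
    rw [B.mirror_eq i x]
    rfl
  rw [e]
  exact h1

theorem mp_refl (i : Fin 3) : MeasurePreserving (B.refl i) m0 m0 :=
  measurePreserving_not.prod
    ((B.mp_mirror i).prod (Measure.measurePreserving_sub_left AddCircle.haarAddCircle (B.a i)))

theorem mp_rot (s : UnitAddCircle) : MeasurePreserving (rot s) B.muD B.muD := by
  have h : ∀ t : UnitAddCircle,
      MeasurePreserving (fun z : Phase => (z.1, z.2 + t)) B.muZ B.muZ := fun t =>
    (MeasurePreserving.id _).prod (measurePreserving_add_right AddCircle.haarAddCircle t)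
  exact (MeasurePreserving.id _).skew_product
    (g := fun (σ : Bool) (z : Phase) => (z.1, z.2 + (if σ then s else -s)))
    (measurable_from_prod_countable_right fun σ => (h (if σ then s else -s)).measurable)
    (Eventually.of_forall fun _ => (h _).map_eq)

theorem measurable_lD (i : Fin 3) : Measurable fun ω : Dbl => B.l i ω.2.1 :=
  (B.continuous_l i).measurable.comp (measurable_fst.comp measurable_snd)

theorem measurableSet_needs (i : Fin 3) : MeasurableSet {ω | B.needs i ω} := by
  have h1 := measurableSet_lt (B.measurable_lD i) (measurable_const (a := (0 : ℝ)))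
  have h2 := measurableSet_eq_fun (B.measurable_lD i) (measurable_const (a := (0 : ℝ)))
  have h3 : MeasurableSet {ω : Dbl | ω.1 = false} :=
    measurableSet_eq_fun measurable_fst measurable_const
  exact h1.union (h2.inter h3)

theorem measurable_fold : Measurable B.fold := by
  unfold fold
  exact Measurable.ite (B.measurableSet_needs 0) (B.continuous_refl 0).measurable
    (Measurable.ite (B.measurableSet_needs 1) (B.continuous_refl 1).measurable
      (Measurable.ite (B.measurableSet_needs 2) (B.continuous_refl 2).measurable measurable_id))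

theorem measurable_d : Measurable B.d := by
  unfold d
  refine Measurable.ite ?_
    (B.continuous_d2.measurable.comp (measurable_fst.comp measurable_snd)) measurable_const
  rw [ofPred_forall]
  exact MeasurableSet.iInter fun i => (B.measurableSet_needs i).compl

theorem measurable_T0 (v : ℂ) : Measurable (B.T0 v) :=
  B.measurable_fold.comp (continuous_shift v).measurable

def goodT (v : ℂ) : Set Dbl := {ω | 2 * ‖v‖ < B.d ω ∧ 2 * ‖v‖ < B.d (B.T0 v ω)}

theorem measurableSet_goodT (v : ℂ) : MeasurableSet (B.goodT v) :=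
  (measurableSet_lt measurable_const B.measurable_d).inter
    (measurableSet_lt measurable_const (B.measurable_d.comp (B.measurable_T0 v)))

theorem measurable_T (v : ℂ) : Measurable (B.T v) := by
  unfold T
  exact Measurable.ite (B.measurableSet_goodT v) (B.measurable_T0 v)
    (continuous_rot _).measurable

theorem vol_line (i : Fin 3) : volume {x : ℂ | B.l i x = 0} = 0 := by
  have hconv : Convex ℝ {x : ℂ | B.l i x = 0} := by
    intro x hx y hy s t _ _ hst
    change B.l i _ = 0
    rw [B.l_combo i x y s t hst, show B.l i x = 0 from hx, show B.l i y = 0 from hy]; ring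
  have hcl : IsClosed {x : ℂ | B.l i x = 0} := isClosed_eq (B.continuous_l i) continuous_const
  refine measure_mono_null (fun x hx => ?_) (hconv.addHaar_frontier volume)
  rw [hcl.frontier_eq]
  refine ⟨hx, fun hi => ?_⟩
  rw [mem_interior_iff_mem_nhds, Metric.mem_nhds_iff] at hi
  obtain ⟨ε, hε, hb⟩ := hi
  have : x + ((ε / 2 : ℝ) : ℂ) * B.n i ∈ Metric.ball x ε := by
    rw [mem_ball_iff_norm, add_sub_cancel_left, norm_mul, B.norm_n, Complex.norm_real,
      Real.norm_eq_abs, abs_of_pos (by linarith)]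
    linarith
  have h2 : B.l i _ = 0 := hb this
  rw [l_add_n, show B.l i x = 0 from hx] at h2
  linarith

theorem m0_line (i : Fin 3) : m0 {ω : Dbl | B.l i ω.2.1 = 0} = 0 := by
  have : {ω : Dbl | B.l i ω.2.1 = 0} = univ ×ˢ ({x : ℂ | B.l i x = 0} ×ˢ univ) := by
    ext ω; simp
  rw [this, m0, Measure.prod_prod, m0Z, Measure.prod_prod, vol_line]
  simp

theorem m0_ae_line : ∀ᵐ ω ∂m0, ∀ i, B.l i ω.2.1 ≠ 0 := by
  rw [ae_all_iff]
  intro i
  rw [ae_iff]
  simpa using B.m0_line i

theorem sub_inv (v : ℂ) (A : Set Dbl) (hA : MeasurableSet A) :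
    B.muD ({ω | 2 * ‖v‖ < B.d ω} ∩ B.T0 v ⁻¹' A) ≤ B.muD A := by
  have hv := norm_nonneg v
  have hd : MeasurableSet {ω | 2 * ‖v‖ < B.d ω} := measurableSet_lt measurable_const B.measurable_d
  rw [B.muD_apply (hd.inter (B.measurable_T0 v hA)), B.muD_apply hA]
  refine mul_le_mul_right ?_ _
  let g : Fin 4 → Dbl → Dbl := ![shift v, B.refl 0 ∘ shift v, B.refl 1 ∘ shift v, B.refl 2 ∘ shift v]
  let h : Fin 4 → Dbl → Dbl :=
    ![shift (-v), shift (-v) ∘ B.refl 0, shift (-v) ∘ B.refl 1, shift (-v) ∘ B.refl 2]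
  have ss : ∀ ω, shift v (shift (-v) ω) = ω := fun ω => by
    rw [shift_shift, add_neg_cancel, shift_zero]
  have key := piecewise_le m0 (B.T0 v) g h
    (fun k => by
      fin_cases k
      · exact mp_shift _
      · exact (mp_shift _).comp (B.mp_refl 0)
      · exact (mp_shift _).comp (B.mp_refl 1)
      · exact (mp_shift _).comp (B.mp_refl 2))
    (fun k x => by
      fin_cases k <;> simp [g, h, ss, refl_refl])
    ({ω | 2 * ‖v‖ < B.d ω} ∩ B.QD) (hd.inter B.measurableSet_QD) (B.measurable_T0 v)
    (fun k => by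
      refine measurableSet_eq_fun (B.measurable_T0 v) ?_
      fin_cases k
      · exact (continuous_shift _).measurable
      · exact ((B.continuous_refl 0).comp (continuous_shift _)).measurable
      · exact ((B.continuous_refl 1).comp (continuous_shift _)).measurable
      · exact ((B.continuous_refl 2).comp (continuous_shift _)).measurable)
    (fun ω _ => by
      unfold T0 fold
      split_ifs
      exacts [⟨1, rfl⟩, ⟨2, rfl⟩, ⟨3, rfl⟩, ⟨0, rfl⟩])
    (fun ω hω ω' hω' he => by
      have e : ∀ ω ∈ {ω | 2 * ‖v‖ < B.d ω} ∩ B.QD, B.T0 (-v) (B.T0 v ω) = ω := fun ω hω => by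
        rw [B.T0_add (by rw [norm_neg]; have : 2 * ‖v‖ < B.d ω := hω.1; linarith),
          neg_add_cancel, B.T0_zero (B.canon_of_mem hω.2)]
      rw [← e ω hω, he, e ω' hω'])
    A hA {ω | B.canon ω}
    (fun ω hω => (B.T0_spec (by have : 2 * ‖v‖ < B.d ω := hω.1; linarith)).1)
  refine le_trans (le_of_eq ?_) (key.trans (measure_mono_ae ?_))
  · congr 1; ext ω; simp only [mem_inter_iff]; tauto
  · filter_upwards [B.m0_ae_line] with ω hω h1
    exact ⟨h1.1, fun i => lt_of_le_of_ne (canon.nonneg h1.2 i) (hω i).symm⟩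

theorem mp_T (v : ℂ) : MeasurePreserving (B.T v) B.muD B.muD := by
  have hv := norm_nonneg v
  refine measurePreserving_of_le _ _ (B.measurable_T v) fun A hA => ?_
  set s : UnitAddCircle := ((1 / 2 : ℝ) : UnitAddCircle) with hs
  have hG := B.measurableSet_goodT v
  have hG' := B.measurableSet_goodT (-v)
  have e1 : B.T v ⁻¹' A ∩ B.goodT v ⊆
      {ω | 2 * ‖v‖ < B.d ω} ∩ B.T0 v ⁻¹' (A ∩ B.goodT (-v)) := by
    rintro ω ⟨h1, h2⟩
    have h3 : B.T v ω = B.T0 v ω := by unfold T; exact if_pos h2
    rw [mem_preimage, h3] at h1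
    refine ⟨h2.1, h1, by rw [norm_neg]; exact h2.2, ?_⟩
    rw [B.T0_add (by rw [norm_neg]; linarith [h2.1]), neg_add_cancel,
      B.T0_zero (B.canon_of_d_pos (by linarith [h2.1])), norm_neg]
    exact h2.1
  have e2 : B.T v ⁻¹' A \ B.goodT v ⊆ rot s ⁻¹' (A \ B.goodT (-v)) := by
    rintro ω ⟨h1, h2⟩
    have h3 : B.T v ω = rot s ω := by unfold T; exact if_neg h2
    rw [mem_preimage, h3] at h1
    refine ⟨h1, fun h4 => h2 ?_⟩
    obtain ⟨h5, h6⟩ := h4
    rw [T0_rot, d_rot, hs, vel_half, norm_neg] at h6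
    rw [d_rot, norm_neg] at h5
    exact ⟨h5, by simpa using h6⟩
  calc B.muD (B.T v ⁻¹' A)
      = B.muD (B.T v ⁻¹' A ∩ B.goodT v) + B.muD (B.T v ⁻¹' A \ B.goodT v) :=
        (measure_inter_add_sdiff _ hG).symm
    _ ≤ B.muD (A ∩ B.goodT (-v)) + B.muD (A \ B.goodT (-v)) := by
        refine add_le_add ?_ ?_
        · exact (measure_mono e1).trans (B.sub_inv v _ (hA.inter hG'))
        · refine (measure_mono e2).trans (le_of_eq ?_)
          exact (B.mp_rot s).measure_preimage (hA.diff hG').nullMeasurableSet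
    _ = B.muD A := measure_inter_add_sdiff _ hG'

/-- constant in the small-set estimate -/
def Csm : ℝ := 6 * Real.pi * B.K ^ 2 * ((volume B.Q)⁻¹).toReal

theorem Csm_pos : 0 < B.Csm := by
  unfold Csm
  have h1 : 0 < ((volume B.Q)⁻¹).toReal :=
    ENNReal.toReal_pos (ENNReal.inv_ne_zero.2 B.vol_Q_ne_top) (ENNReal.inv_ne_top.2 B.vol_Q_pos)
  have := B.K_pos
  have := Real.pi_pos
  positivity

theorem small (r : ℝ) (hr : 0 < r) : B.muD {ω | B.d ω ≤ r} ≤ ENNReal.ofReal (B.Csm * r ^ 2) := by
  choose x₀ hx₀ using B.corner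
  have hK := B.K_pos
  rw [B.muD_apply (measurableSet_le B.measurable_d measurable_const)]
  have h1 : {ω | B.d ω ≤ r} ∩ B.QD ⊆
      ⋃ i, univ ×ˢ (Metric.closedBall (x₀ i) (B.K * r) ×ˢ univ) := by
    rintro ω ⟨h1, h2⟩
    have h3 : B.d2 ω.2.1 ≤ r := by rw [← B.d_of_canon (B.canon_of_mem h2)]; exact h1
    have h4 : ∀ j, B.l j ω.2.1 ≤ r → |B.l j ω.2.1| ≤ r := fun j hj => by
      rw [abs_of_pos (h2 j)]; exact hj
    unfold d2 at h3
    simp only [min_le_iff, max_le_iff] at h3
    simp only [mem_iUnion, mem_prod, mem_univ, true_and, and_true, mem_closedBall_iff_norm]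
    rcases h3 with h3 | h3 | h3
    · exact ⟨0, hx₀ 0 _ _ (h4 1 h3.1) (h4 2 h3.2)⟩
    · exact ⟨1, hx₀ 1 _ _ (h4 2 h3.1) (h4 0 h3.2)⟩
    · exact ⟨2, hx₀ 2 _ _ (h4 0 h3.1) (h4 1 h3.2)⟩
  have h2 : ∀ i, m0 (univ ×ˢ (Metric.closedBall (x₀ i) (B.K * r) ×ˢ univ)) =
      ENNReal.ofReal (2 * Real.pi * B.K ^ 2 * r ^ 2) := fun i => by
    rw [m0, Measure.prod_prod, m0Z, Measure.prod_prod, Complex.volume_closedBall,
      Measure.count_univ, measure_univ, mul_one]
    rw [show 2 * Real.pi * B.K ^ 2 * r ^ 2 = 2 * ((B.K * r) ^ 2 * Real.pi) by ring,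
      ENNReal.ofReal_mul zero_le_two, ENNReal.ofReal_mul (p := (B.K * r) ^ 2) (by positivity),
      ENNReal.ofReal_pow (by positivity)]
    simp [← NNReal.coe_real_pi]
  calc _ ≤ (volume B.Q)⁻¹ * ∑' _ : Fin 3, ENNReal.ofReal (2 * Real.pi * B.K ^ 2 * r ^ 2) := by
        gcongr
        refine (measure_mono h1).trans ((measure_iUnion_le _).trans (le_of_eq ?_))
        simp only [h2]
    _ = _ := by
        rw [tsum_fintype, Finset.sum_const, Finset.card_univ, Fintype.card_fin, nsmul_eq_mul,
          Csm, show 6 * Real.pi * B.K ^ 2 * ((volume B.Q)⁻¹).toReal * r ^ 2 =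
            ((volume B.Q)⁻¹).toReal * (3 * (2 * Real.pi * B.K ^ 2 * r ^ 2)) by ring,
          ENNReal.ofReal_mul ENNReal.toReal_nonneg,
          ENNReal.ofReal_toReal (ENNReal.inv_ne_top.2 B.vol_Q_pos),
          ENNReal.ofReal_mul (by norm_num : (0 : ℝ) ≤ 3)]
        simp

theorem d_pos_of_mem {ω : Dbl} (h : ω.2.1 ∈ B.Q) : 0 < B.d ω := by
  rw [B.d_of_canon (B.canon_of_mem h)]
  exact B.lt_d2_of (i := 0) fun j _ => h j

theorem contT : ∀ᵐ ω ∂B.muD, Tendsto (fun v => B.T v ω) (𝓝 0) (𝓝 ω) := by
  filter_upwards [B.ae_QD] with ω hω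
  have hc : Continuous fun v : ℂ => shift v ω := by
    obtain ⟨σ, x, θ⟩ := ω
    unfold shift
    cases σ <;> simp only [if_true, Bool.false_eq_true, if_false] <;> fun_prop
  have t1 : Tendsto (fun v : ℂ => shift v ω) (𝓝 0) (𝓝 ω) := by
    have := hc.tendsto 0
    rwa [shift_zero] at this
  refine t1.congr' ?_
  have hd := B.d_pos_of_mem hω
  have e1 : ∀ᶠ v : ℂ in 𝓝 0, 3 * ‖v‖ < B.d ω := by
    have : Continuous fun v : ℂ => 3 * ‖v‖ := by fun_prop
    exact this.continuousAt.eventually_lt continuousAt_const (by simpa using hd)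
  have e2 : ∀ᶠ v : ℂ in 𝓝 0, (shift v ω).2.1 ∈ B.Q :=
    ((continuous_fst.comp continuous_snd).tendsto ω).comp t1 (B.isOpen_Q.mem_nhds hω)
  filter_upwards [e1, e2] with v h1 h2
  rw [B.T_eq_T0 h1, T0, B.fold_of_canon (B.canon_of_mem h2)]

theorem contR (ω : Dbl) : Tendsto (fun s => rot s ω) (𝓝 0) (𝓝 ω) := by
  have hc : Continuous fun s : UnitAddCircle => rot s ω := by
    obtain ⟨σ, x, θ⟩ := ω
    unfold rot
    cases σ <;> simp only [if_true, Bool.false_eq_true, if_false] <;> fun_prop
  have := hc.tendsto 0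
  rwa [rot_zero] at this

end Tbl

end Vale.Agent.P099
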